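import Vale.Agent.Helper15.P302.PairCert

namespace Vale.Agent.Helper15.P302

def slotsEleven : List ℕ := [63, 68, 70, 79, 94, 96, 100, 121, 207, 210, 217]

def posEleven : List ℕ := [3, 6, 27, 35, 37, 37, 45, 47, 48, 49, 50, 51, 52, 53, 100, 103, 105, 106, 108, 110, 111]

def certEleven : Cert :=
 (.pair 27 3
 (.leaf 9 [(6, 6), (35, 3), (37, 3), (45, 3), (47, 3), (48, 3), (49, 3), (50, 3), (51, 3), (52, 3), (53, 3), (100, 2), (103, 1), (105, 1), (106, 1)] [(79, 3), (94, 3), (96, 3), (100, 3), (121, 3), (207, 6), (210, 7), (217, 8)])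
 (.pair 27 6
 (.leaf 9 [(3, 6), (35, 3), (37, 3), (45, 3), (47, 3), (48, 3), (49, 3), (50, 3), (51, 3), (52, 3), (53, 3), (100, 2), (103, 1), (105, 1), (106, 1)] [(79, 3), (94, 3), (96, 3), (100, 3), (121, 3), (207, 6), (210, 7), (217, 8)])
 (.pair 27 35
 (.pair 37 3
 (.leaf 9 [(6, 6), (37, 3), (45, 3), (47, 3), (48, 3), (49, 3), (50, 3), (51, 3), (52, 3), (53, 3), (100, 2), (103, 1), (105, 1), (106, 1)] [(94, 3), (96, 3), (100, 3), (121, 3), (207, 6), (210, 7), (217, 8)])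
 (.pair 37 6
 (.leaf 9 [(3, 6), (37, 3), (45, 3), (47, 3), (48, 3), (49, 3), (50, 3), (51, 3), (52, 3), (53, 3), (100, 2), (103, 1), (105, 1), (106, 1)] [(94, 3), (96, 3), (100, 3), (121, 3), (207, 6), (210, 7), (217, 8)])
 (.pair 37 37
 (.pair 45 3
 (.leaf 18 [(6, 12), (47, 9), (48, 9), (49, 9), (50, 6), (51, 6), (52, 6), (53, 6), (100, 4), (103, 2), (105, 2), (106, 2)] [(100, 3), (121, 6), (207, 12), (210, 14), (217, 16)])
 (.pair 45 6
 (.leaf 18 [(3, 12), (47, 9), (48, 9), (49, 9), (50, 6), (51, 6), (52, 6), (53, 6), (100, 4), (103, 2), (105, 2), (106, 2)] [(100, 3), (121, 6), (207, 12), (210, 14), (217, 16)])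
 (.pair 45 47
 (.leaf 9 [(3, 6), (6, 6), (48, 3), (49, 3), (50, 3), (51, 3), (52, 3), (53, 3), (100, 2), (103, 1), (105, 1), (106, 1)] [(100, 3), (121, 3), (207, 6), (210, 7), (217, 8)])
 (.pair 45 48
 (.pair 47 3
 (.leaf 9 [(6, 6), (49, 6), (50, 3), (51, 3), (52, 3), (53, 3), (100, 2), (103, 1), (105, 1), (106, 1)] [(121, 3), (207, 6), (210, 7), (217, 8)])
 (.pair 47 6
 (.leaf 9 [(3, 6), (49, 6), (50, 3), (51, 3), (52, 3), (53, 3), (100, 2), (103, 1), (105, 1), (106, 1)] [(121, 3), (207, 6), (210, 7), (217, 8)])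
 (.pair 47 49
 (.leaf 9 [(3, 6), (6, 6), (50, 3), (51, 3), (52, 3), (53, 3), (100, 2), (103, 1), (105, 1), (106, 1)] [(121, 3), (207, 6), (210, 7), (217, 8)])
 (.pair 47 50
 (.leaf 9 [(3, 6), (6, 6), (49, 3), (51, 3), (52, 3), (53, 3), (100, 2), (103, 1), (105, 1), (106, 1)] [(100, 3), (121, 3), (207, 6), (210, 7), (217, 8)])
 (.pair 47 51
 (.leaf 9 [(3, 6), (6, 6), (49, 3), (50, 3), (52, 3), (53, 3), (100, 2), (103, 1), (105, 1), (106, 1)] [(100, 3), (121, 3), (207, 6), (210, 7), (217, 8)])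
 (.pair 47 52
 (.leaf 9 [(3, 6), (6, 6), (49, 3), (50, 3), (51, 3), (53, 3), (100, 2), (103, 1), (105, 1), (106, 1)] [(100, 3), (121, 3), (207, 6), (210, 7), (217, 8)])
 (.pair 47 53
 (.leaf 9 [(3, 6), (6, 6), (49, 3), (50, 3), (51, 3), (52, 3), (100, 2), (103, 1), (105, 1), (106, 1)] [(100, 3), (121, 3), (207, 6), (210, 7), (217, 8)])
 (.pair 47 100
 (.leaf 3 [(3, 2), (6, 2), (49, 2), (50, 1), (51, 1), (52, 1), (53, 1)] [(121, 1), (207, 3), (210, 3), (217, 3)])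
 (.pair 47 103
 (.leaf 3 [(3, 2), (6, 2), (49, 2), (50, 1), (51, 1), (52, 1), (53, 1)] [(121, 1), (207, 3), (210, 3), (217, 3)])
 (.pair 47 105
 (.leaf 3 [(3, 2), (6, 2), (49, 2), (50, 1), (51, 1), (52, 1), (53, 1)] [(121, 1), (207, 3), (210, 3), (217, 3)])
 (.pair 47 106
 (.leaf 3 [(3, 2), (6, 2), (49, 2), (50, 1), (51, 1), (52, 1), (53, 1)] [(121, 1), (207, 3), (210, 3), (217, 3)])
 (.pair 47 108
 (.leaf 3 [(3, 2), (6, 2), (49, 2), (50, 1), (51, 1), (52, 1), (53, 1)] [(121, 1), (207, 3), (210, 3), (217, 3)])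
 (.pair 47 110
 (.leaf 3 [(3, 2), (6, 2), (49, 2), (50, 1), (51, 1), (52, 1), (53, 1)] [(121, 1), (207, 3), (210, 3), (217, 3)])
 (.pair 47 111
 (.leaf 3 [(3, 2), (6, 2), (49, 2), (50, 1), (51, 1), (52, 1), (53, 1)] [(121, 1), (207, 3), (210, 3), (217, 3)])
 (.absent 47
 (.leaf 9 [(3, 6), (6, 6), (49, 6), (50, 3), (51, 3), (52, 3), (53, 3), (100, 2), (103, 1), (105, 1), (106, 1)] [(121, 3), (207, 6), (210, 7), (217, 8)]))))))))))))))))
 (.pair 45 49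
 (.pair 47 3
 (.leaf 9 [(6, 6), (48, 6), (50, 3), (51, 3), (52, 3), (53, 3), (100, 2), (103, 1), (105, 1), (106, 1)] [(121, 3), (207, 6), (210, 7), (217, 8)])
 (.pair 47 6
 (.leaf 9 [(3, 6), (48, 6), (50, 3), (51, 3), (52, 3), (53, 3), (100, 2), (103, 1), (105, 1), (106, 1)] [(121, 3), (207, 6), (210, 7), (217, 8)])
 (.pair 47 48
 (.leaf 9 [(3, 6), (6, 6), (50, 3), (51, 3), (52, 3), (53, 3), (100, 2), (103, 1), (105, 1), (106, 1)] [(121, 3), (207, 6), (210, 7), (217, 8)])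
 (.pair 47 50
 (.leaf 9 [(3, 6), (6, 6), (48, 3), (51, 3), (52, 3), (53, 3), (100, 2), (103, 1), (105, 1), (106, 1)] [(100, 3), (121, 3), (207, 6), (210, 7), (217, 8)])
 (.pair 47 51
 (.leaf 9 [(3, 6), (6, 6), (48, 3), (50, 3), (52, 3), (53, 3), (100, 2), (103, 1), (105, 1), (106, 1)] [(100, 3), (121, 3), (207, 6), (210, 7), (217, 8)])
 (.pair 47 52
 (.leaf 9 [(3, 6), (6, 6), (48, 3), (50, 3), (51, 3), (53, 3), (100, 2), (103, 1), (105, 1), (106, 1)] [(100, 3), (121, 3), (207, 6), (210, 7), (217, 8)])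
 (.pair 47 53
 (.leaf 9 [(3, 6), (6, 6), (48, 3), (50, 3), (51, 3), (52, 3), (100, 2), (103, 1), (105, 1), (106, 1)] [(100, 3), (121, 3), (207, 6), (210, 7), (217, 8)])
 (.pair 47 100
 (.leaf 3 [(3, 2), (6, 2), (48, 2), (50, 1), (51, 1), (52, 1), (53, 1)] [(121, 1), (207, 3), (210, 3), (217, 3)])
 (.pair 47 103
 (.leaf 3 [(3, 2), (6, 2), (48, 2), (50, 1), (51, 1), (52, 1), (53, 1)] [(121, 1), (207, 3), (210, 3), (217, 3)])
 (.pair 47 105
 (.leaf 3 [(3, 2), (6, 2), (48, 2), (50, 1), (51, 1), (52, 1), (53, 1)] [(121, 1), (207, 3), (210, 3), (217, 3)])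
 (.pair 47 106
 (.leaf 3 [(3, 2), (6, 2), (48, 2), (50, 1), (51, 1), (52, 1), (53, 1)] [(121, 1), (207, 3), (210, 3), (217, 3)])
 (.pair 47 108
 (.leaf 3 [(3, 2), (6, 2), (48, 2), (50, 1), (51, 1), (52, 1), (53, 1)] [(121, 1), (207, 3), (210, 3), (217, 3)])
 (.pair 47 110
 (.leaf 3 [(3, 2), (6, 2), (48, 2), (50, 1), (51, 1), (52, 1), (53, 1)] [(121, 1), (207, 3), (210, 3), (217, 3)])
 (.pair 47 111
 (.leaf 3 [(3, 2), (6, 2), (48, 2), (50, 1), (51, 1), (52, 1), (53, 1)] [(121, 1), (207, 3), (210, 3), (217, 3)])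
 (.absent 47
 (.leaf 9 [(3, 6), (6, 6), (48, 6), (50, 3), (51, 3), (52, 3), (53, 3), (100, 2), (103, 1), (105, 1), (106, 1)] [(121, 3), (207, 6), (210, 7), (217, 8)]))))))))))))))))
 (.pair 45 50
 (.leaf 9 [(3, 6), (6, 6), (47, 3), (48, 3), (49, 3), (51, 3), (52, 3), (53, 3), (100, 2), (103, 1), (105, 1), (106, 1)] [(96, 3), (100, 3), (121, 3), (207, 6), (210, 7), (217, 8)])
 (.pair 45 51
 (.leaf 9 [(3, 6), (6, 6), (47, 3), (48, 3), (49, 3), (50, 3), (52, 3), (53, 3), (100, 2), (103, 1), (105, 1), (106, 1)] [(96, 3), (100, 3), (121, 3), (207, 6), (210, 7), (217, 8)])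
 (.pair 45 52
 (.leaf 9 [(3, 6), (6, 6), (47, 6), (48, 3), (49, 3), (50, 3), (51, 3), (53, 3), (100, 2), (103, 1), (105, 1), (106, 1)] [(100, 3), (121, 3), (207, 6), (210, 7), (217, 8)])
 (.pair 45 53
 (.leaf 9 [(3, 6), (6, 6), (47, 6), (48, 3), (49, 3), (50, 3), (51, 3), (52, 3), (100, 2), (103, 1), (105, 1), (106, 1)] [(100, 3), (121, 3), (207, 6), (210, 7), (217, 8)])
 (.pair 45 100
 (.leaf 6 [(3, 4), (6, 4), (47, 4), (48, 2), (49, 2), (50, 2), (51, 2), (52, 2), (53, 2), (103, 1), (105, 1), (106, 1)] [(100, 2), (121, 2), (207, 4), (210, 4), (217, 5)])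
 (.pair 45 103
 (.leaf 3 [(3, 2), (6, 2), (47, 2), (48, 1), (49, 1), (50, 1), (51, 1), (52, 1), (53, 1)] [(100, 1), (121, 1), (207, 3), (210, 3), (217, 3)])
 (.pair 45 105
 (.leaf 3 [(3, 2), (6, 2), (47, 2), (48, 1), (49, 1), (50, 1), (51, 1), (52, 1), (53, 1)] [(100, 1), (121, 1), (207, 3), (210, 3), (217, 3)])
 (.pair 45 106
 (.leaf 3 [(3, 2), (6, 2), (47, 2), (48, 1), (49, 1), (50, 1), (51, 1), (52, 1), (53, 1)] [(100, 1), (121, 1), (207, 3), (210, 3), (217, 3)])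
 (.pair 45 108
 (.leaf 3 [(3, 2), (6, 2), (47, 2), (48, 1), (49, 1), (50, 1), (51, 1), (52, 1), (53, 1)] [(100, 1), (121, 1), (207, 3), (210, 3), (217, 3)])
 (.pair 45 110
 (.leaf 3 [(3, 2), (6, 2), (47, 2), (48, 1), (49, 1), (50, 1), (51, 1), (52, 1), (53, 1)] [(100, 1), (121, 1), (207, 3), (210, 3), (217, 3)])
 (.pair 45 111
 (.leaf 3 [(3, 2), (6, 2), (47, 2), (48, 1), (49, 1), (50, 1), (51, 1), (52, 1), (53, 1)] [(100, 1), (121, 1), (207, 3), (210, 3), (217, 3)])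
 (.absent 45
 (.leaf 18 [(3, 12), (6, 12), (47, 9), (48, 9), (49, 9), (50, 6), (51, 6), (52, 6), (53, 6), (100, 4), (103, 2), (105, 2), (106, 2)] [(100, 3), (121, 6), (207, 12), (210, 14), (217, 16)]))))))))))))))))))
 (.pair 37 45
 (.leaf 9 [(3, 6), (6, 6), (37, 3), (47, 3), (48, 3), (49, 3), (50, 3), (51, 3), (52, 3), (53, 3), (100, 2), (103, 1), (105, 1), (106, 1)] [(94, 3), (96, 3), (100, 3), (121, 3), (207, 6), (210, 7), (217, 8)])
 (.pair 37 47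
 (.leaf 9 [(3, 6), (6, 6), (37, 3), (45, 3), (48, 3), (49, 3), (50, 3), (51, 3), (52, 3), (53, 3), (100, 2), (103, 1), (105, 1), (106, 1)] [(94, 3), (96, 3), (100, 3), (121, 3), (207, 6), (210, 7), (217, 8)])
 (.pair 37 48
 (.leaf 9 [(3, 6), (6, 6), (37, 3), (45, 3), (47, 3), (49, 3), (50, 3), (51, 3), (52, 3), (53, 3), (100, 2), (103, 1), (105, 1), (106, 1)] [(94, 3), (96, 3), (100, 3), (121, 3), (207, 6), (210, 7), (217, 8)])
 (.pair 37 49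
 (.leaf 9 [(3, 6), (6, 6), (37, 3), (45, 3), (47, 3), (48, 3), (50, 3), (51, 3), (52, 3), (53, 3), (100, 2), (103, 1), (105, 1), (106, 1)] [(94, 3), (96, 3), (100, 3), (121, 3), (207, 6), (210, 7), (217, 8)])
 (.pair 37 50
 (.leaf 9 [(3, 6), (6, 6), (37, 3), (45, 3), (47, 3), (48, 3), (49, 3), (51, 3), (52, 3), (53, 3), (100, 2), (103, 1), (105, 1), (106, 1)] [(94, 3), (96, 3), (100, 3), (121, 3), (207, 6), (210, 7), (217, 8)])
 (.pair 37 51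
 (.leaf 9 [(3, 6), (6, 6), (37, 3), (45, 3), (47, 3), (48, 3), (49, 3), (50, 3), (52, 3), (53, 3), (100, 2), (103, 1), (105, 1), (106, 1)] [(94, 3), (96, 3), (100, 3), (121, 3), (207, 6), (210, 7), (217, 8)])
 (.pair 37 52
 (.leaf 9 [(3, 6), (6, 6), (37, 3), (45, 3), (47, 3), (48, 3), (49, 3), (50, 3), (51, 3), (53, 3), (100, 2), (103, 1), (105, 1), (106, 1)] [(94, 3), (96, 3), (100, 3), (121, 3), (207, 6), (210, 7), (217, 8)])
 (.pair 37 53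
 (.leaf 9 [(3, 6), (6, 6), (37, 3), (45, 3), (47, 3), (48, 3), (49, 3), (50, 3), (51, 3), (52, 3), (100, 2), (103, 1), (105, 1), (106, 1)] [(94, 3), (96, 3), (100, 3), (121, 3), (207, 6), (210, 7), (217, 8)])
 (.pair 37 100
 (.leaf 3 [(3, 2), (6, 2), (37, 1), (45, 1), (47, 1), (48, 1), (49, 1), (50, 1), (51, 1), (52, 1), (53, 1)] [(94, 1), (96, 1), (100, 1), (121, 1), (207, 3), (210, 3), (217, 3)])
 (.pair 37 103
 (.leaf 3 [(3, 2), (6, 2), (37, 1), (45, 1), (47, 1), (48, 1), (49, 1), (50, 1), (51, 1), (52, 1), (53, 1)] [(94, 1), (96, 1), (100, 1), (121, 1), (207, 3), (210, 3), (217, 3)])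
 (.pair 37 105
 (.leaf 3 [(3, 2), (6, 2), (37, 1), (45, 1), (47, 1), (48, 1), (49, 1), (50, 1), (51, 1), (52, 1), (53, 1)] [(94, 1), (96, 1), (100, 1), (121, 1), (207, 3), (210, 3), (217, 3)])
 (.pair 37 106
 (.leaf 3 [(3, 2), (6, 2), (37, 1), (45, 1), (47, 1), (48, 1), (49, 1), (50, 1), (51, 1), (52, 1), (53, 1)] [(94, 1), (96, 1), (100, 1), (121, 1), (207, 3), (210, 3), (217, 3)])
 (.pair 37 108
 (.leaf 3 [(3, 2), (6, 2), (37, 1), (45, 1), (47, 1), (48, 1), (49, 1), (50, 1), (51, 1), (52, 1), (53, 1)] [(94, 1), (96, 1), (100, 1), (121, 1), (207, 3), (210, 3), (217, 3)])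
 (.pair 37 110
 (.leaf 3 [(3, 2), (6, 2), (37, 1), (45, 1), (47, 1), (48, 1), (49, 1), (50, 1), (51, 1), (52, 1), (53, 1)] [(94, 1), (96, 1), (100, 1), (121, 1), (207, 3), (210, 3), (217, 3)])
 (.pair 37 111
 (.leaf 3 [(3, 2), (6, 2), (37, 1), (45, 1), (47, 1), (48, 1), (49, 1), (50, 1), (51, 1), (52, 1), (53, 1)] [(94, 1), (96, 1), (100, 1), (121, 1), (207, 3), (210, 3), (217, 3)])
 (.absent 37
 (.leaf 9 [(3, 6), (6, 6), (37, 3), (45, 3), (47, 3), (48, 3), (49, 3), (50, 3), (51, 3), (52, 3), (53, 3), (100, 2), (103, 1), (105, 1), (106, 1)] [(94, 3), (96, 3), (100, 3), (121, 3), (207, 6), (210, 7), (217, 8)]))))))))))))))))))))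
 (.pair 27 37
 (.pair 35 3
 (.leaf 9 [(6, 6), (37, 3), (45, 3), (47, 3), (48, 3), (49, 3), (50, 3), (51, 3), (52, 3), (53, 3), (100, 2), (103, 1), (105, 1), (106, 1)] [(94, 3), (96, 3), (100, 3), (121, 3), (207, 6), (210, 7), (217, 8)])
 (.pair 35 6
 (.leaf 9 [(3, 6), (37, 3), (45, 3), (47, 3), (48, 3), (49, 3), (50, 3), (51, 3), (52, 3), (53, 3), (100, 2), (103, 1), (105, 1), (106, 1)] [(94, 3), (96, 3), (100, 3), (121, 3), (207, 6), (210, 7), (217, 8)])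
 (.pair 35 37
 (.pair 45 3
 (.leaf 18 [(6, 12), (47, 9), (48, 9), (49, 9), (50, 6), (51, 6), (52, 6), (53, 6), (100, 4), (103, 2), (105, 2), (106, 2)] [(100, 3), (121, 6), (207, 12), (210, 14), (217, 16)])
 (.pair 45 6
 (.leaf 18 [(3, 12), (47, 9), (48, 9), (49, 9), (50, 6), (51, 6), (52, 6), (53, 6), (100, 4), (103, 2), (105, 2), (106, 2)] [(100, 3), (121, 6), (207, 12), (210, 14), (217, 16)])
 (.pair 45 47
 (.leaf 9 [(3, 6), (6, 6), (48, 3), (49, 3), (50, 3), (51, 3), (52, 3), (53, 3), (100, 2), (103, 1), (105, 1), (106, 1)] [(100, 3), (121, 3), (207, 6), (210, 7), (217, 8)])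
 (.pair 45 48
 (.pair 47 3
 (.leaf 9 [(6, 6), (49, 6), (50, 3), (51, 3), (52, 3), (53, 3), (100, 2), (103, 1), (105, 1), (106, 1)] [(121, 3), (207, 6), (210, 7), (217, 8)])
 (.pair 47 6
 (.leaf 9 [(3, 6), (49, 6), (50, 3), (51, 3), (52, 3), (53, 3), (100, 2), (103, 1), (105, 1), (106, 1)] [(121, 3), (207, 6), (210, 7), (217, 8)])
 (.pair 47 49
 (.leaf 9 [(3, 6), (6, 6), (50, 3), (51, 3), (52, 3), (53, 3), (100, 2), (103, 1), (105, 1), (106, 1)] [(121, 3), (207, 6), (210, 7), (217, 8)])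
 (.pair 47 50
 (.leaf 9 [(3, 6), (6, 6), (49, 3), (51, 3), (52, 3), (53, 3), (100, 2), (103, 1), (105, 1), (106, 1)] [(100, 3), (121, 3), (207, 6), (210, 7), (217, 8)])
 (.pair 47 51
 (.leaf 9 [(3, 6), (6, 6), (49, 3), (50, 3), (52, 3), (53, 3), (100, 2), (103, 1), (105, 1), (106, 1)] [(100, 3), (121, 3), (207, 6), (210, 7), (217, 8)])
 (.pair 47 52
 (.leaf 9 [(3, 6), (6, 6), (49, 3), (50, 3), (51, 3), (53, 3), (100, 2), (103, 1), (105, 1), (106, 1)] [(100, 3), (121, 3), (207, 6), (210, 7), (217, 8)])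
 (.pair 47 53
 (.leaf 9 [(3, 6), (6, 6), (49, 3), (50, 3), (51, 3), (52, 3), (100, 2), (103, 1), (105, 1), (106, 1)] [(100, 3), (121, 3), (207, 6), (210, 7), (217, 8)])
 (.pair 47 100
 (.leaf 3 [(3, 2), (6, 2), (49, 2), (50, 1), (51, 1), (52, 1), (53, 1)] [(121, 1), (207, 3), (210, 3), (217, 3)])
 (.pair 47 103
 (.leaf 3 [(3, 2), (6, 2), (49, 2), (50, 1), (51, 1), (52, 1), (53, 1)] [(121, 1), (207, 3), (210, 3), (217, 3)])
 (.pair 47 105
 (.leaf 3 [(3, 2), (6, 2), (49, 2), (50, 1), (51, 1), (52, 1), (53, 1)] [(121, 1), (207, 3), (210, 3), (217, 3)])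
 (.pair 47 106
 (.leaf 3 [(3, 2), (6, 2), (49, 2), (50, 1), (51, 1), (52, 1), (53, 1)] [(121, 1), (207, 3), (210, 3), (217, 3)])
 (.pair 47 108
 (.leaf 3 [(3, 2), (6, 2), (49, 2), (50, 1), (51, 1), (52, 1), (53, 1)] [(121, 1), (207, 3), (210, 3), (217, 3)])
 (.pair 47 110
 (.leaf 3 [(3, 2), (6, 2), (49, 2), (50, 1), (51, 1), (52, 1), (53, 1)] [(121, 1), (207, 3), (210, 3), (217, 3)])
 (.pair 47 111
 (.leaf 3 [(3, 2), (6, 2), (49, 2), (50, 1), (51, 1), (52, 1), (53, 1)] [(121, 1), (207, 3), (210, 3), (217, 3)])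
 (.absent 47
 (.leaf 9 [(3, 6), (6, 6), (49, 6), (50, 3), (51, 3), (52, 3), (53, 3), (100, 2), (103, 1), (105, 1), (106, 1)] [(121, 3), (207, 6), (210, 7), (217, 8)]))))))))))))))))
 (.pair 45 49
 (.pair 47 3
 (.leaf 9 [(6, 6), (48, 6), (50, 3), (51, 3), (52, 3), (53, 3), (100, 2), (103, 1), (105, 1), (106, 1)] [(121, 3), (207, 6), (210, 7), (217, 8)])
 (.pair 47 6
 (.leaf 9 [(3, 6), (48, 6), (50, 3), (51, 3), (52, 3), (53, 3), (100, 2), (103, 1), (105, 1), (106, 1)] [(121, 3), (207, 6), (210, 7), (217, 8)])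
 (.pair 47 48
 (.leaf 9 [(3, 6), (6, 6), (50, 3), (51, 3), (52, 3), (53, 3), (100, 2), (103, 1), (105, 1), (106, 1)] [(121, 3), (207, 6), (210, 7), (217, 8)])
 (.pair 47 50
 (.leaf 9 [(3, 6), (6, 6), (48, 3), (51, 3), (52, 3), (53, 3), (100, 2), (103, 1), (105, 1), (106, 1)] [(100, 3), (121, 3), (207, 6), (210, 7), (217, 8)])
 (.pair 47 51
 (.leaf 9 [(3, 6), (6, 6), (48, 3), (50, 3), (52, 3), (53, 3), (100, 2), (103, 1), (105, 1), (106, 1)] [(100, 3), (121, 3), (207, 6), (210, 7), (217, 8)])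
 (.pair 47 52
 (.leaf 9 [(3, 6), (6, 6), (48, 3), (50, 3), (51, 3), (53, 3), (100, 2), (103, 1), (105, 1), (106, 1)] [(100, 3), (121, 3), (207, 6), (210, 7), (217, 8)])
 (.pair 47 53
 (.leaf 9 [(3, 6), (6, 6), (48, 3), (50, 3), (51, 3), (52, 3), (100, 2), (103, 1), (105, 1), (106, 1)] [(100, 3), (121, 3), (207, 6), (210, 7), (217, 8)])
 (.pair 47 100
 (.leaf 3 [(3, 2), (6, 2), (48, 2), (50, 1), (51, 1), (52, 1), (53, 1)] [(121, 1), (207, 3), (210, 3), (217, 3)])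
 (.pair 47 103
 (.leaf 3 [(3, 2), (6, 2), (48, 2), (50, 1), (51, 1), (52, 1), (53, 1)] [(121, 1), (207, 3), (210, 3), (217, 3)])
 (.pair 47 105
 (.leaf 3 [(3, 2), (6, 2), (48, 2), (50, 1), (51, 1), (52, 1), (53, 1)] [(121, 1), (207, 3), (210, 3), (217, 3)])
 (.pair 47 106
 (.leaf 3 [(3, 2), (6, 2), (48, 2), (50, 1), (51, 1), (52, 1), (53, 1)] [(121, 1), (207, 3), (210, 3), (217, 3)])
 (.pair 47 108
 (.leaf 3 [(3, 2), (6, 2), (48, 2), (50, 1), (51, 1), (52, 1), (53, 1)] [(121, 1), (207, 3), (210, 3), (217, 3)])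
 (.pair 47 110
 (.leaf 3 [(3, 2), (6, 2), (48, 2), (50, 1), (51, 1), (52, 1), (53, 1)] [(121, 1), (207, 3), (210, 3), (217, 3)])
 (.pair 47 111
 (.leaf 3 [(3, 2), (6, 2), (48, 2), (50, 1), (51, 1), (52, 1), (53, 1)] [(121, 1), (207, 3), (210, 3), (217, 3)])
 (.absent 47
 (.leaf 9 [(3, 6), (6, 6), (48, 6), (50, 3), (51, 3), (52, 3), (53, 3), (100, 2), (103, 1), (105, 1), (106, 1)] [(121, 3), (207, 6), (210, 7), (217, 8)]))))))))))))))))
 (.pair 45 50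
 (.leaf 9 [(3, 6), (6, 6), (47, 3), (48, 3), (49, 3), (51, 3), (52, 3), (53, 3), (100, 2), (103, 1), (105, 1), (106, 1)] [(96, 3), (100, 3), (121, 3), (207, 6), (210, 7), (217, 8)])
 (.pair 45 51
 (.leaf 9 [(3, 6), (6, 6), (47, 3), (48, 3), (49, 3), (50, 3), (52, 3), (53, 3), (100, 2), (103, 1), (105, 1), (106, 1)] [(96, 3), (100, 3), (121, 3), (207, 6), (210, 7), (217, 8)])
 (.pair 45 52
 (.leaf 9 [(3, 6), (6, 6), (47, 6), (48, 3), (49, 3), (50, 3), (51, 3), (53, 3), (100, 2), (103, 1), (105, 1), (106, 1)] [(100, 3), (121, 3), (207, 6), (210, 7), (217, 8)])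
 (.pair 45 53
 (.leaf 9 [(3, 6), (6, 6), (47, 6), (48, 3), (49, 3), (50, 3), (51, 3), (52, 3), (100, 2), (103, 1), (105, 1), (106, 1)] [(100, 3), (121, 3), (207, 6), (210, 7), (217, 8)])
 (.pair 45 100
 (.leaf 6 [(3, 4), (6, 4), (47, 4), (48, 2), (49, 2), (50, 2), (51, 2), (52, 2), (53, 2), (103, 1), (105, 1), (106, 1)] [(100, 2), (121, 2), (207, 4), (210, 4), (217, 5)])
 (.pair 45 103
 (.leaf 3 [(3, 2), (6, 2), (47, 2), (48, 1), (49, 1), (50, 1), (51, 1), (52, 1), (53, 1)] [(100, 1), (121, 1), (207, 3), (210, 3), (217, 3)])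
 (.pair 45 105
 (.leaf 3 [(3, 2), (6, 2), (47, 2), (48, 1), (49, 1), (50, 1), (51, 1), (52, 1), (53, 1)] [(100, 1), (121, 1), (207, 3), (210, 3), (217, 3)])
 (.pair 45 106
 (.leaf 3 [(3, 2), (6, 2), (47, 2), (48, 1), (49, 1), (50, 1), (51, 1), (52, 1), (53, 1)] [(100, 1), (121, 1), (207, 3), (210, 3), (217, 3)])
 (.pair 45 108
 (.leaf 3 [(3, 2), (6, 2), (47, 2), (48, 1), (49, 1), (50, 1), (51, 1), (52, 1), (53, 1)] [(100, 1), (121, 1), (207, 3), (210, 3), (217, 3)])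
 (.pair 45 110
 (.leaf 3 [(3, 2), (6, 2), (47, 2), (48, 1), (49, 1), (50, 1), (51, 1), (52, 1), (53, 1)] [(100, 1), (121, 1), (207, 3), (210, 3), (217, 3)])
 (.pair 45 111
 (.leaf 3 [(3, 2), (6, 2), (47, 2), (48, 1), (49, 1), (50, 1), (51, 1), (52, 1), (53, 1)] [(100, 1), (121, 1), (207, 3), (210, 3), (217, 3)])
 (.absent 45
 (.leaf 18 [(3, 12), (6, 12), (47, 9), (48, 9), (49, 9), (50, 6), (51, 6), (52, 6), (53, 6), (100, 4), (103, 2), (105, 2), (106, 2)] [(100, 3), (121, 6), (207, 12), (210, 14), (217, 16)]))))))))))))))))))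
 (.pair 35 45
 (.leaf 9 [(3, 6), (6, 6), (37, 3), (47, 3), (48, 3), (49, 3), (50, 3), (51, 3), (52, 3), (53, 3), (100, 2), (103, 1), (105, 1), (106, 1)] [(94, 3), (96, 3), (100, 3), (121, 3), (207, 6), (210, 7), (217, 8)])
 (.pair 35 47
 (.leaf 9 [(3, 6), (6, 6), (37, 3), (45, 3), (48, 3), (49, 3), (50, 3), (51, 3), (52, 3), (53, 3), (100, 2), (103, 1), (105, 1), (106, 1)] [(94, 3), (96, 3), (100, 3), (121, 3), (207, 6), (210, 7), (217, 8)])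
 (.pair 35 48
 (.leaf 9 [(3, 6), (6, 6), (37, 3), (45, 3), (47, 3), (49, 3), (50, 3), (51, 3), (52, 3), (53, 3), (100, 2), (103, 1), (105, 1), (106, 1)] [(94, 3), (96, 3), (100, 3), (121, 3), (207, 6), (210, 7), (217, 8)])
 (.pair 35 49
 (.leaf 9 [(3, 6), (6, 6), (37, 3), (45, 3), (47, 3), (48, 3), (50, 3), (51, 3), (52, 3), (53, 3), (100, 2), (103, 1), (105, 1), (106, 1)] [(94, 3), (96, 3), (100, 3), (121, 3), (207, 6), (210, 7), (217, 8)])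
 (.pair 35 50
 (.leaf 9 [(3, 6), (6, 6), (37, 3), (45, 3), (47, 3), (48, 3), (49, 3), (51, 3), (52, 3), (53, 3), (100, 2), (103, 1), (105, 1), (106, 1)] [(94, 3), (96, 3), (100, 3), (121, 3), (207, 6), (210, 7), (217, 8)])
 (.pair 35 51
 (.leaf 9 [(3, 6), (6, 6), (37, 3), (45, 3), (47, 3), (48, 3), (49, 3), (50, 3), (52, 3), (53, 3), (100, 2), (103, 1), (105, 1), (106, 1)] [(94, 3), (96, 3), (100, 3), (121, 3), (207, 6), (210, 7), (217, 8)])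
 (.pair 35 52
 (.leaf 9 [(3, 6), (6, 6), (37, 3), (45, 3), (47, 3), (48, 3), (49, 3), (50, 3), (51, 3), (53, 3), (100, 2), (103, 1), (105, 1), (106, 1)] [(94, 3), (96, 3), (100, 3), (121, 3), (207, 6), (210, 7), (217, 8)])
 (.pair 35 53
 (.leaf 9 [(3, 6), (6, 6), (37, 3), (45, 3), (47, 3), (48, 3), (49, 3), (50, 3), (51, 3), (52, 3), (100, 2), (103, 1), (105, 1), (106, 1)] [(94, 3), (96, 3), (100, 3), (121, 3), (207, 6), (210, 7), (217, 8)])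
 (.pair 35 100
 (.leaf 3 [(3, 2), (6, 2), (37, 1), (45, 1), (47, 1), (48, 1), (49, 1), (50, 1), (51, 1), (52, 1), (53, 1)] [(94, 1), (96, 1), (100, 1), (121, 1), (207, 3), (210, 3), (217, 3)])
 (.pair 35 103
 (.leaf 3 [(3, 2), (6, 2), (37, 1), (45, 1), (47, 1), (48, 1), (49, 1), (50, 1), (51, 1), (52, 1), (53, 1)] [(94, 1), (96, 1), (100, 1), (121, 1), (207, 3), (210, 3), (217, 3)])
 (.pair 35 105
 (.leaf 3 [(3, 2), (6, 2), (37, 1), (45, 1), (47, 1), (48, 1), (49, 1), (50, 1), (51, 1), (52, 1), (53, 1)] [(94, 1), (96, 1), (100, 1), (121, 1), (207, 3), (210, 3), (217, 3)])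
 (.pair 35 106
 (.leaf 3 [(3, 2), (6, 2), (37, 1), (45, 1), (47, 1), (48, 1), (49, 1), (50, 1), (51, 1), (52, 1), (53, 1)] [(94, 1), (96, 1), (100, 1), (121, 1), (207, 3), (210, 3), (217, 3)])
 (.pair 35 108
 (.leaf 3 [(3, 2), (6, 2), (37, 1), (45, 1), (47, 1), (48, 1), (49, 1), (50, 1), (51, 1), (52, 1), (53, 1)] [(94, 1), (96, 1), (100, 1), (121, 1), (207, 3), (210, 3), (217, 3)])
 (.pair 35 110
 (.leaf 3 [(3, 2), (6, 2), (37, 1), (45, 1), (47, 1), (48, 1), (49, 1), (50, 1), (51, 1), (52, 1), (53, 1)] [(94, 1), (96, 1), (100, 1), (121, 1), (207, 3), (210, 3), (217, 3)])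
 (.pair 35 111
 (.leaf 3 [(3, 2), (6, 2), (37, 1), (45, 1), (47, 1), (48, 1), (49, 1), (50, 1), (51, 1), (52, 1), (53, 1)] [(94, 1), (96, 1), (100, 1), (121, 1), (207, 3), (210, 3), (217, 3)])
 (.absent 35
 (.leaf 9 [(3, 6), (6, 6), (37, 3), (45, 3), (47, 3), (48, 3), (49, 3), (50, 3), (51, 3), (52, 3), (53, 3), (100, 2), (103, 1), (105, 1), (106, 1)] [(94, 3), (96, 3), (100, 3), (121, 3), (207, 6), (210, 7), (217, 8)]))))))))))))))))))))
 (.pair 27 45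
 (.leaf 9 [(3, 6), (6, 6), (35, 3), (37, 3), (47, 3), (48, 3), (49, 3), (50, 3), (51, 3), (52, 3), (53, 3), (100, 2), (103, 1), (105, 1), (106, 1)] [(79, 3), (94, 3), (96, 3), (100, 3), (121, 3), (207, 6), (210, 7), (217, 8)])
 (.pair 27 47
 (.leaf 9 [(3, 6), (6, 6), (35, 3), (37, 3), (45, 3), (48, 3), (49, 3), (50, 3), (51, 3), (52, 3), (53, 3), (100, 2), (103, 1), (105, 1), (106, 1)] [(79, 3), (94, 3), (96, 3), (100, 3), (121, 3), (207, 6), (210, 7), (217, 8)])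
 (.pair 27 48
 (.leaf 9 [(3, 6), (6, 6), (35, 3), (37, 3), (45, 3), (47, 3), (49, 3), (50, 3), (51, 3), (52, 3), (53, 3), (100, 2), (103, 1), (105, 1), (106, 1)] [(79, 3), (94, 3), (96, 3), (100, 3), (121, 3), (207, 6), (210, 7), (217, 8)])
 (.pair 27 49
 (.leaf 9 [(3, 6), (6, 6), (35, 3), (37, 3), (45, 3), (47, 3), (48, 3), (50, 3), (51, 3), (52, 3), (53, 3), (100, 2), (103, 1), (105, 1), (106, 1)] [(79, 3), (94, 3), (96, 3), (100, 3), (121, 3), (207, 6), (210, 7), (217, 8)])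
 (.pair 27 50
 (.leaf 9 [(3, 6), (6, 6), (35, 3), (37, 3), (45, 3), (47, 3), (48, 3), (49, 3), (51, 3), (52, 3), (53, 3), (100, 2), (103, 1), (105, 1), (106, 1)] [(79, 3), (94, 3), (96, 3), (100, 3), (121, 3), (207, 6), (210, 7), (217, 8)])
 (.pair 27 51
 (.leaf 9 [(3, 6), (6, 6), (35, 3), (37, 3), (45, 3), (47, 3), (48, 3), (49, 3), (50, 3), (52, 3), (53, 3), (100, 2), (103, 1), (105, 1), (106, 1)] [(79, 3), (94, 3), (96, 3), (100, 3), (121, 3), (207, 6), (210, 7), (217, 8)])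
 (.pair 27 52
 (.leaf 9 [(3, 6), (6, 6), (35, 3), (37, 3), (45, 3), (47, 3), (48, 3), (49, 3), (50, 3), (51, 3), (53, 3), (100, 2), (103, 1), (105, 1), (106, 1)] [(79, 3), (94, 3), (96, 3), (100, 3), (121, 3), (207, 6), (210, 7), (217, 8)])
 (.pair 27 53
 (.leaf 9 [(3, 6), (6, 6), (35, 3), (37, 3), (45, 3), (47, 3), (48, 3), (49, 3), (50, 3), (51, 3), (52, 3), (100, 2), (103, 1), (105, 1), (106, 1)] [(79, 3), (94, 3), (96, 3), (100, 3), (121, 3), (207, 6), (210, 7), (217, 8)])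
 (.pair 27 100
 (.leaf 3 [(3, 2), (6, 2), (35, 1), (37, 1), (45, 1), (47, 1), (48, 1), (49, 1), (50, 1), (51, 1), (52, 1), (53, 1)] [(79, 1), (94, 1), (96, 1), (100, 1), (121, 1), (207, 3), (210, 3), (217, 3)])
 (.pair 27 103
 (.leaf 3 [(3, 2), (6, 2), (35, 1), (37, 1), (45, 1), (47, 1), (48, 1), (49, 1), (50, 1), (51, 1), (52, 1), (53, 1)] [(79, 1), (94, 1), (96, 1), (100, 1), (121, 1), (207, 3), (210, 3), (217, 3)])
 (.pair 27 105
 (.leaf 3 [(3, 2), (6, 2), (35, 1), (37, 1), (45, 1), (47, 1), (48, 1), (49, 1), (50, 1), (51, 1), (52, 1), (53, 1)] [(79, 1), (94, 1), (96, 1), (100, 1), (121, 1), (207, 3), (210, 3), (217, 3)])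
 (.pair 27 106
 (.leaf 3 [(3, 2), (6, 2), (35, 1), (37, 1), (45, 1), (47, 1), (48, 1), (49, 1), (50, 1), (51, 1), (52, 1), (53, 1)] [(79, 1), (94, 1), (96, 1), (100, 1), (121, 1), (207, 3), (210, 3), (217, 3)])
 (.pair 27 108
 (.leaf 3 [(3, 2), (6, 2), (35, 1), (37, 1), (45, 1), (47, 1), (48, 1), (49, 1), (50, 1), (51, 1), (52, 1), (53, 1)] [(79, 1), (94, 1), (96, 1), (100, 1), (121, 1), (207, 3), (210, 3), (217, 3)])
 (.pair 27 110
 (.leaf 3 [(3, 2), (6, 2), (35, 1), (37, 1), (45, 1), (47, 1), (48, 1), (49, 1), (50, 1), (51, 1), (52, 1), (53, 1)] [(79, 1), (94, 1), (96, 1), (100, 1), (121, 1), (207, 3), (210, 3), (217, 3)])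
 (.pair 27 111
 (.leaf 3 [(3, 2), (6, 2), (35, 1), (37, 1), (45, 1), (47, 1), (48, 1), (49, 1), (50, 1), (51, 1), (52, 1), (53, 1)] [(79, 1), (94, 1), (96, 1), (100, 1), (121, 1), (207, 3), (210, 3), (217, 3)])
 (.absent 27
 (.leaf 9 [(3, 6), (6, 6), (35, 3), (37, 3), (45, 3), (47, 3), (48, 3), (49, 3), (50, 3), (51, 3), (52, 3), (53, 3), (100, 2), (103, 1), (105, 1), (106, 1)] [(79, 3), (94, 3), (96, 3), (100, 3), (121, 3), (207, 6), (210, 7), (217, 8)])))))))))))))))))))))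

theorem checkEleven : check slotsEleven posEleven [] 10 [] certEleven = true := by decide +kernel

theorem noPairsEleven (m : List (ℕ × ℕ × ℕ)) (hlen : m.length = 10)
    (hslots : (m.map (fun t => t.1)).Subperm slotsEleven)
    (hpos : (m.flatMap (fun t => [t.2.1, t.2.2])).Subperm posEleven)
    (hfit : ∀ t ∈ m, t.2.1 + t.2.2 ≤ t.1) : False :=
  no_pairs_of_check slotsEleven posEleven 10 certEleven checkEleven m hlen hslots hpos hfit

end Vale.Agent.Helper15.P302
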