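import Vale.Agent.Helper15.P302.PairCert

namespace Vale.Agent.Helper15.P302

def slotsFifteen : List ℕ := [129, 134, 136, 145, 160, 162, 166, 187, 272, 276, 283, 418, 807, 810, 817]

def posFifteen : List ℕ := [1, 36, 41, 60, 68, 70, 70, 78, 80, 81, 82, 83, 84, 85, 86, 133, 136, 138, 139, 141, 143, 144, 400, 403, 405, 406, 408, 410, 411]

def certFifteen_0 : Cert :=
 (.pair 78 82
 (.pair 80 36
 (.leaf 9 [(41, 6), (81, 6), (83, 3), (84, 3), (85, 3), (86, 3), (133, 2), (136, 1), (138, 1), (139, 1)] [(187, 3), (272, 6), (276, 7), (283, 8), (418, 9), (807, 9), (810, 9), (817, 9)])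
 (.pair 80 41
 (.leaf 9 [(36, 6), (81, 6), (83, 3), (84, 3), (85, 3), (86, 3), (133, 2), (136, 1), (138, 1), (139, 1)] [(187, 3), (272, 6), (276, 7), (283, 8), (418, 9), (807, 9), (810, 9), (817, 9)])
 (.pair 80 81
 (.leaf 9 [(36, 6), (41, 6), (83, 3), (84, 3), (85, 3), (86, 3), (133, 2), (136, 1), (138, 1), (139, 1)] [(187, 3), (272, 6), (276, 7), (283, 8), (418, 9), (807, 9), (810, 9), (817, 9)])
 (.pair 80 83
 (.leaf 9 [(36, 6), (41, 6), (81, 3), (84, 3), (85, 3), (86, 3), (133, 2), (136, 1), (138, 1), (139, 1)] [(166, 3), (187, 3), (272, 6), (276, 7), (283, 8), (418, 9), (807, 9), (810, 9), (817, 9)])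
 (.pair 80 84
 (.leaf 9 [(36, 6), (41, 6), (81, 3), (83, 3), (85, 3), (86, 3), (133, 2), (136, 1), (138, 1), (139, 1)] [(166, 3), (187, 3), (272, 6), (276, 7), (283, 8), (418, 9), (807, 9), (810, 9), (817, 9)])
 (.pair 80 85
 (.leaf 9 [(36, 6), (41, 6), (81, 3), (83, 3), (84, 3), (86, 3), (133, 2), (136, 1), (138, 1), (139, 1)] [(166, 3), (187, 3), (272, 6), (276, 7), (283, 8), (418, 9), (807, 9), (810, 9), (817, 9)])
 (.pair 80 86
 (.leaf 9 [(36, 6), (41, 6), (81, 3), (83, 3), (84, 3), (85, 3), (133, 2), (136, 1), (138, 1), (139, 1)] [(166, 3), (187, 3), (272, 6), (276, 7), (283, 8), (418, 9), (807, 9), (810, 9), (817, 9)])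
 (.pair 80 133
 (.leaf 3 [(36, 2), (41, 2), (81, 2), (83, 1), (84, 1), (85, 1), (86, 1)] [(187, 1), (272, 3), (276, 3), (283, 3), (418, 3), (807, 3), (810, 3), (817, 3)])
 (.pair 80 136
 (.leaf 3 [(36, 2), (41, 2), (81, 2), (83, 1), (84, 1), (85, 1), (86, 1)] [(187, 1), (272, 3), (276, 3), (283, 3), (418, 3), (807, 3), (810, 3), (817, 3)])
 (.pair 80 138
 (.leaf 3 [(36, 2), (41, 2), (81, 2), (83, 1), (84, 1), (85, 1), (86, 1)] [(187, 1), (272, 3), (276, 3), (283, 3), (418, 3), (807, 3), (810, 3), (817, 3)])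
 (.pair 80 139
 (.leaf 3 [(36, 2), (41, 2), (81, 2), (83, 1), (84, 1), (85, 1), (86, 1)] [(187, 1), (272, 3), (276, 3), (283, 3), (418, 3), (807, 3), (810, 3), (817, 3)])
 (.pair 80 141
 (.leaf 3 [(36, 2), (41, 2), (81, 2), (83, 1), (84, 1), (85, 1), (86, 1)] [(187, 1), (272, 3), (276, 3), (283, 3), (418, 3), (807, 3), (810, 3), (817, 3)])
 (.pair 80 143
 (.leaf 3 [(36, 2), (41, 2), (81, 2), (83, 1), (84, 1), (85, 1), (86, 1)] [(187, 1), (272, 3), (276, 3), (283, 3), (418, 3), (807, 3), (810, 3), (817, 3)])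
 (.pair 80 144
 (.leaf 3 [(36, 2), (41, 2), (81, 2), (83, 1), (84, 1), (85, 1), (86, 1)] [(187, 1), (272, 3), (276, 3), (283, 3), (418, 3), (807, 3), (810, 3), (817, 3)])
 (.pair 80 403
 (.leaf 2 [(36, 1), (41, 1), (81, 1), (83, 1), (84, 1), (85, 1), (86, 1), (133, 1), (136, 1), (138, 1), (139, 1), (141, 1), (143, 1), (144, 1)] [(418, 1), (807, 1), (810, 1), (817, 2)])
 (.pair 80 405
 (.leaf 9 [(36, 6), (41, 6), (81, 3), (83, 3), (84, 3), (85, 3), (86, 3), (133, 2), (136, 1), (138, 1), (139, 1)] [(166, 3), (187, 3), (272, 6), (276, 7), (283, 8), (418, 9), (807, 9), (810, 9), (817, 9)])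
 (.pair 80 406
 (.leaf 9 [(36, 6), (41, 6), (81, 3), (83, 3), (84, 3), (85, 3), (86, 3), (133, 2), (136, 1), (138, 1), (139, 1)] [(166, 3), (187, 3), (272, 6), (276, 7), (283, 8), (418, 9), (807, 9), (810, 9), (817, 9)])
 (.pair 80 408
 (.leaf 9 [(36, 6), (41, 6), (81, 3), (83, 3), (84, 3), (85, 3), (86, 3), (133, 2), (136, 1), (138, 1), (139, 1)] [(166, 3), (187, 3), (272, 6), (276, 7), (283, 8), (418, 9), (807, 9), (810, 9), (817, 9)])
 (.pair 80 410
 (.leaf 9 [(36, 6), (41, 6), (81, 3), (83, 3), (84, 3), (85, 3), (86, 3), (133, 2), (136, 1), (138, 1), (139, 1)] [(166, 3), (187, 3), (272, 6), (276, 7), (283, 8), (418, 9), (807, 9), (810, 9), (817, 9)])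
 (.pair 80 411
 (.leaf 9 [(36, 6), (41, 6), (81, 3), (83, 3), (84, 3), (85, 3), (86, 3), (133, 2), (136, 1), (138, 1), (139, 1)] [(166, 3), (187, 3), (272, 6), (276, 7), (283, 8), (418, 9), (807, 9), (810, 9), (817, 9)])
 (.absent 80
 (.leaf 4 [(36, 2), (41, 2), (81, 2), (83, 2), (84, 2), (85, 2), (86, 2), (133, 2), (136, 2), (138, 2), (139, 2), (141, 2), (143, 2), (144, 2), (403, 1), (405, 1), (406, 1)] [(418, 2), (807, 2), (810, 2), (817, 3)]))))))))))))))))))))))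
 (.pair 78 83
 (.leaf 9 [(36, 6), (41, 6), (80, 3), (81, 3), (82, 3), (84, 3), (85, 3), (86, 3), (133, 2), (136, 1), (138, 1), (139, 1)] [(162, 3), (166, 3), (187, 3), (272, 6), (276, 7), (283, 8), (418, 9), (807, 9), (810, 9), (817, 9)])
 (.pair 78 84
 (.leaf 9 [(36, 6), (41, 6), (80, 3), (81, 3), (82, 3), (83, 3), (85, 3), (86, 3), (133, 2), (136, 1), (138, 1), (139, 1)] [(162, 3), (166, 3), (187, 3), (272, 6), (276, 7), (283, 8), (418, 9), (807, 9), (810, 9), (817, 9)])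
 (.pair 78 85
 (.leaf 9 [(36, 6), (41, 6), (80, 6), (81, 3), (82, 3), (83, 3), (84, 3), (86, 3), (133, 2), (136, 1), (138, 1), (139, 1)] [(166, 3), (187, 3), (272, 6), (276, 7), (283, 8), (418, 9), (807, 9), (810, 9), (817, 9)])
 (.pair 78 86
 (.leaf 9 [(36, 6), (41, 6), (80, 6), (81, 3), (82, 3), (83, 3), (84, 3), (85, 3), (133, 2), (136, 1), (138, 1), (139, 1)] [(166, 3), (187, 3), (272, 6), (276, 7), (283, 8), (418, 9), (807, 9), (810, 9), (817, 9)])
 (.pair 78 133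
 (.leaf 3 [(36, 2), (41, 2), (80, 2), (81, 1), (82, 1), (83, 1), (84, 1), (85, 1), (86, 1)] [(166, 1), (187, 1), (272, 3), (276, 3), (283, 3), (418, 3), (807, 3), (810, 3), (817, 3)])
 (.pair 78 136
 (.leaf 3 [(36, 2), (41, 2), (80, 2), (81, 1), (82, 1), (83, 1), (84, 1), (85, 1), (86, 1)] [(166, 1), (187, 1), (272, 3), (276, 3), (283, 3), (418, 3), (807, 3), (810, 3), (817, 3)])
 (.pair 78 138
 (.leaf 3 [(36, 2), (41, 2), (80, 2), (81, 1), (82, 1), (83, 1), (84, 1), (85, 1), (86, 1)] [(166, 1), (187, 1), (272, 3), (276, 3), (283, 3), (418, 3), (807, 3), (810, 3), (817, 3)])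
 (.pair 78 139
 (.leaf 3 [(36, 2), (41, 2), (80, 2), (81, 1), (82, 1), (83, 1), (84, 1), (85, 1), (86, 1)] [(166, 1), (187, 1), (272, 3), (276, 3), (283, 3), (418, 3), (807, 3), (810, 3), (817, 3)])
 (.pair 78 141
 (.leaf 3 [(36, 2), (41, 2), (80, 2), (81, 1), (82, 1), (83, 1), (84, 1), (85, 1), (86, 1)] [(166, 1), (187, 1), (272, 3), (276, 3), (283, 3), (418, 3), (807, 3), (810, 3), (817, 3)])
 (.pair 78 143
 (.leaf 3 [(36, 2), (41, 2), (80, 2), (81, 1), (82, 1), (83, 1), (84, 1), (85, 1), (86, 1)] [(166, 1), (187, 1), (272, 3), (276, 3), (283, 3), (418, 3), (807, 3), (810, 3), (817, 3)])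
 (.pair 78 144
 (.leaf 3 [(36, 2), (41, 2), (80, 2), (81, 1), (82, 1), (83, 1), (84, 1), (85, 1), (86, 1)] [(166, 1), (187, 1), (272, 3), (276, 3), (283, 3), (418, 3), (807, 3), (810, 3), (817, 3)])
 (.pair 78 403
 (.leaf 2 [(36, 1), (41, 1), (80, 1), (81, 1), (82, 1), (83, 1), (84, 1), (85, 1), (86, 1), (133, 1), (136, 1), (138, 1), (139, 1), (141, 1), (143, 1), (144, 1)] [(418, 1), (807, 1), (810, 1), (817, 2)])
 (.pair 78 405
 (.leaf 9 [(36, 6), (41, 6), (80, 6), (81, 3), (82, 3), (83, 3), (84, 3), (85, 3), (86, 3), (133, 2), (136, 1), (138, 1), (139, 1)] [(166, 3), (187, 3), (272, 6), (276, 7), (283, 8), (418, 9), (807, 9), (810, 9), (817, 9)])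
 (.pair 78 406
 (.leaf 9 [(36, 6), (41, 6), (80, 6), (81, 3), (82, 3), (83, 3), (84, 3), (85, 3), (86, 3), (133, 2), (136, 1), (138, 1), (139, 1)] [(166, 3), (187, 3), (272, 6), (276, 7), (283, 8), (418, 9), (807, 9), (810, 9), (817, 9)])
 (.pair 78 408
 (.leaf 9 [(36, 6), (41, 6), (80, 6), (81, 3), (82, 3), (83, 3), (84, 3), (85, 3), (86, 3), (133, 2), (136, 1), (138, 1), (139, 1)] [(166, 3), (187, 3), (272, 6), (276, 7), (283, 8), (418, 9), (807, 9), (810, 9), (817, 9)])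
 (.pair 78 410
 (.leaf 9 [(36, 6), (41, 6), (80, 6), (81, 3), (82, 3), (83, 3), (84, 3), (85, 3), (86, 3), (133, 2), (136, 1), (138, 1), (139, 1)] [(166, 3), (187, 3), (272, 6), (276, 7), (283, 8), (418, 9), (807, 9), (810, 9), (817, 9)])
 (.pair 78 411
 (.leaf 9 [(36, 6), (41, 6), (80, 6), (81, 3), (82, 3), (83, 3), (84, 3), (85, 3), (86, 3), (133, 2), (136, 1), (138, 1), (139, 1)] [(166, 3), (187, 3), (272, 6), (276, 7), (283, 8), (418, 9), (807, 9), (810, 9), (817, 9)])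
 (.absent 78
 (.leaf 2 [(36, 1), (41, 1), (80, 1), (81, 1), (82, 1), (83, 1), (84, 1), (85, 1), (86, 1), (133, 1), (136, 1), (138, 1), (139, 1), (141, 1), (143, 1), (144, 1)] [(418, 1), (807, 1), (810, 2), (817, 2)]))))))))))))))))))))

def certFifteen_1 : Cert :=
 (.pair 70 70
 (.pair 78 36
 (.leaf 18 [(41, 12), (80, 9), (81, 9), (82, 9), (83, 6), (84, 6), (85, 6), (86, 6), (133, 4), (136, 2), (138, 2), (139, 2)] [(166, 3), (187, 6), (272, 12), (276, 14), (283, 16), (418, 18), (807, 18), (810, 18), (817, 18)])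
 (.pair 78 41
 (.leaf 18 [(36, 12), (80, 9), (81, 9), (82, 9), (83, 6), (84, 6), (85, 6), (86, 6), (133, 4), (136, 2), (138, 2), (139, 2)] [(166, 3), (187, 6), (272, 12), (276, 14), (283, 16), (418, 18), (807, 18), (810, 18), (817, 18)])
 (.pair 78 80
 (.leaf 9 [(36, 6), (41, 6), (81, 3), (82, 3), (83, 3), (84, 3), (85, 3), (86, 3), (133, 2), (136, 1), (138, 1), (139, 1)] [(166, 3), (187, 3), (272, 6), (276, 7), (283, 8), (418, 9), (807, 9), (810, 9), (817, 9)])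
 (.pair 78 81
 (.pair 80 36
 (.leaf 9 [(41, 6), (82, 6), (83, 3), (84, 3), (85, 3), (86, 3), (133, 2), (136, 1), (138, 1), (139, 1)] [(187, 3), (272, 6), (276, 7), (283, 8), (418, 9), (807, 9), (810, 9), (817, 9)])
 (.pair 80 41
 (.leaf 9 [(36, 6), (82, 6), (83, 3), (84, 3), (85, 3), (86, 3), (133, 2), (136, 1), (138, 1), (139, 1)] [(187, 3), (272, 6), (276, 7), (283, 8), (418, 9), (807, 9), (810, 9), (817, 9)])
 (.pair 80 82
 (.leaf 9 [(36, 6), (41, 6), (83, 3), (84, 3), (85, 3), (86, 3), (133, 2), (136, 1), (138, 1), (139, 1)] [(187, 3), (272, 6), (276, 7), (283, 8), (418, 9), (807, 9), (810, 9), (817, 9)])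
 (.pair 80 83
 (.leaf 9 [(36, 6), (41, 6), (82, 3), (84, 3), (85, 3), (86, 3), (133, 2), (136, 1), (138, 1), (139, 1)] [(166, 3), (187, 3), (272, 6), (276, 7), (283, 8), (418, 9), (807, 9), (810, 9), (817, 9)])
 (.pair 80 84
 (.leaf 9 [(36, 6), (41, 6), (82, 3), (83, 3), (85, 3), (86, 3), (133, 2), (136, 1), (138, 1), (139, 1)] [(166, 3), (187, 3), (272, 6), (276, 7), (283, 8), (418, 9), (807, 9), (810, 9), (817, 9)])
 (.pair 80 85
 (.leaf 9 [(36, 6), (41, 6), (82, 3), (83, 3), (84, 3), (86, 3), (133, 2), (136, 1), (138, 1), (139, 1)] [(166, 3), (187, 3), (272, 6), (276, 7), (283, 8), (418, 9), (807, 9), (810, 9), (817, 9)])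
 (.pair 80 86
 (.leaf 9 [(36, 6), (41, 6), (82, 3), (83, 3), (84, 3), (85, 3), (133, 2), (136, 1), (138, 1), (139, 1)] [(166, 3), (187, 3), (272, 6), (276, 7), (283, 8), (418, 9), (807, 9), (810, 9), (817, 9)])
 (.pair 80 133
 (.leaf 3 [(36, 2), (41, 2), (82, 2), (83, 1), (84, 1), (85, 1), (86, 1)] [(187, 1), (272, 3), (276, 3), (283, 3), (418, 3), (807, 3), (810, 3), (817, 3)])
 (.pair 80 136
 (.leaf 3 [(36, 2), (41, 2), (82, 2), (83, 1), (84, 1), (85, 1), (86, 1)] [(187, 1), (272, 3), (276, 3), (283, 3), (418, 3), (807, 3), (810, 3), (817, 3)])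
 (.pair 80 138
 (.leaf 3 [(36, 2), (41, 2), (82, 2), (83, 1), (84, 1), (85, 1), (86, 1)] [(187, 1), (272, 3), (276, 3), (283, 3), (418, 3), (807, 3), (810, 3), (817, 3)])
 (.pair 80 139
 (.leaf 3 [(36, 2), (41, 2), (82, 2), (83, 1), (84, 1), (85, 1), (86, 1)] [(187, 1), (272, 3), (276, 3), (283, 3), (418, 3), (807, 3), (810, 3), (817, 3)])
 (.pair 80 141
 (.leaf 3 [(36, 2), (41, 2), (82, 2), (83, 1), (84, 1), (85, 1), (86, 1)] [(187, 1), (272, 3), (276, 3), (283, 3), (418, 3), (807, 3), (810, 3), (817, 3)])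
 (.pair 80 143
 (.leaf 3 [(36, 2), (41, 2), (82, 2), (83, 1), (84, 1), (85, 1), (86, 1)] [(187, 1), (272, 3), (276, 3), (283, 3), (418, 3), (807, 3), (810, 3), (817, 3)])
 (.pair 80 144
 (.leaf 3 [(36, 2), (41, 2), (82, 2), (83, 1), (84, 1), (85, 1), (86, 1)] [(187, 1), (272, 3), (276, 3), (283, 3), (418, 3), (807, 3), (810, 3), (817, 3)])
 (.pair 80 403
 (.leaf 2 [(36, 1), (41, 1), (82, 1), (83, 1), (84, 1), (85, 1), (86, 1), (133, 1), (136, 1), (138, 1), (139, 1), (141, 1), (143, 1), (144, 1)] [(418, 1), (807, 1), (810, 1), (817, 2)])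
 (.pair 80 405
 (.leaf 9 [(36, 6), (41, 6), (82, 3), (83, 3), (84, 3), (85, 3), (86, 3), (133, 2), (136, 1), (138, 1), (139, 1)] [(166, 3), (187, 3), (272, 6), (276, 7), (283, 8), (418, 9), (807, 9), (810, 9), (817, 9)])
 (.pair 80 406
 (.leaf 9 [(36, 6), (41, 6), (82, 3), (83, 3), (84, 3), (85, 3), (86, 3), (133, 2), (136, 1), (138, 1), (139, 1)] [(166, 3), (187, 3), (272, 6), (276, 7), (283, 8), (418, 9), (807, 9), (810, 9), (817, 9)])
 (.pair 80 408
 (.leaf 9 [(36, 6), (41, 6), (82, 3), (83, 3), (84, 3), (85, 3), (86, 3), (133, 2), (136, 1), (138, 1), (139, 1)] [(166, 3), (187, 3), (272, 6), (276, 7), (283, 8), (418, 9), (807, 9), (810, 9), (817, 9)])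
 (.pair 80 410
 (.leaf 9 [(36, 6), (41, 6), (82, 3), (83, 3), (84, 3), (85, 3), (86, 3), (133, 2), (136, 1), (138, 1), (139, 1)] [(166, 3), (187, 3), (272, 6), (276, 7), (283, 8), (418, 9), (807, 9), (810, 9), (817, 9)])
 (.pair 80 411
 (.leaf 9 [(36, 6), (41, 6), (82, 3), (83, 3), (84, 3), (85, 3), (86, 3), (133, 2), (136, 1), (138, 1), (139, 1)] [(166, 3), (187, 3), (272, 6), (276, 7), (283, 8), (418, 9), (807, 9), (810, 9), (817, 9)])
 (.absent 80
 (.leaf 4 [(36, 2), (41, 2), (82, 2), (83, 2), (84, 2), (85, 2), (86, 2), (133, 2), (136, 2), (138, 2), (139, 2), (141, 2), (143, 2), (144, 2), (403, 1), (405, 1), (406, 1)] [(418, 2), (807, 2), (810, 2), (817, 3)]))))))))))))))))))))))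
 certFifteen_0))))
 (.pair 70 78
 (.leaf 9 [(36, 6), (41, 6), (70, 3), (80, 3), (81, 3), (82, 3), (83, 3), (84, 3), (85, 3), (86, 3), (133, 2), (136, 1), (138, 1), (139, 1)] [(160, 3), (162, 3), (166, 3), (187, 3), (272, 6), (276, 7), (283, 8), (418, 9), (807, 9), (810, 9), (817, 9)])
 (.pair 70 80
 (.leaf 9 [(36, 6), (41, 6), (70, 3), (78, 3), (81, 3), (82, 3), (83, 3), (84, 3), (85, 3), (86, 3), (133, 2), (136, 1), (138, 1), (139, 1)] [(160, 3), (162, 3), (166, 3), (187, 3), (272, 6), (276, 7), (283, 8), (418, 9), (807, 9), (810, 9), (817, 9)])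
 (.pair 70 81
 (.leaf 9 [(36, 6), (41, 6), (70, 3), (78, 3), (80, 3), (82, 3), (83, 3), (84, 3), (85, 3), (86, 3), (133, 2), (136, 1), (138, 1), (139, 1)] [(160, 3), (162, 3), (166, 3), (187, 3), (272, 6), (276, 7), (283, 8), (418, 9), (807, 9), (810, 9), (817, 9)])
 (.pair 70 82
 (.leaf 9 [(36, 6), (41, 6), (70, 3), (78, 3), (80, 3), (81, 3), (83, 3), (84, 3), (85, 3), (86, 3), (133, 2), (136, 1), (138, 1), (139, 1)] [(160, 3), (162, 3), (166, 3), (187, 3), (272, 6), (276, 7), (283, 8), (418, 9), (807, 9), (810, 9), (817, 9)])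
 (.pair 70 83
 (.leaf 9 [(36, 6), (41, 6), (70, 3), (78, 3), (80, 3), (81, 3), (82, 3), (84, 3), (85, 3), (86, 3), (133, 2), (136, 1), (138, 1), (139, 1)] [(160, 3), (162, 3), (166, 3), (187, 3), (272, 6), (276, 7), (283, 8), (418, 9), (807, 9), (810, 9), (817, 9)])
 (.pair 70 84
 (.leaf 9 [(36, 6), (41, 6), (70, 3), (78, 3), (80, 3), (81, 3), (82, 3), (83, 3), (85, 3), (86, 3), (133, 2), (136, 1), (138, 1), (139, 1)] [(160, 3), (162, 3), (166, 3), (187, 3), (272, 6), (276, 7), (283, 8), (418, 9), (807, 9), (810, 9), (817, 9)])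
 (.pair 70 85
 (.leaf 9 [(36, 6), (41, 6), (70, 3), (78, 3), (80, 3), (81, 3), (82, 3), (83, 3), (84, 3), (86, 3), (133, 2), (136, 1), (138, 1), (139, 1)] [(160, 3), (162, 3), (166, 3), (187, 3), (272, 6), (276, 7), (283, 8), (418, 9), (807, 9), (810, 9), (817, 9)])
 (.pair 70 86
 (.leaf 9 [(36, 6), (41, 6), (70, 3), (78, 3), (80, 3), (81, 3), (82, 3), (83, 3), (84, 3), (85, 3), (133, 2), (136, 1), (138, 1), (139, 1)] [(160, 3), (162, 3), (166, 3), (187, 3), (272, 6), (276, 7), (283, 8), (418, 9), (807, 9), (810, 9), (817, 9)])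
 (.pair 70 133
 (.leaf 3 [(36, 2), (41, 2), (70, 1), (78, 1), (80, 1), (81, 1), (82, 1), (83, 1), (84, 1), (85, 1), (86, 1)] [(160, 1), (162, 1), (166, 1), (187, 1), (272, 3), (276, 3), (283, 3), (418, 3), (807, 3), (810, 3), (817, 3)])
 (.pair 70 136
 (.leaf 3 [(36, 2), (41, 2), (70, 1), (78, 1), (80, 1), (81, 1), (82, 1), (83, 1), (84, 1), (85, 1), (86, 1)] [(160, 1), (162, 1), (166, 1), (187, 1), (272, 3), (276, 3), (283, 3), (418, 3), (807, 3), (810, 3), (817, 3)])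
 (.pair 70 138
 (.leaf 3 [(36, 2), (41, 2), (70, 1), (78, 1), (80, 1), (81, 1), (82, 1), (83, 1), (84, 1), (85, 1), (86, 1)] [(160, 1), (162, 1), (166, 1), (187, 1), (272, 3), (276, 3), (283, 3), (418, 3), (807, 3), (810, 3), (817, 3)])
 (.pair 70 139
 (.leaf 3 [(36, 2), (41, 2), (70, 1), (78, 1), (80, 1), (81, 1), (82, 1), (83, 1), (84, 1), (85, 1), (86, 1)] [(160, 1), (162, 1), (166, 1), (187, 1), (272, 3), (276, 3), (283, 3), (418, 3), (807, 3), (810, 3), (817, 3)])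
 (.pair 70 141
 (.leaf 3 [(36, 2), (41, 2), (70, 1), (78, 1), (80, 1), (81, 1), (82, 1), (83, 1), (84, 1), (85, 1), (86, 1)] [(160, 1), (162, 1), (166, 1), (187, 1), (272, 3), (276, 3), (283, 3), (418, 3), (807, 3), (810, 3), (817, 3)])
 (.pair 70 143
 (.leaf 3 [(36, 2), (41, 2), (70, 1), (78, 1), (80, 1), (81, 1), (82, 1), (83, 1), (84, 1), (85, 1), (86, 1)] [(160, 1), (162, 1), (166, 1), (187, 1), (272, 3), (276, 3), (283, 3), (418, 3), (807, 3), (810, 3), (817, 3)])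
 (.pair 70 144
 (.leaf 3 [(36, 2), (41, 2), (70, 1), (78, 1), (80, 1), (81, 1), (82, 1), (83, 1), (84, 1), (85, 1), (86, 1)] [(160, 1), (162, 1), (166, 1), (187, 1), (272, 3), (276, 3), (283, 3), (418, 3), (807, 3), (810, 3), (817, 3)])
 (.pair 70 403
 (.leaf 2 [(36, 1), (41, 1), (70, 1), (78, 1), (80, 1), (81, 1), (82, 1), (83, 1), (84, 1), (85, 1), (86, 1), (133, 1), (136, 1), (138, 1), (139, 1), (141, 1), (143, 1), (144, 1)] [(418, 1), (807, 1), (810, 1), (817, 2)])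
 (.pair 70 405
 (.leaf 9 [(36, 6), (41, 6), (70, 3), (78, 3), (80, 3), (81, 3), (82, 3), (83, 3), (84, 3), (85, 3), (86, 3), (133, 2), (136, 1), (138, 1), (139, 1)] [(160, 3), (162, 3), (166, 3), (187, 3), (272, 6), (276, 7), (283, 8), (418, 9), (807, 9), (810, 9), (817, 9)])
 (.pair 70 406
 (.leaf 9 [(36, 6), (41, 6), (70, 3), (78, 3), (80, 3), (81, 3), (82, 3), (83, 3), (84, 3), (85, 3), (86, 3), (133, 2), (136, 1), (138, 1), (139, 1)] [(160, 3), (162, 3), (166, 3), (187, 3), (272, 6), (276, 7), (283, 8), (418, 9), (807, 9), (810, 9), (817, 9)])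
 (.pair 70 408
 (.leaf 9 [(36, 6), (41, 6), (70, 3), (78, 3), (80, 3), (81, 3), (82, 3), (83, 3), (84, 3), (85, 3), (86, 3), (133, 2), (136, 1), (138, 1), (139, 1)] [(160, 3), (162, 3), (166, 3), (187, 3), (272, 6), (276, 7), (283, 8), (418, 9), (807, 9), (810, 9), (817, 9)])
 (.pair 70 410
 (.leaf 9 [(36, 6), (41, 6), (70, 3), (78, 3), (80, 3), (81, 3), (82, 3), (83, 3), (84, 3), (85, 3), (86, 3), (133, 2), (136, 1), (138, 1), (139, 1)] [(160, 3), (162, 3), (166, 3), (187, 3), (272, 6), (276, 7), (283, 8), (418, 9), (807, 9), (810, 9), (817, 9)])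
 (.pair 70 411
 (.leaf 9 [(36, 6), (41, 6), (70, 3), (78, 3), (80, 3), (81, 3), (82, 3), (83, 3), (84, 3), (85, 3), (86, 3), (133, 2), (136, 1), (138, 1), (139, 1)] [(160, 3), (162, 3), (166, 3), (187, 3), (272, 6), (276, 7), (283, 8), (418, 9), (807, 9), (810, 9), (817, 9)])
 (.absent 70
 (.leaf 4 [(36, 2), (41, 2), (70, 2), (78, 2), (80, 2), (81, 2), (82, 2), (83, 2), (84, 2), (85, 2), (86, 2), (133, 2), (136, 2), (138, 2), (139, 2), (141, 2), (143, 2), (144, 2), (403, 1), (405, 1), (406, 1)] [(418, 2), (807, 2), (810, 2), (817, 3)]))))))))))))))))))))))))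

def certFifteen_2 : Cert :=
 (.pair 78 82
 (.pair 80 36
 (.leaf 9 [(41, 6), (81, 6), (83, 3), (84, 3), (85, 3), (86, 3), (133, 2), (136, 1), (138, 1), (139, 1)] [(187, 3), (272, 6), (276, 7), (283, 8), (418, 9), (807, 9), (810, 9), (817, 9)])
 (.pair 80 41
 (.leaf 9 [(36, 6), (81, 6), (83, 3), (84, 3), (85, 3), (86, 3), (133, 2), (136, 1), (138, 1), (139, 1)] [(187, 3), (272, 6), (276, 7), (283, 8), (418, 9), (807, 9), (810, 9), (817, 9)])
 (.pair 80 81
 (.leaf 9 [(36, 6), (41, 6), (83, 3), (84, 3), (85, 3), (86, 3), (133, 2), (136, 1), (138, 1), (139, 1)] [(187, 3), (272, 6), (276, 7), (283, 8), (418, 9), (807, 9), (810, 9), (817, 9)])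
 (.pair 80 83
 (.leaf 9 [(36, 6), (41, 6), (81, 3), (84, 3), (85, 3), (86, 3), (133, 2), (136, 1), (138, 1), (139, 1)] [(166, 3), (187, 3), (272, 6), (276, 7), (283, 8), (418, 9), (807, 9), (810, 9), (817, 9)])
 (.pair 80 84
 (.leaf 9 [(36, 6), (41, 6), (81, 3), (83, 3), (85, 3), (86, 3), (133, 2), (136, 1), (138, 1), (139, 1)] [(166, 3), (187, 3), (272, 6), (276, 7), (283, 8), (418, 9), (807, 9), (810, 9), (817, 9)])
 (.pair 80 85
 (.leaf 9 [(36, 6), (41, 6), (81, 3), (83, 3), (84, 3), (86, 3), (133, 2), (136, 1), (138, 1), (139, 1)] [(166, 3), (187, 3), (272, 6), (276, 7), (283, 8), (418, 9), (807, 9), (810, 9), (817, 9)])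
 (.pair 80 86
 (.leaf 9 [(36, 6), (41, 6), (81, 3), (83, 3), (84, 3), (85, 3), (133, 2), (136, 1), (138, 1), (139, 1)] [(166, 3), (187, 3), (272, 6), (276, 7), (283, 8), (418, 9), (807, 9), (810, 9), (817, 9)])
 (.pair 80 133
 (.leaf 3 [(36, 2), (41, 2), (81, 2), (83, 1), (84, 1), (85, 1), (86, 1)] [(187, 1), (272, 3), (276, 3), (283, 3), (418, 3), (807, 3), (810, 3), (817, 3)])
 (.pair 80 136
 (.leaf 3 [(36, 2), (41, 2), (81, 2), (83, 1), (84, 1), (85, 1), (86, 1)] [(187, 1), (272, 3), (276, 3), (283, 3), (418, 3), (807, 3), (810, 3), (817, 3)])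
 (.pair 80 138
 (.leaf 3 [(36, 2), (41, 2), (81, 2), (83, 1), (84, 1), (85, 1), (86, 1)] [(187, 1), (272, 3), (276, 3), (283, 3), (418, 3), (807, 3), (810, 3), (817, 3)])
 (.pair 80 139
 (.leaf 3 [(36, 2), (41, 2), (81, 2), (83, 1), (84, 1), (85, 1), (86, 1)] [(187, 1), (272, 3), (276, 3), (283, 3), (418, 3), (807, 3), (810, 3), (817, 3)])
 (.pair 80 141
 (.leaf 3 [(36, 2), (41, 2), (81, 2), (83, 1), (84, 1), (85, 1), (86, 1)] [(187, 1), (272, 3), (276, 3), (283, 3), (418, 3), (807, 3), (810, 3), (817, 3)])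
 (.pair 80 143
 (.leaf 3 [(36, 2), (41, 2), (81, 2), (83, 1), (84, 1), (85, 1), (86, 1)] [(187, 1), (272, 3), (276, 3), (283, 3), (418, 3), (807, 3), (810, 3), (817, 3)])
 (.pair 80 144
 (.leaf 3 [(36, 2), (41, 2), (81, 2), (83, 1), (84, 1), (85, 1), (86, 1)] [(187, 1), (272, 3), (276, 3), (283, 3), (418, 3), (807, 3), (810, 3), (817, 3)])
 (.pair 80 403
 (.leaf 2 [(36, 1), (41, 1), (81, 1), (83, 1), (84, 1), (85, 1), (86, 1), (133, 1), (136, 1), (138, 1), (139, 1), (141, 1), (143, 1), (144, 1)] [(418, 1), (807, 1), (810, 1), (817, 2)])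
 (.pair 80 405
 (.leaf 9 [(36, 6), (41, 6), (81, 3), (83, 3), (84, 3), (85, 3), (86, 3), (133, 2), (136, 1), (138, 1), (139, 1)] [(166, 3), (187, 3), (272, 6), (276, 7), (283, 8), (418, 9), (807, 9), (810, 9), (817, 9)])
 (.pair 80 406
 (.leaf 9 [(36, 6), (41, 6), (81, 3), (83, 3), (84, 3), (85, 3), (86, 3), (133, 2), (136, 1), (138, 1), (139, 1)] [(166, 3), (187, 3), (272, 6), (276, 7), (283, 8), (418, 9), (807, 9), (810, 9), (817, 9)])
 (.pair 80 408
 (.leaf 9 [(36, 6), (41, 6), (81, 3), (83, 3), (84, 3), (85, 3), (86, 3), (133, 2), (136, 1), (138, 1), (139, 1)] [(166, 3), (187, 3), (272, 6), (276, 7), (283, 8), (418, 9), (807, 9), (810, 9), (817, 9)])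
 (.pair 80 410
 (.leaf 9 [(36, 6), (41, 6), (81, 3), (83, 3), (84, 3), (85, 3), (86, 3), (133, 2), (136, 1), (138, 1), (139, 1)] [(166, 3), (187, 3), (272, 6), (276, 7), (283, 8), (418, 9), (807, 9), (810, 9), (817, 9)])
 (.pair 80 411
 (.leaf 9 [(36, 6), (41, 6), (81, 3), (83, 3), (84, 3), (85, 3), (86, 3), (133, 2), (136, 1), (138, 1), (139, 1)] [(166, 3), (187, 3), (272, 6), (276, 7), (283, 8), (418, 9), (807, 9), (810, 9), (817, 9)])
 (.absent 80
 (.leaf 4 [(36, 2), (41, 2), (81, 2), (83, 2), (84, 2), (85, 2), (86, 2), (133, 2), (136, 2), (138, 2), (139, 2), (141, 2), (143, 2), (144, 2), (403, 1), (405, 1), (406, 1)] [(418, 2), (807, 2), (810, 2), (817, 3)]))))))))))))))))))))))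
 (.pair 78 83
 (.leaf 9 [(36, 6), (41, 6), (80, 3), (81, 3), (82, 3), (84, 3), (85, 3), (86, 3), (133, 2), (136, 1), (138, 1), (139, 1)] [(162, 3), (166, 3), (187, 3), (272, 6), (276, 7), (283, 8), (418, 9), (807, 9), (810, 9), (817, 9)])
 (.pair 78 84
 (.leaf 9 [(36, 6), (41, 6), (80, 3), (81, 3), (82, 3), (83, 3), (85, 3), (86, 3), (133, 2), (136, 1), (138, 1), (139, 1)] [(162, 3), (166, 3), (187, 3), (272, 6), (276, 7), (283, 8), (418, 9), (807, 9), (810, 9), (817, 9)])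
 (.pair 78 85
 (.leaf 9 [(36, 6), (41, 6), (80, 6), (81, 3), (82, 3), (83, 3), (84, 3), (86, 3), (133, 2), (136, 1), (138, 1), (139, 1)] [(166, 3), (187, 3), (272, 6), (276, 7), (283, 8), (418, 9), (807, 9), (810, 9), (817, 9)])
 (.pair 78 86
 (.leaf 9 [(36, 6), (41, 6), (80, 6), (81, 3), (82, 3), (83, 3), (84, 3), (85, 3), (133, 2), (136, 1), (138, 1), (139, 1)] [(166, 3), (187, 3), (272, 6), (276, 7), (283, 8), (418, 9), (807, 9), (810, 9), (817, 9)])
 (.pair 78 133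
 (.leaf 3 [(36, 2), (41, 2), (80, 2), (81, 1), (82, 1), (83, 1), (84, 1), (85, 1), (86, 1)] [(166, 1), (187, 1), (272, 3), (276, 3), (283, 3), (418, 3), (807, 3), (810, 3), (817, 3)])
 (.pair 78 136
 (.leaf 3 [(36, 2), (41, 2), (80, 2), (81, 1), (82, 1), (83, 1), (84, 1), (85, 1), (86, 1)] [(166, 1), (187, 1), (272, 3), (276, 3), (283, 3), (418, 3), (807, 3), (810, 3), (817, 3)])
 (.pair 78 138
 (.leaf 3 [(36, 2), (41, 2), (80, 2), (81, 1), (82, 1), (83, 1), (84, 1), (85, 1), (86, 1)] [(166, 1), (187, 1), (272, 3), (276, 3), (283, 3), (418, 3), (807, 3), (810, 3), (817, 3)])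
 (.pair 78 139
 (.leaf 3 [(36, 2), (41, 2), (80, 2), (81, 1), (82, 1), (83, 1), (84, 1), (85, 1), (86, 1)] [(166, 1), (187, 1), (272, 3), (276, 3), (283, 3), (418, 3), (807, 3), (810, 3), (817, 3)])
 (.pair 78 141
 (.leaf 3 [(36, 2), (41, 2), (80, 2), (81, 1), (82, 1), (83, 1), (84, 1), (85, 1), (86, 1)] [(166, 1), (187, 1), (272, 3), (276, 3), (283, 3), (418, 3), (807, 3), (810, 3), (817, 3)])
 (.pair 78 143
 (.leaf 3 [(36, 2), (41, 2), (80, 2), (81, 1), (82, 1), (83, 1), (84, 1), (85, 1), (86, 1)] [(166, 1), (187, 1), (272, 3), (276, 3), (283, 3), (418, 3), (807, 3), (810, 3), (817, 3)])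
 (.pair 78 144
 (.leaf 3 [(36, 2), (41, 2), (80, 2), (81, 1), (82, 1), (83, 1), (84, 1), (85, 1), (86, 1)] [(166, 1), (187, 1), (272, 3), (276, 3), (283, 3), (418, 3), (807, 3), (810, 3), (817, 3)])
 (.pair 78 403
 (.leaf 2 [(36, 1), (41, 1), (80, 1), (81, 1), (82, 1), (83, 1), (84, 1), (85, 1), (86, 1), (133, 1), (136, 1), (138, 1), (139, 1), (141, 1), (143, 1), (144, 1)] [(418, 1), (807, 1), (810, 1), (817, 2)])
 (.pair 78 405
 (.leaf 9 [(36, 6), (41, 6), (80, 6), (81, 3), (82, 3), (83, 3), (84, 3), (85, 3), (86, 3), (133, 2), (136, 1), (138, 1), (139, 1)] [(166, 3), (187, 3), (272, 6), (276, 7), (283, 8), (418, 9), (807, 9), (810, 9), (817, 9)])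
 (.pair 78 406
 (.leaf 9 [(36, 6), (41, 6), (80, 6), (81, 3), (82, 3), (83, 3), (84, 3), (85, 3), (86, 3), (133, 2), (136, 1), (138, 1), (139, 1)] [(166, 3), (187, 3), (272, 6), (276, 7), (283, 8), (418, 9), (807, 9), (810, 9), (817, 9)])
 (.pair 78 408
 (.leaf 9 [(36, 6), (41, 6), (80, 6), (81, 3), (82, 3), (83, 3), (84, 3), (85, 3), (86, 3), (133, 2), (136, 1), (138, 1), (139, 1)] [(166, 3), (187, 3), (272, 6), (276, 7), (283, 8), (418, 9), (807, 9), (810, 9), (817, 9)])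
 (.pair 78 410
 (.leaf 9 [(36, 6), (41, 6), (80, 6), (81, 3), (82, 3), (83, 3), (84, 3), (85, 3), (86, 3), (133, 2), (136, 1), (138, 1), (139, 1)] [(166, 3), (187, 3), (272, 6), (276, 7), (283, 8), (418, 9), (807, 9), (810, 9), (817, 9)])
 (.pair 78 411
 (.leaf 9 [(36, 6), (41, 6), (80, 6), (81, 3), (82, 3), (83, 3), (84, 3), (85, 3), (86, 3), (133, 2), (136, 1), (138, 1), (139, 1)] [(166, 3), (187, 3), (272, 6), (276, 7), (283, 8), (418, 9), (807, 9), (810, 9), (817, 9)])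
 (.absent 78
 (.leaf 2 [(36, 1), (41, 1), (80, 1), (81, 1), (82, 1), (83, 1), (84, 1), (85, 1), (86, 1), (133, 1), (136, 1), (138, 1), (139, 1), (141, 1), (143, 1), (144, 1)] [(418, 1), (807, 1), (810, 2), (817, 2)]))))))))))))))))))))

def certFifteen_3 : Cert :=
 (.pair 68 70
 (.pair 78 36
 (.leaf 18 [(41, 12), (80, 9), (81, 9), (82, 9), (83, 6), (84, 6), (85, 6), (86, 6), (133, 4), (136, 2), (138, 2), (139, 2)] [(166, 3), (187, 6), (272, 12), (276, 14), (283, 16), (418, 18), (807, 18), (810, 18), (817, 18)])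
 (.pair 78 41
 (.leaf 18 [(36, 12), (80, 9), (81, 9), (82, 9), (83, 6), (84, 6), (85, 6), (86, 6), (133, 4), (136, 2), (138, 2), (139, 2)] [(166, 3), (187, 6), (272, 12), (276, 14), (283, 16), (418, 18), (807, 18), (810, 18), (817, 18)])
 (.pair 78 80
 (.leaf 9 [(36, 6), (41, 6), (81, 3), (82, 3), (83, 3), (84, 3), (85, 3), (86, 3), (133, 2), (136, 1), (138, 1), (139, 1)] [(166, 3), (187, 3), (272, 6), (276, 7), (283, 8), (418, 9), (807, 9), (810, 9), (817, 9)])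
 (.pair 78 81
 (.pair 80 36
 (.leaf 9 [(41, 6), (82, 6), (83, 3), (84, 3), (85, 3), (86, 3), (133, 2), (136, 1), (138, 1), (139, 1)] [(187, 3), (272, 6), (276, 7), (283, 8), (418, 9), (807, 9), (810, 9), (817, 9)])
 (.pair 80 41
 (.leaf 9 [(36, 6), (82, 6), (83, 3), (84, 3), (85, 3), (86, 3), (133, 2), (136, 1), (138, 1), (139, 1)] [(187, 3), (272, 6), (276, 7), (283, 8), (418, 9), (807, 9), (810, 9), (817, 9)])
 (.pair 80 82
 (.leaf 9 [(36, 6), (41, 6), (83, 3), (84, 3), (85, 3), (86, 3), (133, 2), (136, 1), (138, 1), (139, 1)] [(187, 3), (272, 6), (276, 7), (283, 8), (418, 9), (807, 9), (810, 9), (817, 9)])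
 (.pair 80 83
 (.leaf 9 [(36, 6), (41, 6), (82, 3), (84, 3), (85, 3), (86, 3), (133, 2), (136, 1), (138, 1), (139, 1)] [(166, 3), (187, 3), (272, 6), (276, 7), (283, 8), (418, 9), (807, 9), (810, 9), (817, 9)])
 (.pair 80 84
 (.leaf 9 [(36, 6), (41, 6), (82, 3), (83, 3), (85, 3), (86, 3), (133, 2), (136, 1), (138, 1), (139, 1)] [(166, 3), (187, 3), (272, 6), (276, 7), (283, 8), (418, 9), (807, 9), (810, 9), (817, 9)])
 (.pair 80 85
 (.leaf 9 [(36, 6), (41, 6), (82, 3), (83, 3), (84, 3), (86, 3), (133, 2), (136, 1), (138, 1), (139, 1)] [(166, 3), (187, 3), (272, 6), (276, 7), (283, 8), (418, 9), (807, 9), (810, 9), (817, 9)])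
 (.pair 80 86
 (.leaf 9 [(36, 6), (41, 6), (82, 3), (83, 3), (84, 3), (85, 3), (133, 2), (136, 1), (138, 1), (139, 1)] [(166, 3), (187, 3), (272, 6), (276, 7), (283, 8), (418, 9), (807, 9), (810, 9), (817, 9)])
 (.pair 80 133
 (.leaf 3 [(36, 2), (41, 2), (82, 2), (83, 1), (84, 1), (85, 1), (86, 1)] [(187, 1), (272, 3), (276, 3), (283, 3), (418, 3), (807, 3), (810, 3), (817, 3)])
 (.pair 80 136
 (.leaf 3 [(36, 2), (41, 2), (82, 2), (83, 1), (84, 1), (85, 1), (86, 1)] [(187, 1), (272, 3), (276, 3), (283, 3), (418, 3), (807, 3), (810, 3), (817, 3)])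
 (.pair 80 138
 (.leaf 3 [(36, 2), (41, 2), (82, 2), (83, 1), (84, 1), (85, 1), (86, 1)] [(187, 1), (272, 3), (276, 3), (283, 3), (418, 3), (807, 3), (810, 3), (817, 3)])
 (.pair 80 139
 (.leaf 3 [(36, 2), (41, 2), (82, 2), (83, 1), (84, 1), (85, 1), (86, 1)] [(187, 1), (272, 3), (276, 3), (283, 3), (418, 3), (807, 3), (810, 3), (817, 3)])
 (.pair 80 141
 (.leaf 3 [(36, 2), (41, 2), (82, 2), (83, 1), (84, 1), (85, 1), (86, 1)] [(187, 1), (272, 3), (276, 3), (283, 3), (418, 3), (807, 3), (810, 3), (817, 3)])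
 (.pair 80 143
 (.leaf 3 [(36, 2), (41, 2), (82, 2), (83, 1), (84, 1), (85, 1), (86, 1)] [(187, 1), (272, 3), (276, 3), (283, 3), (418, 3), (807, 3), (810, 3), (817, 3)])
 (.pair 80 144
 (.leaf 3 [(36, 2), (41, 2), (82, 2), (83, 1), (84, 1), (85, 1), (86, 1)] [(187, 1), (272, 3), (276, 3), (283, 3), (418, 3), (807, 3), (810, 3), (817, 3)])
 (.pair 80 403
 (.leaf 2 [(36, 1), (41, 1), (82, 1), (83, 1), (84, 1), (85, 1), (86, 1), (133, 1), (136, 1), (138, 1), (139, 1), (141, 1), (143, 1), (144, 1)] [(418, 1), (807, 1), (810, 1), (817, 2)])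
 (.pair 80 405
 (.leaf 9 [(36, 6), (41, 6), (82, 3), (83, 3), (84, 3), (85, 3), (86, 3), (133, 2), (136, 1), (138, 1), (139, 1)] [(166, 3), (187, 3), (272, 6), (276, 7), (283, 8), (418, 9), (807, 9), (810, 9), (817, 9)])
 (.pair 80 406
 (.leaf 9 [(36, 6), (41, 6), (82, 3), (83, 3), (84, 3), (85, 3), (86, 3), (133, 2), (136, 1), (138, 1), (139, 1)] [(166, 3), (187, 3), (272, 6), (276, 7), (283, 8), (418, 9), (807, 9), (810, 9), (817, 9)])
 (.pair 80 408
 (.leaf 9 [(36, 6), (41, 6), (82, 3), (83, 3), (84, 3), (85, 3), (86, 3), (133, 2), (136, 1), (138, 1), (139, 1)] [(166, 3), (187, 3), (272, 6), (276, 7), (283, 8), (418, 9), (807, 9), (810, 9), (817, 9)])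
 (.pair 80 410
 (.leaf 9 [(36, 6), (41, 6), (82, 3), (83, 3), (84, 3), (85, 3), (86, 3), (133, 2), (136, 1), (138, 1), (139, 1)] [(166, 3), (187, 3), (272, 6), (276, 7), (283, 8), (418, 9), (807, 9), (810, 9), (817, 9)])
 (.pair 80 411
 (.leaf 9 [(36, 6), (41, 6), (82, 3), (83, 3), (84, 3), (85, 3), (86, 3), (133, 2), (136, 1), (138, 1), (139, 1)] [(166, 3), (187, 3), (272, 6), (276, 7), (283, 8), (418, 9), (807, 9), (810, 9), (817, 9)])
 (.absent 80
 (.leaf 4 [(36, 2), (41, 2), (82, 2), (83, 2), (84, 2), (85, 2), (86, 2), (133, 2), (136, 2), (138, 2), (139, 2), (141, 2), (143, 2), (144, 2), (403, 1), (405, 1), (406, 1)] [(418, 2), (807, 2), (810, 2), (817, 3)]))))))))))))))))))))))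
 certFifteen_2))))
 (.pair 68 78
 (.leaf 9 [(36, 6), (41, 6), (70, 3), (80, 3), (81, 3), (82, 3), (83, 3), (84, 3), (85, 3), (86, 3), (133, 2), (136, 1), (138, 1), (139, 1)] [(160, 3), (162, 3), (166, 3), (187, 3), (272, 6), (276, 7), (283, 8), (418, 9), (807, 9), (810, 9), (817, 9)])
 (.pair 68 80
 (.leaf 9 [(36, 6), (41, 6), (70, 3), (78, 3), (81, 3), (82, 3), (83, 3), (84, 3), (85, 3), (86, 3), (133, 2), (136, 1), (138, 1), (139, 1)] [(160, 3), (162, 3), (166, 3), (187, 3), (272, 6), (276, 7), (283, 8), (418, 9), (807, 9), (810, 9), (817, 9)])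
 (.pair 68 81
 (.leaf 9 [(36, 6), (41, 6), (70, 3), (78, 3), (80, 3), (82, 3), (83, 3), (84, 3), (85, 3), (86, 3), (133, 2), (136, 1), (138, 1), (139, 1)] [(160, 3), (162, 3), (166, 3), (187, 3), (272, 6), (276, 7), (283, 8), (418, 9), (807, 9), (810, 9), (817, 9)])
 (.pair 68 82
 (.leaf 9 [(36, 6), (41, 6), (70, 3), (78, 3), (80, 3), (81, 3), (83, 3), (84, 3), (85, 3), (86, 3), (133, 2), (136, 1), (138, 1), (139, 1)] [(160, 3), (162, 3), (166, 3), (187, 3), (272, 6), (276, 7), (283, 8), (418, 9), (807, 9), (810, 9), (817, 9)])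
 (.pair 68 83
 (.leaf 9 [(36, 6), (41, 6), (70, 3), (78, 3), (80, 3), (81, 3), (82, 3), (84, 3), (85, 3), (86, 3), (133, 2), (136, 1), (138, 1), (139, 1)] [(160, 3), (162, 3), (166, 3), (187, 3), (272, 6), (276, 7), (283, 8), (418, 9), (807, 9), (810, 9), (817, 9)])
 (.pair 68 84
 (.leaf 9 [(36, 6), (41, 6), (70, 3), (78, 3), (80, 3), (81, 3), (82, 3), (83, 3), (85, 3), (86, 3), (133, 2), (136, 1), (138, 1), (139, 1)] [(160, 3), (162, 3), (166, 3), (187, 3), (272, 6), (276, 7), (283, 8), (418, 9), (807, 9), (810, 9), (817, 9)])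
 (.pair 68 85
 (.leaf 9 [(36, 6), (41, 6), (70, 3), (78, 3), (80, 3), (81, 3), (82, 3), (83, 3), (84, 3), (86, 3), (133, 2), (136, 1), (138, 1), (139, 1)] [(160, 3), (162, 3), (166, 3), (187, 3), (272, 6), (276, 7), (283, 8), (418, 9), (807, 9), (810, 9), (817, 9)])
 (.pair 68 86
 (.leaf 9 [(36, 6), (41, 6), (70, 3), (78, 3), (80, 3), (81, 3), (82, 3), (83, 3), (84, 3), (85, 3), (133, 2), (136, 1), (138, 1), (139, 1)] [(160, 3), (162, 3), (166, 3), (187, 3), (272, 6), (276, 7), (283, 8), (418, 9), (807, 9), (810, 9), (817, 9)])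
 (.pair 68 133
 (.leaf 3 [(36, 2), (41, 2), (70, 1), (78, 1), (80, 1), (81, 1), (82, 1), (83, 1), (84, 1), (85, 1), (86, 1)] [(160, 1), (162, 1), (166, 1), (187, 1), (272, 3), (276, 3), (283, 3), (418, 3), (807, 3), (810, 3), (817, 3)])
 (.pair 68 136
 (.leaf 3 [(36, 2), (41, 2), (70, 1), (78, 1), (80, 1), (81, 1), (82, 1), (83, 1), (84, 1), (85, 1), (86, 1)] [(160, 1), (162, 1), (166, 1), (187, 1), (272, 3), (276, 3), (283, 3), (418, 3), (807, 3), (810, 3), (817, 3)])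
 (.pair 68 138
 (.leaf 3 [(36, 2), (41, 2), (70, 1), (78, 1), (80, 1), (81, 1), (82, 1), (83, 1), (84, 1), (85, 1), (86, 1)] [(160, 1), (162, 1), (166, 1), (187, 1), (272, 3), (276, 3), (283, 3), (418, 3), (807, 3), (810, 3), (817, 3)])
 (.pair 68 139
 (.leaf 3 [(36, 2), (41, 2), (70, 1), (78, 1), (80, 1), (81, 1), (82, 1), (83, 1), (84, 1), (85, 1), (86, 1)] [(160, 1), (162, 1), (166, 1), (187, 1), (272, 3), (276, 3), (283, 3), (418, 3), (807, 3), (810, 3), (817, 3)])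
 (.pair 68 141
 (.leaf 3 [(36, 2), (41, 2), (70, 1), (78, 1), (80, 1), (81, 1), (82, 1), (83, 1), (84, 1), (85, 1), (86, 1)] [(160, 1), (162, 1), (166, 1), (187, 1), (272, 3), (276, 3), (283, 3), (418, 3), (807, 3), (810, 3), (817, 3)])
 (.pair 68 143
 (.leaf 3 [(36, 2), (41, 2), (70, 1), (78, 1), (80, 1), (81, 1), (82, 1), (83, 1), (84, 1), (85, 1), (86, 1)] [(160, 1), (162, 1), (166, 1), (187, 1), (272, 3), (276, 3), (283, 3), (418, 3), (807, 3), (810, 3), (817, 3)])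
 (.pair 68 144
 (.leaf 3 [(36, 2), (41, 2), (70, 1), (78, 1), (80, 1), (81, 1), (82, 1), (83, 1), (84, 1), (85, 1), (86, 1)] [(160, 1), (162, 1), (166, 1), (187, 1), (272, 3), (276, 3), (283, 3), (418, 3), (807, 3), (810, 3), (817, 3)])
 (.pair 68 403
 (.leaf 2 [(36, 1), (41, 1), (70, 1), (78, 1), (80, 1), (81, 1), (82, 1), (83, 1), (84, 1), (85, 1), (86, 1), (133, 1), (136, 1), (138, 1), (139, 1), (141, 1), (143, 1), (144, 1)] [(418, 1), (807, 1), (810, 1), (817, 2)])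
 (.pair 68 405
 (.leaf 9 [(36, 6), (41, 6), (70, 3), (78, 3), (80, 3), (81, 3), (82, 3), (83, 3), (84, 3), (85, 3), (86, 3), (133, 2), (136, 1), (138, 1), (139, 1)] [(160, 3), (162, 3), (166, 3), (187, 3), (272, 6), (276, 7), (283, 8), (418, 9), (807, 9), (810, 9), (817, 9)])
 (.pair 68 406
 (.leaf 9 [(36, 6), (41, 6), (70, 3), (78, 3), (80, 3), (81, 3), (82, 3), (83, 3), (84, 3), (85, 3), (86, 3), (133, 2), (136, 1), (138, 1), (139, 1)] [(160, 3), (162, 3), (166, 3), (187, 3), (272, 6), (276, 7), (283, 8), (418, 9), (807, 9), (810, 9), (817, 9)])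
 (.pair 68 408
 (.leaf 9 [(36, 6), (41, 6), (70, 3), (78, 3), (80, 3), (81, 3), (82, 3), (83, 3), (84, 3), (85, 3), (86, 3), (133, 2), (136, 1), (138, 1), (139, 1)] [(160, 3), (162, 3), (166, 3), (187, 3), (272, 6), (276, 7), (283, 8), (418, 9), (807, 9), (810, 9), (817, 9)])
 (.pair 68 410
 (.leaf 9 [(36, 6), (41, 6), (70, 3), (78, 3), (80, 3), (81, 3), (82, 3), (83, 3), (84, 3), (85, 3), (86, 3), (133, 2), (136, 1), (138, 1), (139, 1)] [(160, 3), (162, 3), (166, 3), (187, 3), (272, 6), (276, 7), (283, 8), (418, 9), (807, 9), (810, 9), (817, 9)])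
 (.pair 68 411
 (.leaf 9 [(36, 6), (41, 6), (70, 3), (78, 3), (80, 3), (81, 3), (82, 3), (83, 3), (84, 3), (85, 3), (86, 3), (133, 2), (136, 1), (138, 1), (139, 1)] [(160, 3), (162, 3), (166, 3), (187, 3), (272, 6), (276, 7), (283, 8), (418, 9), (807, 9), (810, 9), (817, 9)])
 (.absent 68
 (.leaf 4 [(36, 2), (41, 2), (70, 2), (78, 2), (80, 2), (81, 2), (82, 2), (83, 2), (84, 2), (85, 2), (86, 2), (133, 2), (136, 2), (138, 2), (139, 2), (141, 2), (143, 2), (144, 2), (403, 1), (405, 1), (406, 1)] [(418, 2), (807, 2), (810, 2), (817, 3)]))))))))))))))))))))))))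

def certFifteen_4 : Cert :=
 (.pair 60 78
 (.leaf 9 [(36, 6), (41, 6), (68, 3), (70, 3), (80, 3), (81, 3), (82, 3), (83, 3), (84, 3), (85, 3), (86, 3), (133, 2), (136, 1), (138, 1), (139, 1)] [(145, 3), (160, 3), (162, 3), (166, 3), (187, 3), (272, 6), (276, 7), (283, 8), (418, 9), (807, 9), (810, 9), (817, 9)])
 (.pair 60 80
 (.leaf 9 [(36, 6), (41, 6), (68, 3), (70, 3), (78, 3), (81, 3), (82, 3), (83, 3), (84, 3), (85, 3), (86, 3), (133, 2), (136, 1), (138, 1), (139, 1)] [(145, 3), (160, 3), (162, 3), (166, 3), (187, 3), (272, 6), (276, 7), (283, 8), (418, 9), (807, 9), (810, 9), (817, 9)])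
 (.pair 60 81
 (.leaf 9 [(36, 6), (41, 6), (68, 3), (70, 3), (78, 3), (80, 3), (82, 3), (83, 3), (84, 3), (85, 3), (86, 3), (133, 2), (136, 1), (138, 1), (139, 1)] [(145, 3), (160, 3), (162, 3), (166, 3), (187, 3), (272, 6), (276, 7), (283, 8), (418, 9), (807, 9), (810, 9), (817, 9)])
 (.pair 60 82
 (.leaf 9 [(36, 6), (41, 6), (68, 3), (70, 3), (78, 3), (80, 3), (81, 3), (83, 3), (84, 3), (85, 3), (86, 3), (133, 2), (136, 1), (138, 1), (139, 1)] [(145, 3), (160, 3), (162, 3), (166, 3), (187, 3), (272, 6), (276, 7), (283, 8), (418, 9), (807, 9), (810, 9), (817, 9)])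
 (.pair 60 83
 (.leaf 9 [(36, 6), (41, 6), (68, 3), (70, 3), (78, 3), (80, 3), (81, 3), (82, 3), (84, 3), (85, 3), (86, 3), (133, 2), (136, 1), (138, 1), (139, 1)] [(145, 3), (160, 3), (162, 3), (166, 3), (187, 3), (272, 6), (276, 7), (283, 8), (418, 9), (807, 9), (810, 9), (817, 9)])
 (.pair 60 84
 (.leaf 9 [(36, 6), (41, 6), (68, 3), (70, 3), (78, 3), (80, 3), (81, 3), (82, 3), (83, 3), (85, 3), (86, 3), (133, 2), (136, 1), (138, 1), (139, 1)] [(145, 3), (160, 3), (162, 3), (166, 3), (187, 3), (272, 6), (276, 7), (283, 8), (418, 9), (807, 9), (810, 9), (817, 9)])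
 (.pair 60 85
 (.leaf 9 [(36, 6), (41, 6), (68, 3), (70, 3), (78, 3), (80, 3), (81, 3), (82, 3), (83, 3), (84, 3), (86, 3), (133, 2), (136, 1), (138, 1), (139, 1)] [(145, 3), (160, 3), (162, 3), (166, 3), (187, 3), (272, 6), (276, 7), (283, 8), (418, 9), (807, 9), (810, 9), (817, 9)])
 (.pair 60 86
 (.leaf 9 [(36, 6), (41, 6), (68, 3), (70, 3), (78, 3), (80, 3), (81, 3), (82, 3), (83, 3), (84, 3), (85, 3), (133, 2), (136, 1), (138, 1), (139, 1)] [(145, 3), (160, 3), (162, 3), (166, 3), (187, 3), (272, 6), (276, 7), (283, 8), (418, 9), (807, 9), (810, 9), (817, 9)])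
 (.pair 60 133
 (.leaf 3 [(36, 2), (41, 2), (68, 1), (70, 1), (78, 1), (80, 1), (81, 1), (82, 1), (83, 1), (84, 1), (85, 1), (86, 1)] [(145, 1), (160, 1), (162, 1), (166, 1), (187, 1), (272, 3), (276, 3), (283, 3), (418, 3), (807, 3), (810, 3), (817, 3)])
 (.pair 60 136
 (.leaf 3 [(36, 2), (41, 2), (68, 1), (70, 1), (78, 1), (80, 1), (81, 1), (82, 1), (83, 1), (84, 1), (85, 1), (86, 1)] [(145, 1), (160, 1), (162, 1), (166, 1), (187, 1), (272, 3), (276, 3), (283, 3), (418, 3), (807, 3), (810, 3), (817, 3)])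
 (.pair 60 138
 (.leaf 3 [(36, 2), (41, 2), (68, 1), (70, 1), (78, 1), (80, 1), (81, 1), (82, 1), (83, 1), (84, 1), (85, 1), (86, 1)] [(145, 1), (160, 1), (162, 1), (166, 1), (187, 1), (272, 3), (276, 3), (283, 3), (418, 3), (807, 3), (810, 3), (817, 3)])
 (.pair 60 139
 (.leaf 3 [(36, 2), (41, 2), (68, 1), (70, 1), (78, 1), (80, 1), (81, 1), (82, 1), (83, 1), (84, 1), (85, 1), (86, 1)] [(145, 1), (160, 1), (162, 1), (166, 1), (187, 1), (272, 3), (276, 3), (283, 3), (418, 3), (807, 3), (810, 3), (817, 3)])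
 (.pair 60 141
 (.leaf 3 [(36, 2), (41, 2), (68, 1), (70, 1), (78, 1), (80, 1), (81, 1), (82, 1), (83, 1), (84, 1), (85, 1), (86, 1)] [(145, 1), (160, 1), (162, 1), (166, 1), (187, 1), (272, 3), (276, 3), (283, 3), (418, 3), (807, 3), (810, 3), (817, 3)])
 (.pair 60 143
 (.leaf 3 [(36, 2), (41, 2), (68, 1), (70, 1), (78, 1), (80, 1), (81, 1), (82, 1), (83, 1), (84, 1), (85, 1), (86, 1)] [(145, 1), (160, 1), (162, 1), (166, 1), (187, 1), (272, 3), (276, 3), (283, 3), (418, 3), (807, 3), (810, 3), (817, 3)])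
 (.pair 60 144
 (.leaf 3 [(36, 2), (41, 2), (68, 1), (70, 1), (78, 1), (80, 1), (81, 1), (82, 1), (83, 1), (84, 1), (85, 1), (86, 1)] [(145, 1), (160, 1), (162, 1), (166, 1), (187, 1), (272, 3), (276, 3), (283, 3), (418, 3), (807, 3), (810, 3), (817, 3)])
 (.pair 60 403
 (.leaf 2 [(36, 1), (41, 1), (68, 1), (70, 1), (78, 1), (80, 1), (81, 1), (82, 1), (83, 1), (84, 1), (85, 1), (86, 1), (133, 1), (136, 1), (138, 1), (139, 1), (141, 1), (143, 1), (144, 1)] [(418, 1), (807, 1), (810, 1), (817, 2)])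
 (.pair 60 405
 (.leaf 9 [(36, 6), (41, 6), (68, 3), (70, 3), (78, 3), (80, 3), (81, 3), (82, 3), (83, 3), (84, 3), (85, 3), (86, 3), (133, 2), (136, 1), (138, 1), (139, 1)] [(145, 3), (160, 3), (162, 3), (166, 3), (187, 3), (272, 6), (276, 7), (283, 8), (418, 9), (807, 9), (810, 9), (817, 9)])
 (.pair 60 406
 (.leaf 9 [(36, 6), (41, 6), (68, 3), (70, 3), (78, 3), (80, 3), (81, 3), (82, 3), (83, 3), (84, 3), (85, 3), (86, 3), (133, 2), (136, 1), (138, 1), (139, 1)] [(145, 3), (160, 3), (162, 3), (166, 3), (187, 3), (272, 6), (276, 7), (283, 8), (418, 9), (807, 9), (810, 9), (817, 9)])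
 (.pair 60 408
 (.leaf 9 [(36, 6), (41, 6), (68, 3), (70, 3), (78, 3), (80, 3), (81, 3), (82, 3), (83, 3), (84, 3), (85, 3), (86, 3), (133, 2), (136, 1), (138, 1), (139, 1)] [(145, 3), (160, 3), (162, 3), (166, 3), (187, 3), (272, 6), (276, 7), (283, 8), (418, 9), (807, 9), (810, 9), (817, 9)])
 (.pair 60 410
 (.leaf 9 [(36, 6), (41, 6), (68, 3), (70, 3), (78, 3), (80, 3), (81, 3), (82, 3), (83, 3), (84, 3), (85, 3), (86, 3), (133, 2), (136, 1), (138, 1), (139, 1)] [(145, 3), (160, 3), (162, 3), (166, 3), (187, 3), (272, 6), (276, 7), (283, 8), (418, 9), (807, 9), (810, 9), (817, 9)])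
 (.pair 60 411
 (.leaf 9 [(36, 6), (41, 6), (68, 3), (70, 3), (78, 3), (80, 3), (81, 3), (82, 3), (83, 3), (84, 3), (85, 3), (86, 3), (133, 2), (136, 1), (138, 1), (139, 1)] [(145, 3), (160, 3), (162, 3), (166, 3), (187, 3), (272, 6), (276, 7), (283, 8), (418, 9), (807, 9), (810, 9), (817, 9)])
 (.absent 60
 (.leaf 2 [(36, 1), (41, 1), (68, 1), (70, 1), (78, 1), (80, 1), (81, 1), (82, 1), (83, 1), (84, 1), (85, 1), (86, 1), (133, 1), (136, 1), (138, 1), (139, 1), (141, 1), (143, 1), (144, 1), (403, 1)] [(418, 1), (807, 1), (810, 1), (817, 2)])))))))))))))))))))))))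

def certFifteen_5 : Cert :=
 (.pair 78 82
 (.pair 80 36
 (.leaf 9 [(41, 6), (81, 6), (83, 3), (84, 3), (85, 3), (86, 3), (133, 2), (136, 1), (138, 1), (139, 1)] [(187, 3), (272, 6), (276, 7), (283, 8), (418, 9), (807, 9), (810, 9), (817, 9)])
 (.pair 80 41
 (.leaf 9 [(36, 6), (81, 6), (83, 3), (84, 3), (85, 3), (86, 3), (133, 2), (136, 1), (138, 1), (139, 1)] [(187, 3), (272, 6), (276, 7), (283, 8), (418, 9), (807, 9), (810, 9), (817, 9)])
 (.pair 80 81
 (.leaf 9 [(36, 6), (41, 6), (83, 3), (84, 3), (85, 3), (86, 3), (133, 2), (136, 1), (138, 1), (139, 1)] [(187, 3), (272, 6), (276, 7), (283, 8), (418, 9), (807, 9), (810, 9), (817, 9)])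
 (.pair 80 83
 (.leaf 9 [(36, 6), (41, 6), (81, 3), (84, 3), (85, 3), (86, 3), (133, 2), (136, 1), (138, 1), (139, 1)] [(166, 3), (187, 3), (272, 6), (276, 7), (283, 8), (418, 9), (807, 9), (810, 9), (817, 9)])
 (.pair 80 84
 (.leaf 9 [(36, 6), (41, 6), (81, 3), (83, 3), (85, 3), (86, 3), (133, 2), (136, 1), (138, 1), (139, 1)] [(166, 3), (187, 3), (272, 6), (276, 7), (283, 8), (418, 9), (807, 9), (810, 9), (817, 9)])
 (.pair 80 85
 (.leaf 9 [(36, 6), (41, 6), (81, 3), (83, 3), (84, 3), (86, 3), (133, 2), (136, 1), (138, 1), (139, 1)] [(166, 3), (187, 3), (272, 6), (276, 7), (283, 8), (418, 9), (807, 9), (810, 9), (817, 9)])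
 (.pair 80 86
 (.leaf 9 [(36, 6), (41, 6), (81, 3), (83, 3), (84, 3), (85, 3), (133, 2), (136, 1), (138, 1), (139, 1)] [(166, 3), (187, 3), (272, 6), (276, 7), (283, 8), (418, 9), (807, 9), (810, 9), (817, 9)])
 (.pair 80 133
 (.leaf 3 [(36, 2), (41, 2), (81, 2), (83, 1), (84, 1), (85, 1), (86, 1)] [(187, 1), (272, 3), (276, 3), (283, 3), (418, 3), (807, 3), (810, 3), (817, 3)])
 (.pair 80 136
 (.leaf 3 [(36, 2), (41, 2), (81, 2), (83, 1), (84, 1), (85, 1), (86, 1)] [(187, 1), (272, 3), (276, 3), (283, 3), (418, 3), (807, 3), (810, 3), (817, 3)])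
 (.pair 80 138
 (.leaf 3 [(36, 2), (41, 2), (81, 2), (83, 1), (84, 1), (85, 1), (86, 1)] [(187, 1), (272, 3), (276, 3), (283, 3), (418, 3), (807, 3), (810, 3), (817, 3)])
 (.pair 80 139
 (.leaf 3 [(36, 2), (41, 2), (81, 2), (83, 1), (84, 1), (85, 1), (86, 1)] [(187, 1), (272, 3), (276, 3), (283, 3), (418, 3), (807, 3), (810, 3), (817, 3)])
 (.pair 80 141
 (.leaf 3 [(36, 2), (41, 2), (81, 2), (83, 1), (84, 1), (85, 1), (86, 1)] [(187, 1), (272, 3), (276, 3), (283, 3), (418, 3), (807, 3), (810, 3), (817, 3)])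
 (.pair 80 143
 (.leaf 3 [(36, 2), (41, 2), (81, 2), (83, 1), (84, 1), (85, 1), (86, 1)] [(187, 1), (272, 3), (276, 3), (283, 3), (418, 3), (807, 3), (810, 3), (817, 3)])
 (.pair 80 144
 (.leaf 3 [(36, 2), (41, 2), (81, 2), (83, 1), (84, 1), (85, 1), (86, 1)] [(187, 1), (272, 3), (276, 3), (283, 3), (418, 3), (807, 3), (810, 3), (817, 3)])
 (.pair 80 400
 (.leaf 2 [(36, 1), (41, 1), (81, 1), (83, 1), (84, 1), (85, 1), (86, 1), (133, 1), (136, 1), (138, 1), (139, 1), (141, 1), (143, 1), (144, 1)] [(418, 1), (807, 1), (810, 1), (817, 2)])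
 (.pair 80 405
 (.leaf 9 [(36, 6), (41, 6), (81, 3), (83, 3), (84, 3), (85, 3), (86, 3), (133, 2), (136, 1), (138, 1), (139, 1)] [(166, 3), (187, 3), (272, 6), (276, 7), (283, 8), (418, 9), (807, 9), (810, 9), (817, 9)])
 (.pair 80 406
 (.leaf 9 [(36, 6), (41, 6), (81, 3), (83, 3), (84, 3), (85, 3), (86, 3), (133, 2), (136, 1), (138, 1), (139, 1)] [(166, 3), (187, 3), (272, 6), (276, 7), (283, 8), (418, 9), (807, 9), (810, 9), (817, 9)])
 (.pair 80 408
 (.leaf 9 [(36, 6), (41, 6), (81, 3), (83, 3), (84, 3), (85, 3), (86, 3), (133, 2), (136, 1), (138, 1), (139, 1)] [(166, 3), (187, 3), (272, 6), (276, 7), (283, 8), (418, 9), (807, 9), (810, 9), (817, 9)])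
 (.pair 80 410
 (.leaf 9 [(36, 6), (41, 6), (81, 3), (83, 3), (84, 3), (85, 3), (86, 3), (133, 2), (136, 1), (138, 1), (139, 1)] [(166, 3), (187, 3), (272, 6), (276, 7), (283, 8), (418, 9), (807, 9), (810, 9), (817, 9)])
 (.pair 80 411
 (.leaf 9 [(36, 6), (41, 6), (81, 3), (83, 3), (84, 3), (85, 3), (86, 3), (133, 2), (136, 1), (138, 1), (139, 1)] [(166, 3), (187, 3), (272, 6), (276, 7), (283, 8), (418, 9), (807, 9), (810, 9), (817, 9)])
 (.absent 80
 (.leaf 2 [(36, 1), (41, 1), (81, 1), (83, 1), (84, 1), (85, 1), (86, 1), (133, 1), (136, 1), (138, 1), (139, 1), (141, 1), (143, 1), (144, 1), (400, 1)] [(418, 1), (807, 1), (810, 1), (817, 2)]))))))))))))))))))))))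
 (.pair 78 83
 (.leaf 9 [(36, 6), (41, 6), (80, 3), (81, 3), (82, 3), (84, 3), (85, 3), (86, 3), (133, 2), (136, 1), (138, 1), (139, 1)] [(162, 3), (166, 3), (187, 3), (272, 6), (276, 7), (283, 8), (418, 9), (807, 9), (810, 9), (817, 9)])
 (.pair 78 84
 (.leaf 9 [(36, 6), (41, 6), (80, 3), (81, 3), (82, 3), (83, 3), (85, 3), (86, 3), (133, 2), (136, 1), (138, 1), (139, 1)] [(162, 3), (166, 3), (187, 3), (272, 6), (276, 7), (283, 8), (418, 9), (807, 9), (810, 9), (817, 9)])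
 (.pair 78 85
 (.leaf 9 [(36, 6), (41, 6), (80, 6), (81, 3), (82, 3), (83, 3), (84, 3), (86, 3), (133, 2), (136, 1), (138, 1), (139, 1)] [(166, 3), (187, 3), (272, 6), (276, 7), (283, 8), (418, 9), (807, 9), (810, 9), (817, 9)])
 (.pair 78 86
 (.leaf 9 [(36, 6), (41, 6), (80, 6), (81, 3), (82, 3), (83, 3), (84, 3), (85, 3), (133, 2), (136, 1), (138, 1), (139, 1)] [(166, 3), (187, 3), (272, 6), (276, 7), (283, 8), (418, 9), (807, 9), (810, 9), (817, 9)])
 (.pair 78 133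
 (.leaf 3 [(36, 2), (41, 2), (80, 2), (81, 1), (82, 1), (83, 1), (84, 1), (85, 1), (86, 1)] [(166, 1), (187, 1), (272, 3), (276, 3), (283, 3), (418, 3), (807, 3), (810, 3), (817, 3)])
 (.pair 78 136
 (.leaf 3 [(36, 2), (41, 2), (80, 2), (81, 1), (82, 1), (83, 1), (84, 1), (85, 1), (86, 1)] [(166, 1), (187, 1), (272, 3), (276, 3), (283, 3), (418, 3), (807, 3), (810, 3), (817, 3)])
 (.pair 78 138
 (.leaf 3 [(36, 2), (41, 2), (80, 2), (81, 1), (82, 1), (83, 1), (84, 1), (85, 1), (86, 1)] [(166, 1), (187, 1), (272, 3), (276, 3), (283, 3), (418, 3), (807, 3), (810, 3), (817, 3)])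
 (.pair 78 139
 (.leaf 3 [(36, 2), (41, 2), (80, 2), (81, 1), (82, 1), (83, 1), (84, 1), (85, 1), (86, 1)] [(166, 1), (187, 1), (272, 3), (276, 3), (283, 3), (418, 3), (807, 3), (810, 3), (817, 3)])
 (.pair 78 141
 (.leaf 3 [(36, 2), (41, 2), (80, 2), (81, 1), (82, 1), (83, 1), (84, 1), (85, 1), (86, 1)] [(166, 1), (187, 1), (272, 3), (276, 3), (283, 3), (418, 3), (807, 3), (810, 3), (817, 3)])
 (.pair 78 143
 (.leaf 3 [(36, 2), (41, 2), (80, 2), (81, 1), (82, 1), (83, 1), (84, 1), (85, 1), (86, 1)] [(166, 1), (187, 1), (272, 3), (276, 3), (283, 3), (418, 3), (807, 3), (810, 3), (817, 3)])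
 (.pair 78 144
 (.leaf 3 [(36, 2), (41, 2), (80, 2), (81, 1), (82, 1), (83, 1), (84, 1), (85, 1), (86, 1)] [(166, 1), (187, 1), (272, 3), (276, 3), (283, 3), (418, 3), (807, 3), (810, 3), (817, 3)])
 (.pair 78 400
 (.leaf 2 [(36, 1), (41, 1), (80, 1), (81, 1), (82, 1), (83, 1), (84, 1), (85, 1), (86, 1), (133, 1), (136, 1), (138, 1), (139, 1), (141, 1), (143, 1), (144, 1)] [(418, 1), (807, 1), (810, 1), (817, 2)])
 (.pair 78 405
 (.leaf 9 [(36, 6), (41, 6), (80, 6), (81, 3), (82, 3), (83, 3), (84, 3), (85, 3), (86, 3), (133, 2), (136, 1), (138, 1), (139, 1)] [(166, 3), (187, 3), (272, 6), (276, 7), (283, 8), (418, 9), (807, 9), (810, 9), (817, 9)])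
 (.pair 78 406
 (.leaf 9 [(36, 6), (41, 6), (80, 6), (81, 3), (82, 3), (83, 3), (84, 3), (85, 3), (86, 3), (133, 2), (136, 1), (138, 1), (139, 1)] [(166, 3), (187, 3), (272, 6), (276, 7), (283, 8), (418, 9), (807, 9), (810, 9), (817, 9)])
 (.pair 78 408
 (.leaf 9 [(36, 6), (41, 6), (80, 6), (81, 3), (82, 3), (83, 3), (84, 3), (85, 3), (86, 3), (133, 2), (136, 1), (138, 1), (139, 1)] [(166, 3), (187, 3), (272, 6), (276, 7), (283, 8), (418, 9), (807, 9), (810, 9), (817, 9)])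
 (.pair 78 410
 (.leaf 9 [(36, 6), (41, 6), (80, 6), (81, 3), (82, 3), (83, 3), (84, 3), (85, 3), (86, 3), (133, 2), (136, 1), (138, 1), (139, 1)] [(166, 3), (187, 3), (272, 6), (276, 7), (283, 8), (418, 9), (807, 9), (810, 9), (817, 9)])
 (.pair 78 411
 (.leaf 9 [(36, 6), (41, 6), (80, 6), (81, 3), (82, 3), (83, 3), (84, 3), (85, 3), (86, 3), (133, 2), (136, 1), (138, 1), (139, 1)] [(166, 3), (187, 3), (272, 6), (276, 7), (283, 8), (418, 9), (807, 9), (810, 9), (817, 9)])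
 (.absent 78
 (.leaf 2 [(36, 1), (41, 1), (80, 1), (81, 1), (82, 1), (83, 1), (84, 1), (85, 1), (86, 1), (133, 1), (136, 1), (138, 1), (139, 1), (141, 1), (143, 1), (144, 1), (400, 1)] [(418, 1), (807, 1), (810, 1), (817, 2)]))))))))))))))))))))

def certFifteen_6 : Cert :=
 (.pair 70 70
 (.pair 78 36
 (.leaf 18 [(41, 12), (80, 9), (81, 9), (82, 9), (83, 6), (84, 6), (85, 6), (86, 6), (133, 4), (136, 2), (138, 2), (139, 2)] [(166, 3), (187, 6), (272, 12), (276, 14), (283, 16), (418, 18), (807, 18), (810, 18), (817, 18)])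
 (.pair 78 41
 (.leaf 18 [(36, 12), (80, 9), (81, 9), (82, 9), (83, 6), (84, 6), (85, 6), (86, 6), (133, 4), (136, 2), (138, 2), (139, 2)] [(166, 3), (187, 6), (272, 12), (276, 14), (283, 16), (418, 18), (807, 18), (810, 18), (817, 18)])
 (.pair 78 80
 (.leaf 9 [(36, 6), (41, 6), (81, 3), (82, 3), (83, 3), (84, 3), (85, 3), (86, 3), (133, 2), (136, 1), (138, 1), (139, 1)] [(166, 3), (187, 3), (272, 6), (276, 7), (283, 8), (418, 9), (807, 9), (810, 9), (817, 9)])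
 (.pair 78 81
 (.pair 80 36
 (.leaf 9 [(41, 6), (82, 6), (83, 3), (84, 3), (85, 3), (86, 3), (133, 2), (136, 1), (138, 1), (139, 1)] [(187, 3), (272, 6), (276, 7), (283, 8), (418, 9), (807, 9), (810, 9), (817, 9)])
 (.pair 80 41
 (.leaf 9 [(36, 6), (82, 6), (83, 3), (84, 3), (85, 3), (86, 3), (133, 2), (136, 1), (138, 1), (139, 1)] [(187, 3), (272, 6), (276, 7), (283, 8), (418, 9), (807, 9), (810, 9), (817, 9)])
 (.pair 80 82
 (.leaf 9 [(36, 6), (41, 6), (83, 3), (84, 3), (85, 3), (86, 3), (133, 2), (136, 1), (138, 1), (139, 1)] [(187, 3), (272, 6), (276, 7), (283, 8), (418, 9), (807, 9), (810, 9), (817, 9)])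
 (.pair 80 83
 (.leaf 9 [(36, 6), (41, 6), (82, 3), (84, 3), (85, 3), (86, 3), (133, 2), (136, 1), (138, 1), (139, 1)] [(166, 3), (187, 3), (272, 6), (276, 7), (283, 8), (418, 9), (807, 9), (810, 9), (817, 9)])
 (.pair 80 84
 (.leaf 9 [(36, 6), (41, 6), (82, 3), (83, 3), (85, 3), (86, 3), (133, 2), (136, 1), (138, 1), (139, 1)] [(166, 3), (187, 3), (272, 6), (276, 7), (283, 8), (418, 9), (807, 9), (810, 9), (817, 9)])
 (.pair 80 85
 (.leaf 9 [(36, 6), (41, 6), (82, 3), (83, 3), (84, 3), (86, 3), (133, 2), (136, 1), (138, 1), (139, 1)] [(166, 3), (187, 3), (272, 6), (276, 7), (283, 8), (418, 9), (807, 9), (810, 9), (817, 9)])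
 (.pair 80 86
 (.leaf 9 [(36, 6), (41, 6), (82, 3), (83, 3), (84, 3), (85, 3), (133, 2), (136, 1), (138, 1), (139, 1)] [(166, 3), (187, 3), (272, 6), (276, 7), (283, 8), (418, 9), (807, 9), (810, 9), (817, 9)])
 (.pair 80 133
 (.leaf 3 [(36, 2), (41, 2), (82, 2), (83, 1), (84, 1), (85, 1), (86, 1)] [(187, 1), (272, 3), (276, 3), (283, 3), (418, 3), (807, 3), (810, 3), (817, 3)])
 (.pair 80 136
 (.leaf 3 [(36, 2), (41, 2), (82, 2), (83, 1), (84, 1), (85, 1), (86, 1)] [(187, 1), (272, 3), (276, 3), (283, 3), (418, 3), (807, 3), (810, 3), (817, 3)])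
 (.pair 80 138
 (.leaf 3 [(36, 2), (41, 2), (82, 2), (83, 1), (84, 1), (85, 1), (86, 1)] [(187, 1), (272, 3), (276, 3), (283, 3), (418, 3), (807, 3), (810, 3), (817, 3)])
 (.pair 80 139
 (.leaf 3 [(36, 2), (41, 2), (82, 2), (83, 1), (84, 1), (85, 1), (86, 1)] [(187, 1), (272, 3), (276, 3), (283, 3), (418, 3), (807, 3), (810, 3), (817, 3)])
 (.pair 80 141
 (.leaf 3 [(36, 2), (41, 2), (82, 2), (83, 1), (84, 1), (85, 1), (86, 1)] [(187, 1), (272, 3), (276, 3), (283, 3), (418, 3), (807, 3), (810, 3), (817, 3)])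
 (.pair 80 143
 (.leaf 3 [(36, 2), (41, 2), (82, 2), (83, 1), (84, 1), (85, 1), (86, 1)] [(187, 1), (272, 3), (276, 3), (283, 3), (418, 3), (807, 3), (810, 3), (817, 3)])
 (.pair 80 144
 (.leaf 3 [(36, 2), (41, 2), (82, 2), (83, 1), (84, 1), (85, 1), (86, 1)] [(187, 1), (272, 3), (276, 3), (283, 3), (418, 3), (807, 3), (810, 3), (817, 3)])
 (.pair 80 400
 (.leaf 2 [(36, 1), (41, 1), (82, 1), (83, 1), (84, 1), (85, 1), (86, 1), (133, 1), (136, 1), (138, 1), (139, 1), (141, 1), (143, 1), (144, 1)] [(418, 1), (807, 1), (810, 1), (817, 2)])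
 (.pair 80 405
 (.leaf 9 [(36, 6), (41, 6), (82, 3), (83, 3), (84, 3), (85, 3), (86, 3), (133, 2), (136, 1), (138, 1), (139, 1)] [(166, 3), (187, 3), (272, 6), (276, 7), (283, 8), (418, 9), (807, 9), (810, 9), (817, 9)])
 (.pair 80 406
 (.leaf 9 [(36, 6), (41, 6), (82, 3), (83, 3), (84, 3), (85, 3), (86, 3), (133, 2), (136, 1), (138, 1), (139, 1)] [(166, 3), (187, 3), (272, 6), (276, 7), (283, 8), (418, 9), (807, 9), (810, 9), (817, 9)])
 (.pair 80 408
 (.leaf 9 [(36, 6), (41, 6), (82, 3), (83, 3), (84, 3), (85, 3), (86, 3), (133, 2), (136, 1), (138, 1), (139, 1)] [(166, 3), (187, 3), (272, 6), (276, 7), (283, 8), (418, 9), (807, 9), (810, 9), (817, 9)])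
 (.pair 80 410
 (.leaf 9 [(36, 6), (41, 6), (82, 3), (83, 3), (84, 3), (85, 3), (86, 3), (133, 2), (136, 1), (138, 1), (139, 1)] [(166, 3), (187, 3), (272, 6), (276, 7), (283, 8), (418, 9), (807, 9), (810, 9), (817, 9)])
 (.pair 80 411
 (.leaf 9 [(36, 6), (41, 6), (82, 3), (83, 3), (84, 3), (85, 3), (86, 3), (133, 2), (136, 1), (138, 1), (139, 1)] [(166, 3), (187, 3), (272, 6), (276, 7), (283, 8), (418, 9), (807, 9), (810, 9), (817, 9)])
 (.absent 80
 (.leaf 2 [(36, 1), (41, 1), (82, 1), (83, 1), (84, 1), (85, 1), (86, 1), (133, 1), (136, 1), (138, 1), (139, 1), (141, 1), (143, 1), (144, 1), (400, 1)] [(418, 1), (807, 1), (810, 1), (817, 2)]))))))))))))))))))))))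
 certFifteen_5))))
 (.pair 70 78
 (.leaf 9 [(36, 6), (41, 6), (70, 3), (80, 3), (81, 3), (82, 3), (83, 3), (84, 3), (85, 3), (86, 3), (133, 2), (136, 1), (138, 1), (139, 1)] [(160, 3), (162, 3), (166, 3), (187, 3), (272, 6), (276, 7), (283, 8), (418, 9), (807, 9), (810, 9), (817, 9)])
 (.pair 70 80
 (.leaf 9 [(36, 6), (41, 6), (70, 3), (78, 3), (81, 3), (82, 3), (83, 3), (84, 3), (85, 3), (86, 3), (133, 2), (136, 1), (138, 1), (139, 1)] [(160, 3), (162, 3), (166, 3), (187, 3), (272, 6), (276, 7), (283, 8), (418, 9), (807, 9), (810, 9), (817, 9)])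
 (.pair 70 81
 (.leaf 9 [(36, 6), (41, 6), (70, 3), (78, 3), (80, 3), (82, 3), (83, 3), (84, 3), (85, 3), (86, 3), (133, 2), (136, 1), (138, 1), (139, 1)] [(160, 3), (162, 3), (166, 3), (187, 3), (272, 6), (276, 7), (283, 8), (418, 9), (807, 9), (810, 9), (817, 9)])
 (.pair 70 82
 (.leaf 9 [(36, 6), (41, 6), (70, 3), (78, 3), (80, 3), (81, 3), (83, 3), (84, 3), (85, 3), (86, 3), (133, 2), (136, 1), (138, 1), (139, 1)] [(160, 3), (162, 3), (166, 3), (187, 3), (272, 6), (276, 7), (283, 8), (418, 9), (807, 9), (810, 9), (817, 9)])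
 (.pair 70 83
 (.leaf 9 [(36, 6), (41, 6), (70, 3), (78, 3), (80, 3), (81, 3), (82, 3), (84, 3), (85, 3), (86, 3), (133, 2), (136, 1), (138, 1), (139, 1)] [(160, 3), (162, 3), (166, 3), (187, 3), (272, 6), (276, 7), (283, 8), (418, 9), (807, 9), (810, 9), (817, 9)])
 (.pair 70 84
 (.leaf 9 [(36, 6), (41, 6), (70, 3), (78, 3), (80, 3), (81, 3), (82, 3), (83, 3), (85, 3), (86, 3), (133, 2), (136, 1), (138, 1), (139, 1)] [(160, 3), (162, 3), (166, 3), (187, 3), (272, 6), (276, 7), (283, 8), (418, 9), (807, 9), (810, 9), (817, 9)])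
 (.pair 70 85
 (.leaf 9 [(36, 6), (41, 6), (70, 3), (78, 3), (80, 3), (81, 3), (82, 3), (83, 3), (84, 3), (86, 3), (133, 2), (136, 1), (138, 1), (139, 1)] [(160, 3), (162, 3), (166, 3), (187, 3), (272, 6), (276, 7), (283, 8), (418, 9), (807, 9), (810, 9), (817, 9)])
 (.pair 70 86
 (.leaf 9 [(36, 6), (41, 6), (70, 3), (78, 3), (80, 3), (81, 3), (82, 3), (83, 3), (84, 3), (85, 3), (133, 2), (136, 1), (138, 1), (139, 1)] [(160, 3), (162, 3), (166, 3), (187, 3), (272, 6), (276, 7), (283, 8), (418, 9), (807, 9), (810, 9), (817, 9)])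
 (.pair 70 133
 (.leaf 3 [(36, 2), (41, 2), (70, 1), (78, 1), (80, 1), (81, 1), (82, 1), (83, 1), (84, 1), (85, 1), (86, 1)] [(160, 1), (162, 1), (166, 1), (187, 1), (272, 3), (276, 3), (283, 3), (418, 3), (807, 3), (810, 3), (817, 3)])
 (.pair 70 136
 (.leaf 3 [(36, 2), (41, 2), (70, 1), (78, 1), (80, 1), (81, 1), (82, 1), (83, 1), (84, 1), (85, 1), (86, 1)] [(160, 1), (162, 1), (166, 1), (187, 1), (272, 3), (276, 3), (283, 3), (418, 3), (807, 3), (810, 3), (817, 3)])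
 (.pair 70 138
 (.leaf 3 [(36, 2), (41, 2), (70, 1), (78, 1), (80, 1), (81, 1), (82, 1), (83, 1), (84, 1), (85, 1), (86, 1)] [(160, 1), (162, 1), (166, 1), (187, 1), (272, 3), (276, 3), (283, 3), (418, 3), (807, 3), (810, 3), (817, 3)])
 (.pair 70 139
 (.leaf 3 [(36, 2), (41, 2), (70, 1), (78, 1), (80, 1), (81, 1), (82, 1), (83, 1), (84, 1), (85, 1), (86, 1)] [(160, 1), (162, 1), (166, 1), (187, 1), (272, 3), (276, 3), (283, 3), (418, 3), (807, 3), (810, 3), (817, 3)])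
 (.pair 70 141
 (.leaf 3 [(36, 2), (41, 2), (70, 1), (78, 1), (80, 1), (81, 1), (82, 1), (83, 1), (84, 1), (85, 1), (86, 1)] [(160, 1), (162, 1), (166, 1), (187, 1), (272, 3), (276, 3), (283, 3), (418, 3), (807, 3), (810, 3), (817, 3)])
 (.pair 70 143
 (.leaf 3 [(36, 2), (41, 2), (70, 1), (78, 1), (80, 1), (81, 1), (82, 1), (83, 1), (84, 1), (85, 1), (86, 1)] [(160, 1), (162, 1), (166, 1), (187, 1), (272, 3), (276, 3), (283, 3), (418, 3), (807, 3), (810, 3), (817, 3)])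
 (.pair 70 144
 (.leaf 3 [(36, 2), (41, 2), (70, 1), (78, 1), (80, 1), (81, 1), (82, 1), (83, 1), (84, 1), (85, 1), (86, 1)] [(160, 1), (162, 1), (166, 1), (187, 1), (272, 3), (276, 3), (283, 3), (418, 3), (807, 3), (810, 3), (817, 3)])
 (.pair 70 400
 (.leaf 2 [(36, 1), (41, 1), (70, 1), (78, 1), (80, 1), (81, 1), (82, 1), (83, 1), (84, 1), (85, 1), (86, 1), (133, 1), (136, 1), (138, 1), (139, 1), (141, 1), (143, 1), (144, 1)] [(418, 1), (807, 1), (810, 1), (817, 2)])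
 (.pair 70 405
 (.leaf 9 [(36, 6), (41, 6), (70, 3), (78, 3), (80, 3), (81, 3), (82, 3), (83, 3), (84, 3), (85, 3), (86, 3), (133, 2), (136, 1), (138, 1), (139, 1)] [(160, 3), (162, 3), (166, 3), (187, 3), (272, 6), (276, 7), (283, 8), (418, 9), (807, 9), (810, 9), (817, 9)])
 (.pair 70 406
 (.leaf 9 [(36, 6), (41, 6), (70, 3), (78, 3), (80, 3), (81, 3), (82, 3), (83, 3), (84, 3), (85, 3), (86, 3), (133, 2), (136, 1), (138, 1), (139, 1)] [(160, 3), (162, 3), (166, 3), (187, 3), (272, 6), (276, 7), (283, 8), (418, 9), (807, 9), (810, 9), (817, 9)])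
 (.pair 70 408
 (.leaf 9 [(36, 6), (41, 6), (70, 3), (78, 3), (80, 3), (81, 3), (82, 3), (83, 3), (84, 3), (85, 3), (86, 3), (133, 2), (136, 1), (138, 1), (139, 1)] [(160, 3), (162, 3), (166, 3), (187, 3), (272, 6), (276, 7), (283, 8), (418, 9), (807, 9), (810, 9), (817, 9)])
 (.pair 70 410
 (.leaf 9 [(36, 6), (41, 6), (70, 3), (78, 3), (80, 3), (81, 3), (82, 3), (83, 3), (84, 3), (85, 3), (86, 3), (133, 2), (136, 1), (138, 1), (139, 1)] [(160, 3), (162, 3), (166, 3), (187, 3), (272, 6), (276, 7), (283, 8), (418, 9), (807, 9), (810, 9), (817, 9)])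
 (.pair 70 411
 (.leaf 9 [(36, 6), (41, 6), (70, 3), (78, 3), (80, 3), (81, 3), (82, 3), (83, 3), (84, 3), (85, 3), (86, 3), (133, 2), (136, 1), (138, 1), (139, 1)] [(160, 3), (162, 3), (166, 3), (187, 3), (272, 6), (276, 7), (283, 8), (418, 9), (807, 9), (810, 9), (817, 9)])
 (.absent 70
 (.leaf 2 [(36, 1), (41, 1), (70, 1), (78, 1), (80, 1), (81, 1), (82, 1), (83, 1), (84, 1), (85, 1), (86, 1), (133, 1), (136, 1), (138, 1), (139, 1), (141, 1), (143, 1), (144, 1), (400, 1)] [(418, 1), (807, 1), (810, 1), (817, 2)]))))))))))))))))))))))))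

def certFifteen_7 : Cert :=
 (.pair 78 82
 (.pair 80 36
 (.leaf 9 [(41, 6), (81, 6), (83, 3), (84, 3), (85, 3), (86, 3), (133, 2), (136, 1), (138, 1), (139, 1)] [(187, 3), (272, 6), (276, 7), (283, 8), (418, 9), (807, 9), (810, 9), (817, 9)])
 (.pair 80 41
 (.leaf 9 [(36, 6), (81, 6), (83, 3), (84, 3), (85, 3), (86, 3), (133, 2), (136, 1), (138, 1), (139, 1)] [(187, 3), (272, 6), (276, 7), (283, 8), (418, 9), (807, 9), (810, 9), (817, 9)])
 (.pair 80 81
 (.leaf 9 [(36, 6), (41, 6), (83, 3), (84, 3), (85, 3), (86, 3), (133, 2), (136, 1), (138, 1), (139, 1)] [(187, 3), (272, 6), (276, 7), (283, 8), (418, 9), (807, 9), (810, 9), (817, 9)])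
 (.pair 80 83
 (.leaf 9 [(36, 6), (41, 6), (81, 3), (84, 3), (85, 3), (86, 3), (133, 2), (136, 1), (138, 1), (139, 1)] [(166, 3), (187, 3), (272, 6), (276, 7), (283, 8), (418, 9), (807, 9), (810, 9), (817, 9)])
 (.pair 80 84
 (.leaf 9 [(36, 6), (41, 6), (81, 3), (83, 3), (85, 3), (86, 3), (133, 2), (136, 1), (138, 1), (139, 1)] [(166, 3), (187, 3), (272, 6), (276, 7), (283, 8), (418, 9), (807, 9), (810, 9), (817, 9)])
 (.pair 80 85
 (.leaf 9 [(36, 6), (41, 6), (81, 3), (83, 3), (84, 3), (86, 3), (133, 2), (136, 1), (138, 1), (139, 1)] [(166, 3), (187, 3), (272, 6), (276, 7), (283, 8), (418, 9), (807, 9), (810, 9), (817, 9)])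
 (.pair 80 86
 (.leaf 9 [(36, 6), (41, 6), (81, 3), (83, 3), (84, 3), (85, 3), (133, 2), (136, 1), (138, 1), (139, 1)] [(166, 3), (187, 3), (272, 6), (276, 7), (283, 8), (418, 9), (807, 9), (810, 9), (817, 9)])
 (.pair 80 133
 (.leaf 3 [(36, 2), (41, 2), (81, 2), (83, 1), (84, 1), (85, 1), (86, 1)] [(187, 1), (272, 3), (276, 3), (283, 3), (418, 3), (807, 3), (810, 3), (817, 3)])
 (.pair 80 136
 (.leaf 3 [(36, 2), (41, 2), (81, 2), (83, 1), (84, 1), (85, 1), (86, 1)] [(187, 1), (272, 3), (276, 3), (283, 3), (418, 3), (807, 3), (810, 3), (817, 3)])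
 (.pair 80 138
 (.leaf 3 [(36, 2), (41, 2), (81, 2), (83, 1), (84, 1), (85, 1), (86, 1)] [(187, 1), (272, 3), (276, 3), (283, 3), (418, 3), (807, 3), (810, 3), (817, 3)])
 (.pair 80 139
 (.leaf 3 [(36, 2), (41, 2), (81, 2), (83, 1), (84, 1), (85, 1), (86, 1)] [(187, 1), (272, 3), (276, 3), (283, 3), (418, 3), (807, 3), (810, 3), (817, 3)])
 (.pair 80 141
 (.leaf 3 [(36, 2), (41, 2), (81, 2), (83, 1), (84, 1), (85, 1), (86, 1)] [(187, 1), (272, 3), (276, 3), (283, 3), (418, 3), (807, 3), (810, 3), (817, 3)])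
 (.pair 80 143
 (.leaf 3 [(36, 2), (41, 2), (81, 2), (83, 1), (84, 1), (85, 1), (86, 1)] [(187, 1), (272, 3), (276, 3), (283, 3), (418, 3), (807, 3), (810, 3), (817, 3)])
 (.pair 80 144
 (.leaf 3 [(36, 2), (41, 2), (81, 2), (83, 1), (84, 1), (85, 1), (86, 1)] [(187, 1), (272, 3), (276, 3), (283, 3), (418, 3), (807, 3), (810, 3), (817, 3)])
 (.pair 80 400
 (.leaf 2 [(36, 1), (41, 1), (81, 1), (83, 1), (84, 1), (85, 1), (86, 1), (133, 1), (136, 1), (138, 1), (139, 1), (141, 1), (143, 1), (144, 1)] [(418, 1), (807, 1), (810, 1), (817, 2)])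
 (.pair 80 405
 (.leaf 9 [(36, 6), (41, 6), (81, 3), (83, 3), (84, 3), (85, 3), (86, 3), (133, 2), (136, 1), (138, 1), (139, 1)] [(166, 3), (187, 3), (272, 6), (276, 7), (283, 8), (418, 9), (807, 9), (810, 9), (817, 9)])
 (.pair 80 406
 (.leaf 9 [(36, 6), (41, 6), (81, 3), (83, 3), (84, 3), (85, 3), (86, 3), (133, 2), (136, 1), (138, 1), (139, 1)] [(166, 3), (187, 3), (272, 6), (276, 7), (283, 8), (418, 9), (807, 9), (810, 9), (817, 9)])
 (.pair 80 408
 (.leaf 9 [(36, 6), (41, 6), (81, 3), (83, 3), (84, 3), (85, 3), (86, 3), (133, 2), (136, 1), (138, 1), (139, 1)] [(166, 3), (187, 3), (272, 6), (276, 7), (283, 8), (418, 9), (807, 9), (810, 9), (817, 9)])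
 (.pair 80 410
 (.leaf 9 [(36, 6), (41, 6), (81, 3), (83, 3), (84, 3), (85, 3), (86, 3), (133, 2), (136, 1), (138, 1), (139, 1)] [(166, 3), (187, 3), (272, 6), (276, 7), (283, 8), (418, 9), (807, 9), (810, 9), (817, 9)])
 (.pair 80 411
 (.leaf 9 [(36, 6), (41, 6), (81, 3), (83, 3), (84, 3), (85, 3), (86, 3), (133, 2), (136, 1), (138, 1), (139, 1)] [(166, 3), (187, 3), (272, 6), (276, 7), (283, 8), (418, 9), (807, 9), (810, 9), (817, 9)])
 (.absent 80
 (.leaf 2 [(36, 1), (41, 1), (81, 1), (83, 1), (84, 1), (85, 1), (86, 1), (133, 1), (136, 1), (138, 1), (139, 1), (141, 1), (143, 1), (144, 1), (400, 1)] [(418, 1), (807, 1), (810, 1), (817, 2)]))))))))))))))))))))))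
 (.pair 78 83
 (.leaf 9 [(36, 6), (41, 6), (80, 3), (81, 3), (82, 3), (84, 3), (85, 3), (86, 3), (133, 2), (136, 1), (138, 1), (139, 1)] [(162, 3), (166, 3), (187, 3), (272, 6), (276, 7), (283, 8), (418, 9), (807, 9), (810, 9), (817, 9)])
 (.pair 78 84
 (.leaf 9 [(36, 6), (41, 6), (80, 3), (81, 3), (82, 3), (83, 3), (85, 3), (86, 3), (133, 2), (136, 1), (138, 1), (139, 1)] [(162, 3), (166, 3), (187, 3), (272, 6), (276, 7), (283, 8), (418, 9), (807, 9), (810, 9), (817, 9)])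
 (.pair 78 85
 (.leaf 9 [(36, 6), (41, 6), (80, 6), (81, 3), (82, 3), (83, 3), (84, 3), (86, 3), (133, 2), (136, 1), (138, 1), (139, 1)] [(166, 3), (187, 3), (272, 6), (276, 7), (283, 8), (418, 9), (807, 9), (810, 9), (817, 9)])
 (.pair 78 86
 (.leaf 9 [(36, 6), (41, 6), (80, 6), (81, 3), (82, 3), (83, 3), (84, 3), (85, 3), (133, 2), (136, 1), (138, 1), (139, 1)] [(166, 3), (187, 3), (272, 6), (276, 7), (283, 8), (418, 9), (807, 9), (810, 9), (817, 9)])
 (.pair 78 133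
 (.leaf 3 [(36, 2), (41, 2), (80, 2), (81, 1), (82, 1), (83, 1), (84, 1), (85, 1), (86, 1)] [(166, 1), (187, 1), (272, 3), (276, 3), (283, 3), (418, 3), (807, 3), (810, 3), (817, 3)])
 (.pair 78 136
 (.leaf 3 [(36, 2), (41, 2), (80, 2), (81, 1), (82, 1), (83, 1), (84, 1), (85, 1), (86, 1)] [(166, 1), (187, 1), (272, 3), (276, 3), (283, 3), (418, 3), (807, 3), (810, 3), (817, 3)])
 (.pair 78 138
 (.leaf 3 [(36, 2), (41, 2), (80, 2), (81, 1), (82, 1), (83, 1), (84, 1), (85, 1), (86, 1)] [(166, 1), (187, 1), (272, 3), (276, 3), (283, 3), (418, 3), (807, 3), (810, 3), (817, 3)])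
 (.pair 78 139
 (.leaf 3 [(36, 2), (41, 2), (80, 2), (81, 1), (82, 1), (83, 1), (84, 1), (85, 1), (86, 1)] [(166, 1), (187, 1), (272, 3), (276, 3), (283, 3), (418, 3), (807, 3), (810, 3), (817, 3)])
 (.pair 78 141
 (.leaf 3 [(36, 2), (41, 2), (80, 2), (81, 1), (82, 1), (83, 1), (84, 1), (85, 1), (86, 1)] [(166, 1), (187, 1), (272, 3), (276, 3), (283, 3), (418, 3), (807, 3), (810, 3), (817, 3)])
 (.pair 78 143
 (.leaf 3 [(36, 2), (41, 2), (80, 2), (81, 1), (82, 1), (83, 1), (84, 1), (85, 1), (86, 1)] [(166, 1), (187, 1), (272, 3), (276, 3), (283, 3), (418, 3), (807, 3), (810, 3), (817, 3)])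
 (.pair 78 144
 (.leaf 3 [(36, 2), (41, 2), (80, 2), (81, 1), (82, 1), (83, 1), (84, 1), (85, 1), (86, 1)] [(166, 1), (187, 1), (272, 3), (276, 3), (283, 3), (418, 3), (807, 3), (810, 3), (817, 3)])
 (.pair 78 400
 (.leaf 2 [(36, 1), (41, 1), (80, 1), (81, 1), (82, 1), (83, 1), (84, 1), (85, 1), (86, 1), (133, 1), (136, 1), (138, 1), (139, 1), (141, 1), (143, 1), (144, 1)] [(418, 1), (807, 1), (810, 1), (817, 2)])
 (.pair 78 405
 (.leaf 9 [(36, 6), (41, 6), (80, 6), (81, 3), (82, 3), (83, 3), (84, 3), (85, 3), (86, 3), (133, 2), (136, 1), (138, 1), (139, 1)] [(166, 3), (187, 3), (272, 6), (276, 7), (283, 8), (418, 9), (807, 9), (810, 9), (817, 9)])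
 (.pair 78 406
 (.leaf 9 [(36, 6), (41, 6), (80, 6), (81, 3), (82, 3), (83, 3), (84, 3), (85, 3), (86, 3), (133, 2), (136, 1), (138, 1), (139, 1)] [(166, 3), (187, 3), (272, 6), (276, 7), (283, 8), (418, 9), (807, 9), (810, 9), (817, 9)])
 (.pair 78 408
 (.leaf 9 [(36, 6), (41, 6), (80, 6), (81, 3), (82, 3), (83, 3), (84, 3), (85, 3), (86, 3), (133, 2), (136, 1), (138, 1), (139, 1)] [(166, 3), (187, 3), (272, 6), (276, 7), (283, 8), (418, 9), (807, 9), (810, 9), (817, 9)])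
 (.pair 78 410
 (.leaf 9 [(36, 6), (41, 6), (80, 6), (81, 3), (82, 3), (83, 3), (84, 3), (85, 3), (86, 3), (133, 2), (136, 1), (138, 1), (139, 1)] [(166, 3), (187, 3), (272, 6), (276, 7), (283, 8), (418, 9), (807, 9), (810, 9), (817, 9)])
 (.pair 78 411
 (.leaf 9 [(36, 6), (41, 6), (80, 6), (81, 3), (82, 3), (83, 3), (84, 3), (85, 3), (86, 3), (133, 2), (136, 1), (138, 1), (139, 1)] [(166, 3), (187, 3), (272, 6), (276, 7), (283, 8), (418, 9), (807, 9), (810, 9), (817, 9)])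
 (.absent 78
 (.leaf 2 [(36, 1), (41, 1), (80, 1), (81, 1), (82, 1), (83, 1), (84, 1), (85, 1), (86, 1), (133, 1), (136, 1), (138, 1), (139, 1), (141, 1), (143, 1), (144, 1), (400, 1)] [(418, 1), (807, 1), (810, 1), (817, 2)]))))))))))))))))))))

def certFifteen_8 : Cert :=
 (.pair 68 70
 (.pair 78 36
 (.leaf 18 [(41, 12), (80, 9), (81, 9), (82, 9), (83, 6), (84, 6), (85, 6), (86, 6), (133, 4), (136, 2), (138, 2), (139, 2)] [(166, 3), (187, 6), (272, 12), (276, 14), (283, 16), (418, 18), (807, 18), (810, 18), (817, 18)])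
 (.pair 78 41
 (.leaf 18 [(36, 12), (80, 9), (81, 9), (82, 9), (83, 6), (84, 6), (85, 6), (86, 6), (133, 4), (136, 2), (138, 2), (139, 2)] [(166, 3), (187, 6), (272, 12), (276, 14), (283, 16), (418, 18), (807, 18), (810, 18), (817, 18)])
 (.pair 78 80
 (.leaf 9 [(36, 6), (41, 6), (81, 3), (82, 3), (83, 3), (84, 3), (85, 3), (86, 3), (133, 2), (136, 1), (138, 1), (139, 1)] [(166, 3), (187, 3), (272, 6), (276, 7), (283, 8), (418, 9), (807, 9), (810, 9), (817, 9)])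
 (.pair 78 81
 (.pair 80 36
 (.leaf 9 [(41, 6), (82, 6), (83, 3), (84, 3), (85, 3), (86, 3), (133, 2), (136, 1), (138, 1), (139, 1)] [(187, 3), (272, 6), (276, 7), (283, 8), (418, 9), (807, 9), (810, 9), (817, 9)])
 (.pair 80 41
 (.leaf 9 [(36, 6), (82, 6), (83, 3), (84, 3), (85, 3), (86, 3), (133, 2), (136, 1), (138, 1), (139, 1)] [(187, 3), (272, 6), (276, 7), (283, 8), (418, 9), (807, 9), (810, 9), (817, 9)])
 (.pair 80 82
 (.leaf 9 [(36, 6), (41, 6), (83, 3), (84, 3), (85, 3), (86, 3), (133, 2), (136, 1), (138, 1), (139, 1)] [(187, 3), (272, 6), (276, 7), (283, 8), (418, 9), (807, 9), (810, 9), (817, 9)])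
 (.pair 80 83
 (.leaf 9 [(36, 6), (41, 6), (82, 3), (84, 3), (85, 3), (86, 3), (133, 2), (136, 1), (138, 1), (139, 1)] [(166, 3), (187, 3), (272, 6), (276, 7), (283, 8), (418, 9), (807, 9), (810, 9), (817, 9)])
 (.pair 80 84
 (.leaf 9 [(36, 6), (41, 6), (82, 3), (83, 3), (85, 3), (86, 3), (133, 2), (136, 1), (138, 1), (139, 1)] [(166, 3), (187, 3), (272, 6), (276, 7), (283, 8), (418, 9), (807, 9), (810, 9), (817, 9)])
 (.pair 80 85
 (.leaf 9 [(36, 6), (41, 6), (82, 3), (83, 3), (84, 3), (86, 3), (133, 2), (136, 1), (138, 1), (139, 1)] [(166, 3), (187, 3), (272, 6), (276, 7), (283, 8), (418, 9), (807, 9), (810, 9), (817, 9)])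
 (.pair 80 86
 (.leaf 9 [(36, 6), (41, 6), (82, 3), (83, 3), (84, 3), (85, 3), (133, 2), (136, 1), (138, 1), (139, 1)] [(166, 3), (187, 3), (272, 6), (276, 7), (283, 8), (418, 9), (807, 9), (810, 9), (817, 9)])
 (.pair 80 133
 (.leaf 3 [(36, 2), (41, 2), (82, 2), (83, 1), (84, 1), (85, 1), (86, 1)] [(187, 1), (272, 3), (276, 3), (283, 3), (418, 3), (807, 3), (810, 3), (817, 3)])
 (.pair 80 136
 (.leaf 3 [(36, 2), (41, 2), (82, 2), (83, 1), (84, 1), (85, 1), (86, 1)] [(187, 1), (272, 3), (276, 3), (283, 3), (418, 3), (807, 3), (810, 3), (817, 3)])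
 (.pair 80 138
 (.leaf 3 [(36, 2), (41, 2), (82, 2), (83, 1), (84, 1), (85, 1), (86, 1)] [(187, 1), (272, 3), (276, 3), (283, 3), (418, 3), (807, 3), (810, 3), (817, 3)])
 (.pair 80 139
 (.leaf 3 [(36, 2), (41, 2), (82, 2), (83, 1), (84, 1), (85, 1), (86, 1)] [(187, 1), (272, 3), (276, 3), (283, 3), (418, 3), (807, 3), (810, 3), (817, 3)])
 (.pair 80 141
 (.leaf 3 [(36, 2), (41, 2), (82, 2), (83, 1), (84, 1), (85, 1), (86, 1)] [(187, 1), (272, 3), (276, 3), (283, 3), (418, 3), (807, 3), (810, 3), (817, 3)])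
 (.pair 80 143
 (.leaf 3 [(36, 2), (41, 2), (82, 2), (83, 1), (84, 1), (85, 1), (86, 1)] [(187, 1), (272, 3), (276, 3), (283, 3), (418, 3), (807, 3), (810, 3), (817, 3)])
 (.pair 80 144
 (.leaf 3 [(36, 2), (41, 2), (82, 2), (83, 1), (84, 1), (85, 1), (86, 1)] [(187, 1), (272, 3), (276, 3), (283, 3), (418, 3), (807, 3), (810, 3), (817, 3)])
 (.pair 80 400
 (.leaf 2 [(36, 1), (41, 1), (82, 1), (83, 1), (84, 1), (85, 1), (86, 1), (133, 1), (136, 1), (138, 1), (139, 1), (141, 1), (143, 1), (144, 1)] [(418, 1), (807, 1), (810, 1), (817, 2)])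
 (.pair 80 405
 (.leaf 9 [(36, 6), (41, 6), (82, 3), (83, 3), (84, 3), (85, 3), (86, 3), (133, 2), (136, 1), (138, 1), (139, 1)] [(166, 3), (187, 3), (272, 6), (276, 7), (283, 8), (418, 9), (807, 9), (810, 9), (817, 9)])
 (.pair 80 406
 (.leaf 9 [(36, 6), (41, 6), (82, 3), (83, 3), (84, 3), (85, 3), (86, 3), (133, 2), (136, 1), (138, 1), (139, 1)] [(166, 3), (187, 3), (272, 6), (276, 7), (283, 8), (418, 9), (807, 9), (810, 9), (817, 9)])
 (.pair 80 408
 (.leaf 9 [(36, 6), (41, 6), (82, 3), (83, 3), (84, 3), (85, 3), (86, 3), (133, 2), (136, 1), (138, 1), (139, 1)] [(166, 3), (187, 3), (272, 6), (276, 7), (283, 8), (418, 9), (807, 9), (810, 9), (817, 9)])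
 (.pair 80 410
 (.leaf 9 [(36, 6), (41, 6), (82, 3), (83, 3), (84, 3), (85, 3), (86, 3), (133, 2), (136, 1), (138, 1), (139, 1)] [(166, 3), (187, 3), (272, 6), (276, 7), (283, 8), (418, 9), (807, 9), (810, 9), (817, 9)])
 (.pair 80 411
 (.leaf 9 [(36, 6), (41, 6), (82, 3), (83, 3), (84, 3), (85, 3), (86, 3), (133, 2), (136, 1), (138, 1), (139, 1)] [(166, 3), (187, 3), (272, 6), (276, 7), (283, 8), (418, 9), (807, 9), (810, 9), (817, 9)])
 (.absent 80
 (.leaf 2 [(36, 1), (41, 1), (82, 1), (83, 1), (84, 1), (85, 1), (86, 1), (133, 1), (136, 1), (138, 1), (139, 1), (141, 1), (143, 1), (144, 1), (400, 1)] [(418, 1), (807, 1), (810, 1), (817, 2)]))))))))))))))))))))))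
 certFifteen_7))))
 (.pair 68 78
 (.leaf 9 [(36, 6), (41, 6), (70, 3), (80, 3), (81, 3), (82, 3), (83, 3), (84, 3), (85, 3), (86, 3), (133, 2), (136, 1), (138, 1), (139, 1)] [(160, 3), (162, 3), (166, 3), (187, 3), (272, 6), (276, 7), (283, 8), (418, 9), (807, 9), (810, 9), (817, 9)])
 (.pair 68 80
 (.leaf 9 [(36, 6), (41, 6), (70, 3), (78, 3), (81, 3), (82, 3), (83, 3), (84, 3), (85, 3), (86, 3), (133, 2), (136, 1), (138, 1), (139, 1)] [(160, 3), (162, 3), (166, 3), (187, 3), (272, 6), (276, 7), (283, 8), (418, 9), (807, 9), (810, 9), (817, 9)])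
 (.pair 68 81
 (.leaf 9 [(36, 6), (41, 6), (70, 3), (78, 3), (80, 3), (82, 3), (83, 3), (84, 3), (85, 3), (86, 3), (133, 2), (136, 1), (138, 1), (139, 1)] [(160, 3), (162, 3), (166, 3), (187, 3), (272, 6), (276, 7), (283, 8), (418, 9), (807, 9), (810, 9), (817, 9)])
 (.pair 68 82
 (.leaf 9 [(36, 6), (41, 6), (70, 3), (78, 3), (80, 3), (81, 3), (83, 3), (84, 3), (85, 3), (86, 3), (133, 2), (136, 1), (138, 1), (139, 1)] [(160, 3), (162, 3), (166, 3), (187, 3), (272, 6), (276, 7), (283, 8), (418, 9), (807, 9), (810, 9), (817, 9)])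
 (.pair 68 83
 (.leaf 9 [(36, 6), (41, 6), (70, 3), (78, 3), (80, 3), (81, 3), (82, 3), (84, 3), (85, 3), (86, 3), (133, 2), (136, 1), (138, 1), (139, 1)] [(160, 3), (162, 3), (166, 3), (187, 3), (272, 6), (276, 7), (283, 8), (418, 9), (807, 9), (810, 9), (817, 9)])
 (.pair 68 84
 (.leaf 9 [(36, 6), (41, 6), (70, 3), (78, 3), (80, 3), (81, 3), (82, 3), (83, 3), (85, 3), (86, 3), (133, 2), (136, 1), (138, 1), (139, 1)] [(160, 3), (162, 3), (166, 3), (187, 3), (272, 6), (276, 7), (283, 8), (418, 9), (807, 9), (810, 9), (817, 9)])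
 (.pair 68 85
 (.leaf 9 [(36, 6), (41, 6), (70, 3), (78, 3), (80, 3), (81, 3), (82, 3), (83, 3), (84, 3), (86, 3), (133, 2), (136, 1), (138, 1), (139, 1)] [(160, 3), (162, 3), (166, 3), (187, 3), (272, 6), (276, 7), (283, 8), (418, 9), (807, 9), (810, 9), (817, 9)])
 (.pair 68 86
 (.leaf 9 [(36, 6), (41, 6), (70, 3), (78, 3), (80, 3), (81, 3), (82, 3), (83, 3), (84, 3), (85, 3), (133, 2), (136, 1), (138, 1), (139, 1)] [(160, 3), (162, 3), (166, 3), (187, 3), (272, 6), (276, 7), (283, 8), (418, 9), (807, 9), (810, 9), (817, 9)])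
 (.pair 68 133
 (.leaf 3 [(36, 2), (41, 2), (70, 1), (78, 1), (80, 1), (81, 1), (82, 1), (83, 1), (84, 1), (85, 1), (86, 1)] [(160, 1), (162, 1), (166, 1), (187, 1), (272, 3), (276, 3), (283, 3), (418, 3), (807, 3), (810, 3), (817, 3)])
 (.pair 68 136
 (.leaf 3 [(36, 2), (41, 2), (70, 1), (78, 1), (80, 1), (81, 1), (82, 1), (83, 1), (84, 1), (85, 1), (86, 1)] [(160, 1), (162, 1), (166, 1), (187, 1), (272, 3), (276, 3), (283, 3), (418, 3), (807, 3), (810, 3), (817, 3)])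
 (.pair 68 138
 (.leaf 3 [(36, 2), (41, 2), (70, 1), (78, 1), (80, 1), (81, 1), (82, 1), (83, 1), (84, 1), (85, 1), (86, 1)] [(160, 1), (162, 1), (166, 1), (187, 1), (272, 3), (276, 3), (283, 3), (418, 3), (807, 3), (810, 3), (817, 3)])
 (.pair 68 139
 (.leaf 3 [(36, 2), (41, 2), (70, 1), (78, 1), (80, 1), (81, 1), (82, 1), (83, 1), (84, 1), (85, 1), (86, 1)] [(160, 1), (162, 1), (166, 1), (187, 1), (272, 3), (276, 3), (283, 3), (418, 3), (807, 3), (810, 3), (817, 3)])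
 (.pair 68 141
 (.leaf 3 [(36, 2), (41, 2), (70, 1), (78, 1), (80, 1), (81, 1), (82, 1), (83, 1), (84, 1), (85, 1), (86, 1)] [(160, 1), (162, 1), (166, 1), (187, 1), (272, 3), (276, 3), (283, 3), (418, 3), (807, 3), (810, 3), (817, 3)])
 (.pair 68 143
 (.leaf 3 [(36, 2), (41, 2), (70, 1), (78, 1), (80, 1), (81, 1), (82, 1), (83, 1), (84, 1), (85, 1), (86, 1)] [(160, 1), (162, 1), (166, 1), (187, 1), (272, 3), (276, 3), (283, 3), (418, 3), (807, 3), (810, 3), (817, 3)])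
 (.pair 68 144
 (.leaf 3 [(36, 2), (41, 2), (70, 1), (78, 1), (80, 1), (81, 1), (82, 1), (83, 1), (84, 1), (85, 1), (86, 1)] [(160, 1), (162, 1), (166, 1), (187, 1), (272, 3), (276, 3), (283, 3), (418, 3), (807, 3), (810, 3), (817, 3)])
 (.pair 68 400
 (.leaf 2 [(36, 1), (41, 1), (70, 1), (78, 1), (80, 1), (81, 1), (82, 1), (83, 1), (84, 1), (85, 1), (86, 1), (133, 1), (136, 1), (138, 1), (139, 1), (141, 1), (143, 1), (144, 1)] [(418, 1), (807, 1), (810, 1), (817, 2)])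
 (.pair 68 405
 (.leaf 9 [(36, 6), (41, 6), (70, 3), (78, 3), (80, 3), (81, 3), (82, 3), (83, 3), (84, 3), (85, 3), (86, 3), (133, 2), (136, 1), (138, 1), (139, 1)] [(160, 3), (162, 3), (166, 3), (187, 3), (272, 6), (276, 7), (283, 8), (418, 9), (807, 9), (810, 9), (817, 9)])
 (.pair 68 406
 (.leaf 9 [(36, 6), (41, 6), (70, 3), (78, 3), (80, 3), (81, 3), (82, 3), (83, 3), (84, 3), (85, 3), (86, 3), (133, 2), (136, 1), (138, 1), (139, 1)] [(160, 3), (162, 3), (166, 3), (187, 3), (272, 6), (276, 7), (283, 8), (418, 9), (807, 9), (810, 9), (817, 9)])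
 (.pair 68 408
 (.leaf 9 [(36, 6), (41, 6), (70, 3), (78, 3), (80, 3), (81, 3), (82, 3), (83, 3), (84, 3), (85, 3), (86, 3), (133, 2), (136, 1), (138, 1), (139, 1)] [(160, 3), (162, 3), (166, 3), (187, 3), (272, 6), (276, 7), (283, 8), (418, 9), (807, 9), (810, 9), (817, 9)])
 (.pair 68 410
 (.leaf 9 [(36, 6), (41, 6), (70, 3), (78, 3), (80, 3), (81, 3), (82, 3), (83, 3), (84, 3), (85, 3), (86, 3), (133, 2), (136, 1), (138, 1), (139, 1)] [(160, 3), (162, 3), (166, 3), (187, 3), (272, 6), (276, 7), (283, 8), (418, 9), (807, 9), (810, 9), (817, 9)])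
 (.pair 68 411
 (.leaf 9 [(36, 6), (41, 6), (70, 3), (78, 3), (80, 3), (81, 3), (82, 3), (83, 3), (84, 3), (85, 3), (86, 3), (133, 2), (136, 1), (138, 1), (139, 1)] [(160, 3), (162, 3), (166, 3), (187, 3), (272, 6), (276, 7), (283, 8), (418, 9), (807, 9), (810, 9), (817, 9)])
 (.absent 68
 (.leaf 2 [(36, 1), (41, 1), (70, 1), (78, 1), (80, 1), (81, 1), (82, 1), (83, 1), (84, 1), (85, 1), (86, 1), (133, 1), (136, 1), (138, 1), (139, 1), (141, 1), (143, 1), (144, 1), (400, 1)] [(418, 1), (807, 1), (810, 1), (817, 2)]))))))))))))))))))))))))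

def certFifteen_9 : Cert :=
 (.pair 60 78
 (.leaf 9 [(36, 6), (41, 6), (68, 3), (70, 3), (80, 3), (81, 3), (82, 3), (83, 3), (84, 3), (85, 3), (86, 3), (133, 2), (136, 1), (138, 1), (139, 1)] [(145, 3), (160, 3), (162, 3), (166, 3), (187, 3), (272, 6), (276, 7), (283, 8), (418, 9), (807, 9), (810, 9), (817, 9)])
 (.pair 60 80
 (.leaf 9 [(36, 6), (41, 6), (68, 3), (70, 3), (78, 3), (81, 3), (82, 3), (83, 3), (84, 3), (85, 3), (86, 3), (133, 2), (136, 1), (138, 1), (139, 1)] [(145, 3), (160, 3), (162, 3), (166, 3), (187, 3), (272, 6), (276, 7), (283, 8), (418, 9), (807, 9), (810, 9), (817, 9)])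
 (.pair 60 81
 (.leaf 9 [(36, 6), (41, 6), (68, 3), (70, 3), (78, 3), (80, 3), (82, 3), (83, 3), (84, 3), (85, 3), (86, 3), (133, 2), (136, 1), (138, 1), (139, 1)] [(145, 3), (160, 3), (162, 3), (166, 3), (187, 3), (272, 6), (276, 7), (283, 8), (418, 9), (807, 9), (810, 9), (817, 9)])
 (.pair 60 82
 (.leaf 9 [(36, 6), (41, 6), (68, 3), (70, 3), (78, 3), (80, 3), (81, 3), (83, 3), (84, 3), (85, 3), (86, 3), (133, 2), (136, 1), (138, 1), (139, 1)] [(145, 3), (160, 3), (162, 3), (166, 3), (187, 3), (272, 6), (276, 7), (283, 8), (418, 9), (807, 9), (810, 9), (817, 9)])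
 (.pair 60 83
 (.leaf 9 [(36, 6), (41, 6), (68, 3), (70, 3), (78, 3), (80, 3), (81, 3), (82, 3), (84, 3), (85, 3), (86, 3), (133, 2), (136, 1), (138, 1), (139, 1)] [(145, 3), (160, 3), (162, 3), (166, 3), (187, 3), (272, 6), (276, 7), (283, 8), (418, 9), (807, 9), (810, 9), (817, 9)])
 (.pair 60 84
 (.leaf 9 [(36, 6), (41, 6), (68, 3), (70, 3), (78, 3), (80, 3), (81, 3), (82, 3), (83, 3), (85, 3), (86, 3), (133, 2), (136, 1), (138, 1), (139, 1)] [(145, 3), (160, 3), (162, 3), (166, 3), (187, 3), (272, 6), (276, 7), (283, 8), (418, 9), (807, 9), (810, 9), (817, 9)])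
 (.pair 60 85
 (.leaf 9 [(36, 6), (41, 6), (68, 3), (70, 3), (78, 3), (80, 3), (81, 3), (82, 3), (83, 3), (84, 3), (86, 3), (133, 2), (136, 1), (138, 1), (139, 1)] [(145, 3), (160, 3), (162, 3), (166, 3), (187, 3), (272, 6), (276, 7), (283, 8), (418, 9), (807, 9), (810, 9), (817, 9)])
 (.pair 60 86
 (.leaf 9 [(36, 6), (41, 6), (68, 3), (70, 3), (78, 3), (80, 3), (81, 3), (82, 3), (83, 3), (84, 3), (85, 3), (133, 2), (136, 1), (138, 1), (139, 1)] [(145, 3), (160, 3), (162, 3), (166, 3), (187, 3), (272, 6), (276, 7), (283, 8), (418, 9), (807, 9), (810, 9), (817, 9)])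
 (.pair 60 133
 (.leaf 3 [(36, 2), (41, 2), (68, 1), (70, 1), (78, 1), (80, 1), (81, 1), (82, 1), (83, 1), (84, 1), (85, 1), (86, 1)] [(145, 1), (160, 1), (162, 1), (166, 1), (187, 1), (272, 3), (276, 3), (283, 3), (418, 3), (807, 3), (810, 3), (817, 3)])
 (.pair 60 136
 (.leaf 3 [(36, 2), (41, 2), (68, 1), (70, 1), (78, 1), (80, 1), (81, 1), (82, 1), (83, 1), (84, 1), (85, 1), (86, 1)] [(145, 1), (160, 1), (162, 1), (166, 1), (187, 1), (272, 3), (276, 3), (283, 3), (418, 3), (807, 3), (810, 3), (817, 3)])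
 (.pair 60 138
 (.leaf 3 [(36, 2), (41, 2), (68, 1), (70, 1), (78, 1), (80, 1), (81, 1), (82, 1), (83, 1), (84, 1), (85, 1), (86, 1)] [(145, 1), (160, 1), (162, 1), (166, 1), (187, 1), (272, 3), (276, 3), (283, 3), (418, 3), (807, 3), (810, 3), (817, 3)])
 (.pair 60 139
 (.leaf 3 [(36, 2), (41, 2), (68, 1), (70, 1), (78, 1), (80, 1), (81, 1), (82, 1), (83, 1), (84, 1), (85, 1), (86, 1)] [(145, 1), (160, 1), (162, 1), (166, 1), (187, 1), (272, 3), (276, 3), (283, 3), (418, 3), (807, 3), (810, 3), (817, 3)])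
 (.pair 60 141
 (.leaf 3 [(36, 2), (41, 2), (68, 1), (70, 1), (78, 1), (80, 1), (81, 1), (82, 1), (83, 1), (84, 1), (85, 1), (86, 1)] [(145, 1), (160, 1), (162, 1), (166, 1), (187, 1), (272, 3), (276, 3), (283, 3), (418, 3), (807, 3), (810, 3), (817, 3)])
 (.pair 60 143
 (.leaf 3 [(36, 2), (41, 2), (68, 1), (70, 1), (78, 1), (80, 1), (81, 1), (82, 1), (83, 1), (84, 1), (85, 1), (86, 1)] [(145, 1), (160, 1), (162, 1), (166, 1), (187, 1), (272, 3), (276, 3), (283, 3), (418, 3), (807, 3), (810, 3), (817, 3)])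
 (.pair 60 144
 (.leaf 3 [(36, 2), (41, 2), (68, 1), (70, 1), (78, 1), (80, 1), (81, 1), (82, 1), (83, 1), (84, 1), (85, 1), (86, 1)] [(145, 1), (160, 1), (162, 1), (166, 1), (187, 1), (272, 3), (276, 3), (283, 3), (418, 3), (807, 3), (810, 3), (817, 3)])
 (.pair 60 400
 (.leaf 2 [(36, 1), (41, 1), (68, 1), (70, 1), (78, 1), (80, 1), (81, 1), (82, 1), (83, 1), (84, 1), (85, 1), (86, 1), (133, 1), (136, 1), (138, 1), (139, 1), (141, 1), (143, 1), (144, 1)] [(418, 1), (807, 1), (810, 1), (817, 2)])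
 (.pair 60 405
 (.leaf 9 [(36, 6), (41, 6), (68, 3), (70, 3), (78, 3), (80, 3), (81, 3), (82, 3), (83, 3), (84, 3), (85, 3), (86, 3), (133, 2), (136, 1), (138, 1), (139, 1)] [(145, 3), (160, 3), (162, 3), (166, 3), (187, 3), (272, 6), (276, 7), (283, 8), (418, 9), (807, 9), (810, 9), (817, 9)])
 (.pair 60 406
 (.leaf 9 [(36, 6), (41, 6), (68, 3), (70, 3), (78, 3), (80, 3), (81, 3), (82, 3), (83, 3), (84, 3), (85, 3), (86, 3), (133, 2), (136, 1), (138, 1), (139, 1)] [(145, 3), (160, 3), (162, 3), (166, 3), (187, 3), (272, 6), (276, 7), (283, 8), (418, 9), (807, 9), (810, 9), (817, 9)])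
 (.pair 60 408
 (.leaf 9 [(36, 6), (41, 6), (68, 3), (70, 3), (78, 3), (80, 3), (81, 3), (82, 3), (83, 3), (84, 3), (85, 3), (86, 3), (133, 2), (136, 1), (138, 1), (139, 1)] [(145, 3), (160, 3), (162, 3), (166, 3), (187, 3), (272, 6), (276, 7), (283, 8), (418, 9), (807, 9), (810, 9), (817, 9)])
 (.pair 60 410
 (.leaf 9 [(36, 6), (41, 6), (68, 3), (70, 3), (78, 3), (80, 3), (81, 3), (82, 3), (83, 3), (84, 3), (85, 3), (86, 3), (133, 2), (136, 1), (138, 1), (139, 1)] [(145, 3), (160, 3), (162, 3), (166, 3), (187, 3), (272, 6), (276, 7), (283, 8), (418, 9), (807, 9), (810, 9), (817, 9)])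
 (.pair 60 411
 (.leaf 9 [(36, 6), (41, 6), (68, 3), (70, 3), (78, 3), (80, 3), (81, 3), (82, 3), (83, 3), (84, 3), (85, 3), (86, 3), (133, 2), (136, 1), (138, 1), (139, 1)] [(145, 3), (160, 3), (162, 3), (166, 3), (187, 3), (272, 6), (276, 7), (283, 8), (418, 9), (807, 9), (810, 9), (817, 9)])
 (.absent 60
 (.leaf 2 [(36, 1), (41, 1), (68, 1), (70, 1), (78, 1), (80, 1), (81, 1), (82, 1), (83, 1), (84, 1), (85, 1), (86, 1), (133, 1), (136, 1), (138, 1), (139, 1), (141, 1), (143, 1), (144, 1), (400, 1)] [(418, 1), (807, 1), (810, 1), (817, 2)])))))))))))))))))))))))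

def certFifteen_10 : Cert :=
 (.pair 78 82
 (.pair 80 36
 (.leaf 9 [(41, 6), (81, 6), (83, 3), (84, 3), (85, 3), (86, 3), (133, 2), (136, 1), (138, 1), (139, 1)] [(187, 3), (272, 6), (276, 7), (283, 8), (418, 9), (807, 9), (810, 9), (817, 9)])
 (.pair 80 41
 (.leaf 9 [(36, 6), (81, 6), (83, 3), (84, 3), (85, 3), (86, 3), (133, 2), (136, 1), (138, 1), (139, 1)] [(187, 3), (272, 6), (276, 7), (283, 8), (418, 9), (807, 9), (810, 9), (817, 9)])
 (.pair 80 81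
 (.leaf 9 [(36, 6), (41, 6), (83, 3), (84, 3), (85, 3), (86, 3), (133, 2), (136, 1), (138, 1), (139, 1)] [(187, 3), (272, 6), (276, 7), (283, 8), (418, 9), (807, 9), (810, 9), (817, 9)])
 (.pair 80 83
 (.leaf 9 [(36, 6), (41, 6), (81, 3), (84, 3), (85, 3), (86, 3), (133, 2), (136, 1), (138, 1), (139, 1)] [(166, 3), (187, 3), (272, 6), (276, 7), (283, 8), (418, 9), (807, 9), (810, 9), (817, 9)])
 (.pair 80 84
 (.leaf 9 [(36, 6), (41, 6), (81, 3), (83, 3), (85, 3), (86, 3), (133, 2), (136, 1), (138, 1), (139, 1)] [(166, 3), (187, 3), (272, 6), (276, 7), (283, 8), (418, 9), (807, 9), (810, 9), (817, 9)])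
 (.pair 80 85
 (.leaf 9 [(36, 6), (41, 6), (81, 3), (83, 3), (84, 3), (86, 3), (133, 2), (136, 1), (138, 1), (139, 1)] [(166, 3), (187, 3), (272, 6), (276, 7), (283, 8), (418, 9), (807, 9), (810, 9), (817, 9)])
 (.pair 80 86
 (.leaf 9 [(36, 6), (41, 6), (81, 3), (83, 3), (84, 3), (85, 3), (133, 2), (136, 1), (138, 1), (139, 1)] [(166, 3), (187, 3), (272, 6), (276, 7), (283, 8), (418, 9), (807, 9), (810, 9), (817, 9)])
 (.pair 80 133
 (.leaf 3 [(36, 2), (41, 2), (81, 2), (83, 1), (84, 1), (85, 1), (86, 1)] [(187, 1), (272, 3), (276, 3), (283, 3), (418, 3), (807, 3), (810, 3), (817, 3)])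
 (.pair 80 136
 (.leaf 3 [(36, 2), (41, 2), (81, 2), (83, 1), (84, 1), (85, 1), (86, 1)] [(187, 1), (272, 3), (276, 3), (283, 3), (418, 3), (807, 3), (810, 3), (817, 3)])
 (.pair 80 138
 (.leaf 3 [(36, 2), (41, 2), (81, 2), (83, 1), (84, 1), (85, 1), (86, 1)] [(187, 1), (272, 3), (276, 3), (283, 3), (418, 3), (807, 3), (810, 3), (817, 3)])
 (.pair 80 139
 (.leaf 3 [(36, 2), (41, 2), (81, 2), (83, 1), (84, 1), (85, 1), (86, 1)] [(187, 1), (272, 3), (276, 3), (283, 3), (418, 3), (807, 3), (810, 3), (817, 3)])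
 (.pair 80 141
 (.leaf 3 [(36, 2), (41, 2), (81, 2), (83, 1), (84, 1), (85, 1), (86, 1)] [(187, 1), (272, 3), (276, 3), (283, 3), (418, 3), (807, 3), (810, 3), (817, 3)])
 (.pair 80 143
 (.leaf 3 [(36, 2), (41, 2), (81, 2), (83, 1), (84, 1), (85, 1), (86, 1)] [(187, 1), (272, 3), (276, 3), (283, 3), (418, 3), (807, 3), (810, 3), (817, 3)])
 (.pair 80 144
 (.leaf 3 [(36, 2), (41, 2), (81, 2), (83, 1), (84, 1), (85, 1), (86, 1)] [(187, 1), (272, 3), (276, 3), (283, 3), (418, 3), (807, 3), (810, 3), (817, 3)])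
 (.pair 80 400
 (.leaf 9 [(36, 6), (41, 6), (81, 3), (83, 3), (84, 3), (85, 3), (86, 3), (133, 2), (136, 1), (138, 1), (139, 1)] [(166, 3), (187, 3), (272, 6), (276, 7), (283, 8), (418, 9), (807, 9), (810, 9), (817, 9)])
 (.pair 80 403
 (.leaf 9 [(36, 6), (41, 6), (81, 3), (83, 3), (84, 3), (85, 3), (86, 3), (133, 2), (136, 1), (138, 1), (139, 1)] [(166, 3), (187, 3), (272, 6), (276, 7), (283, 8), (418, 9), (807, 9), (810, 9), (817, 9)])
 (.pair 80 406
 (.leaf 9 [(36, 6), (41, 6), (81, 3), (83, 3), (84, 3), (85, 3), (86, 3), (133, 2), (136, 1), (138, 1), (139, 1)] [(166, 3), (187, 3), (272, 6), (276, 7), (283, 8), (418, 9), (807, 9), (810, 9), (817, 9)])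
 (.pair 80 408
 (.leaf 9 [(36, 6), (41, 6), (81, 3), (83, 3), (84, 3), (85, 3), (86, 3), (133, 2), (136, 1), (138, 1), (139, 1)] [(166, 3), (187, 3), (272, 6), (276, 7), (283, 8), (418, 9), (807, 9), (810, 9), (817, 9)])
 (.pair 80 410
 (.leaf 9 [(36, 6), (41, 6), (81, 3), (83, 3), (84, 3), (85, 3), (86, 3), (133, 2), (136, 1), (138, 1), (139, 1)] [(166, 3), (187, 3), (272, 6), (276, 7), (283, 8), (418, 9), (807, 9), (810, 9), (817, 9)])
 (.pair 80 411
 (.leaf 9 [(36, 6), (41, 6), (81, 3), (83, 3), (84, 3), (85, 3), (86, 3), (133, 2), (136, 1), (138, 1), (139, 1)] [(166, 3), (187, 3), (272, 6), (276, 7), (283, 8), (418, 9), (807, 9), (810, 9), (817, 9)])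
 (.absent 80
 (.leaf 9 [(36, 6), (41, 6), (81, 6), (83, 3), (84, 3), (85, 3), (86, 3), (133, 2), (136, 1), (138, 1), (139, 1)] [(187, 3), (272, 6), (276, 7), (283, 8), (418, 9), (807, 9), (810, 9), (817, 9)]))))))))))))))))))))))
 (.pair 78 83
 (.leaf 9 [(36, 6), (41, 6), (80, 3), (81, 3), (82, 3), (84, 3), (85, 3), (86, 3), (133, 2), (136, 1), (138, 1), (139, 1)] [(162, 3), (166, 3), (187, 3), (272, 6), (276, 7), (283, 8), (418, 9), (807, 9), (810, 9), (817, 9)])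
 (.pair 78 84
 (.leaf 9 [(36, 6), (41, 6), (80, 3), (81, 3), (82, 3), (83, 3), (85, 3), (86, 3), (133, 2), (136, 1), (138, 1), (139, 1)] [(162, 3), (166, 3), (187, 3), (272, 6), (276, 7), (283, 8), (418, 9), (807, 9), (810, 9), (817, 9)])
 (.pair 78 85
 (.leaf 9 [(36, 6), (41, 6), (80, 6), (81, 3), (82, 3), (83, 3), (84, 3), (86, 3), (133, 2), (136, 1), (138, 1), (139, 1)] [(166, 3), (187, 3), (272, 6), (276, 7), (283, 8), (418, 9), (807, 9), (810, 9), (817, 9)])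
 (.pair 78 86
 (.leaf 9 [(36, 6), (41, 6), (80, 6), (81, 3), (82, 3), (83, 3), (84, 3), (85, 3), (133, 2), (136, 1), (138, 1), (139, 1)] [(166, 3), (187, 3), (272, 6), (276, 7), (283, 8), (418, 9), (807, 9), (810, 9), (817, 9)])
 (.pair 78 133
 (.leaf 3 [(36, 2), (41, 2), (80, 2), (81, 1), (82, 1), (83, 1), (84, 1), (85, 1), (86, 1)] [(166, 1), (187, 1), (272, 3), (276, 3), (283, 3), (418, 3), (807, 3), (810, 3), (817, 3)])
 (.pair 78 136
 (.leaf 3 [(36, 2), (41, 2), (80, 2), (81, 1), (82, 1), (83, 1), (84, 1), (85, 1), (86, 1)] [(166, 1), (187, 1), (272, 3), (276, 3), (283, 3), (418, 3), (807, 3), (810, 3), (817, 3)])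
 (.pair 78 138
 (.leaf 3 [(36, 2), (41, 2), (80, 2), (81, 1), (82, 1), (83, 1), (84, 1), (85, 1), (86, 1)] [(166, 1), (187, 1), (272, 3), (276, 3), (283, 3), (418, 3), (807, 3), (810, 3), (817, 3)])
 (.pair 78 139
 (.leaf 3 [(36, 2), (41, 2), (80, 2), (81, 1), (82, 1), (83, 1), (84, 1), (85, 1), (86, 1)] [(166, 1), (187, 1), (272, 3), (276, 3), (283, 3), (418, 3), (807, 3), (810, 3), (817, 3)])
 (.pair 78 141
 (.leaf 3 [(36, 2), (41, 2), (80, 2), (81, 1), (82, 1), (83, 1), (84, 1), (85, 1), (86, 1)] [(166, 1), (187, 1), (272, 3), (276, 3), (283, 3), (418, 3), (807, 3), (810, 3), (817, 3)])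
 (.pair 78 143
 (.leaf 3 [(36, 2), (41, 2), (80, 2), (81, 1), (82, 1), (83, 1), (84, 1), (85, 1), (86, 1)] [(166, 1), (187, 1), (272, 3), (276, 3), (283, 3), (418, 3), (807, 3), (810, 3), (817, 3)])
 (.pair 78 144
 (.leaf 3 [(36, 2), (41, 2), (80, 2), (81, 1), (82, 1), (83, 1), (84, 1), (85, 1), (86, 1)] [(166, 1), (187, 1), (272, 3), (276, 3), (283, 3), (418, 3), (807, 3), (810, 3), (817, 3)])
 (.pair 78 400
 (.leaf 9 [(36, 6), (41, 6), (80, 6), (81, 3), (82, 3), (83, 3), (84, 3), (85, 3), (86, 3), (133, 2), (136, 1), (138, 1), (139, 1)] [(166, 3), (187, 3), (272, 6), (276, 7), (283, 8), (418, 9), (807, 9), (810, 9), (817, 9)])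
 (.pair 78 403
 (.leaf 9 [(36, 6), (41, 6), (80, 6), (81, 3), (82, 3), (83, 3), (84, 3), (85, 3), (86, 3), (133, 2), (136, 1), (138, 1), (139, 1)] [(166, 3), (187, 3), (272, 6), (276, 7), (283, 8), (418, 9), (807, 9), (810, 9), (817, 9)])
 (.pair 78 406
 (.leaf 9 [(36, 6), (41, 6), (80, 6), (81, 3), (82, 3), (83, 3), (84, 3), (85, 3), (86, 3), (133, 2), (136, 1), (138, 1), (139, 1)] [(166, 3), (187, 3), (272, 6), (276, 7), (283, 8), (418, 9), (807, 9), (810, 9), (817, 9)])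
 (.pair 78 408
 (.leaf 9 [(36, 6), (41, 6), (80, 6), (81, 3), (82, 3), (83, 3), (84, 3), (85, 3), (86, 3), (133, 2), (136, 1), (138, 1), (139, 1)] [(166, 3), (187, 3), (272, 6), (276, 7), (283, 8), (418, 9), (807, 9), (810, 9), (817, 9)])
 (.pair 78 410
 (.leaf 9 [(36, 6), (41, 6), (80, 6), (81, 3), (82, 3), (83, 3), (84, 3), (85, 3), (86, 3), (133, 2), (136, 1), (138, 1), (139, 1)] [(166, 3), (187, 3), (272, 6), (276, 7), (283, 8), (418, 9), (807, 9), (810, 9), (817, 9)])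
 (.pair 78 411
 (.leaf 9 [(36, 6), (41, 6), (80, 6), (81, 3), (82, 3), (83, 3), (84, 3), (85, 3), (86, 3), (133, 2), (136, 1), (138, 1), (139, 1)] [(166, 3), (187, 3), (272, 6), (276, 7), (283, 8), (418, 9), (807, 9), (810, 9), (817, 9)])
 (.absent 78
 (.leaf 9 [(36, 6), (41, 6), (80, 6), (81, 3), (82, 3), (83, 3), (84, 3), (85, 3), (86, 3), (133, 2), (136, 1), (138, 1), (139, 1)] [(166, 3), (187, 3), (272, 6), (276, 7), (283, 8), (418, 9), (807, 9), (810, 9), (817, 9)]))))))))))))))))))))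

def certFifteen_11 : Cert :=
 (.pair 70 70
 (.pair 78 36
 (.leaf 18 [(41, 12), (80, 9), (81, 9), (82, 9), (83, 6), (84, 6), (85, 6), (86, 6), (133, 4), (136, 2), (138, 2), (139, 2)] [(166, 3), (187, 6), (272, 12), (276, 14), (283, 16), (418, 18), (807, 18), (810, 18), (817, 18)])
 (.pair 78 41
 (.leaf 18 [(36, 12), (80, 9), (81, 9), (82, 9), (83, 6), (84, 6), (85, 6), (86, 6), (133, 4), (136, 2), (138, 2), (139, 2)] [(166, 3), (187, 6), (272, 12), (276, 14), (283, 16), (418, 18), (807, 18), (810, 18), (817, 18)])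
 (.pair 78 80
 (.leaf 9 [(36, 6), (41, 6), (81, 3), (82, 3), (83, 3), (84, 3), (85, 3), (86, 3), (133, 2), (136, 1), (138, 1), (139, 1)] [(166, 3), (187, 3), (272, 6), (276, 7), (283, 8), (418, 9), (807, 9), (810, 9), (817, 9)])
 (.pair 78 81
 (.pair 80 36
 (.leaf 9 [(41, 6), (82, 6), (83, 3), (84, 3), (85, 3), (86, 3), (133, 2), (136, 1), (138, 1), (139, 1)] [(187, 3), (272, 6), (276, 7), (283, 8), (418, 9), (807, 9), (810, 9), (817, 9)])
 (.pair 80 41
 (.leaf 9 [(36, 6), (82, 6), (83, 3), (84, 3), (85, 3), (86, 3), (133, 2), (136, 1), (138, 1), (139, 1)] [(187, 3), (272, 6), (276, 7), (283, 8), (418, 9), (807, 9), (810, 9), (817, 9)])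
 (.pair 80 82
 (.leaf 9 [(36, 6), (41, 6), (83, 3), (84, 3), (85, 3), (86, 3), (133, 2), (136, 1), (138, 1), (139, 1)] [(187, 3), (272, 6), (276, 7), (283, 8), (418, 9), (807, 9), (810, 9), (817, 9)])
 (.pair 80 83
 (.leaf 9 [(36, 6), (41, 6), (82, 3), (84, 3), (85, 3), (86, 3), (133, 2), (136, 1), (138, 1), (139, 1)] [(166, 3), (187, 3), (272, 6), (276, 7), (283, 8), (418, 9), (807, 9), (810, 9), (817, 9)])
 (.pair 80 84
 (.leaf 9 [(36, 6), (41, 6), (82, 3), (83, 3), (85, 3), (86, 3), (133, 2), (136, 1), (138, 1), (139, 1)] [(166, 3), (187, 3), (272, 6), (276, 7), (283, 8), (418, 9), (807, 9), (810, 9), (817, 9)])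
 (.pair 80 85
 (.leaf 9 [(36, 6), (41, 6), (82, 3), (83, 3), (84, 3), (86, 3), (133, 2), (136, 1), (138, 1), (139, 1)] [(166, 3), (187, 3), (272, 6), (276, 7), (283, 8), (418, 9), (807, 9), (810, 9), (817, 9)])
 (.pair 80 86
 (.leaf 9 [(36, 6), (41, 6), (82, 3), (83, 3), (84, 3), (85, 3), (133, 2), (136, 1), (138, 1), (139, 1)] [(166, 3), (187, 3), (272, 6), (276, 7), (283, 8), (418, 9), (807, 9), (810, 9), (817, 9)])
 (.pair 80 133
 (.leaf 3 [(36, 2), (41, 2), (82, 2), (83, 1), (84, 1), (85, 1), (86, 1)] [(187, 1), (272, 3), (276, 3), (283, 3), (418, 3), (807, 3), (810, 3), (817, 3)])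
 (.pair 80 136
 (.leaf 3 [(36, 2), (41, 2), (82, 2), (83, 1), (84, 1), (85, 1), (86, 1)] [(187, 1), (272, 3), (276, 3), (283, 3), (418, 3), (807, 3), (810, 3), (817, 3)])
 (.pair 80 138
 (.leaf 3 [(36, 2), (41, 2), (82, 2), (83, 1), (84, 1), (85, 1), (86, 1)] [(187, 1), (272, 3), (276, 3), (283, 3), (418, 3), (807, 3), (810, 3), (817, 3)])
 (.pair 80 139
 (.leaf 3 [(36, 2), (41, 2), (82, 2), (83, 1), (84, 1), (85, 1), (86, 1)] [(187, 1), (272, 3), (276, 3), (283, 3), (418, 3), (807, 3), (810, 3), (817, 3)])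
 (.pair 80 141
 (.leaf 3 [(36, 2), (41, 2), (82, 2), (83, 1), (84, 1), (85, 1), (86, 1)] [(187, 1), (272, 3), (276, 3), (283, 3), (418, 3), (807, 3), (810, 3), (817, 3)])
 (.pair 80 143
 (.leaf 3 [(36, 2), (41, 2), (82, 2), (83, 1), (84, 1), (85, 1), (86, 1)] [(187, 1), (272, 3), (276, 3), (283, 3), (418, 3), (807, 3), (810, 3), (817, 3)])
 (.pair 80 144
 (.leaf 3 [(36, 2), (41, 2), (82, 2), (83, 1), (84, 1), (85, 1), (86, 1)] [(187, 1), (272, 3), (276, 3), (283, 3), (418, 3), (807, 3), (810, 3), (817, 3)])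
 (.pair 80 400
 (.leaf 9 [(36, 6), (41, 6), (82, 3), (83, 3), (84, 3), (85, 3), (86, 3), (133, 2), (136, 1), (138, 1), (139, 1)] [(166, 3), (187, 3), (272, 6), (276, 7), (283, 8), (418, 9), (807, 9), (810, 9), (817, 9)])
 (.pair 80 403
 (.leaf 9 [(36, 6), (41, 6), (82, 3), (83, 3), (84, 3), (85, 3), (86, 3), (133, 2), (136, 1), (138, 1), (139, 1)] [(166, 3), (187, 3), (272, 6), (276, 7), (283, 8), (418, 9), (807, 9), (810, 9), (817, 9)])
 (.pair 80 406
 (.leaf 9 [(36, 6), (41, 6), (82, 3), (83, 3), (84, 3), (85, 3), (86, 3), (133, 2), (136, 1), (138, 1), (139, 1)] [(166, 3), (187, 3), (272, 6), (276, 7), (283, 8), (418, 9), (807, 9), (810, 9), (817, 9)])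
 (.pair 80 408
 (.leaf 9 [(36, 6), (41, 6), (82, 3), (83, 3), (84, 3), (85, 3), (86, 3), (133, 2), (136, 1), (138, 1), (139, 1)] [(166, 3), (187, 3), (272, 6), (276, 7), (283, 8), (418, 9), (807, 9), (810, 9), (817, 9)])
 (.pair 80 410
 (.leaf 9 [(36, 6), (41, 6), (82, 3), (83, 3), (84, 3), (85, 3), (86, 3), (133, 2), (136, 1), (138, 1), (139, 1)] [(166, 3), (187, 3), (272, 6), (276, 7), (283, 8), (418, 9), (807, 9), (810, 9), (817, 9)])
 (.pair 80 411
 (.leaf 9 [(36, 6), (41, 6), (82, 3), (83, 3), (84, 3), (85, 3), (86, 3), (133, 2), (136, 1), (138, 1), (139, 1)] [(166, 3), (187, 3), (272, 6), (276, 7), (283, 8), (418, 9), (807, 9), (810, 9), (817, 9)])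
 (.absent 80
 (.leaf 9 [(36, 6), (41, 6), (82, 6), (83, 3), (84, 3), (85, 3), (86, 3), (133, 2), (136, 1), (138, 1), (139, 1)] [(187, 3), (272, 6), (276, 7), (283, 8), (418, 9), (807, 9), (810, 9), (817, 9)]))))))))))))))))))))))
 certFifteen_10))))
 (.pair 70 78
 (.leaf 9 [(36, 6), (41, 6), (70, 3), (80, 3), (81, 3), (82, 3), (83, 3), (84, 3), (85, 3), (86, 3), (133, 2), (136, 1), (138, 1), (139, 1)] [(160, 3), (162, 3), (166, 3), (187, 3), (272, 6), (276, 7), (283, 8), (418, 9), (807, 9), (810, 9), (817, 9)])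
 (.pair 70 80
 (.leaf 9 [(36, 6), (41, 6), (70, 3), (78, 3), (81, 3), (82, 3), (83, 3), (84, 3), (85, 3), (86, 3), (133, 2), (136, 1), (138, 1), (139, 1)] [(160, 3), (162, 3), (166, 3), (187, 3), (272, 6), (276, 7), (283, 8), (418, 9), (807, 9), (810, 9), (817, 9)])
 (.pair 70 81
 (.leaf 9 [(36, 6), (41, 6), (70, 3), (78, 3), (80, 3), (82, 3), (83, 3), (84, 3), (85, 3), (86, 3), (133, 2), (136, 1), (138, 1), (139, 1)] [(160, 3), (162, 3), (166, 3), (187, 3), (272, 6), (276, 7), (283, 8), (418, 9), (807, 9), (810, 9), (817, 9)])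
 (.pair 70 82
 (.leaf 9 [(36, 6), (41, 6), (70, 3), (78, 3), (80, 3), (81, 3), (83, 3), (84, 3), (85, 3), (86, 3), (133, 2), (136, 1), (138, 1), (139, 1)] [(160, 3), (162, 3), (166, 3), (187, 3), (272, 6), (276, 7), (283, 8), (418, 9), (807, 9), (810, 9), (817, 9)])
 (.pair 70 83
 (.leaf 9 [(36, 6), (41, 6), (70, 3), (78, 3), (80, 3), (81, 3), (82, 3), (84, 3), (85, 3), (86, 3), (133, 2), (136, 1), (138, 1), (139, 1)] [(160, 3), (162, 3), (166, 3), (187, 3), (272, 6), (276, 7), (283, 8), (418, 9), (807, 9), (810, 9), (817, 9)])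
 (.pair 70 84
 (.leaf 9 [(36, 6), (41, 6), (70, 3), (78, 3), (80, 3), (81, 3), (82, 3), (83, 3), (85, 3), (86, 3), (133, 2), (136, 1), (138, 1), (139, 1)] [(160, 3), (162, 3), (166, 3), (187, 3), (272, 6), (276, 7), (283, 8), (418, 9), (807, 9), (810, 9), (817, 9)])
 (.pair 70 85
 (.leaf 9 [(36, 6), (41, 6), (70, 3), (78, 3), (80, 3), (81, 3), (82, 3), (83, 3), (84, 3), (86, 3), (133, 2), (136, 1), (138, 1), (139, 1)] [(160, 3), (162, 3), (166, 3), (187, 3), (272, 6), (276, 7), (283, 8), (418, 9), (807, 9), (810, 9), (817, 9)])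
 (.pair 70 86
 (.leaf 9 [(36, 6), (41, 6), (70, 3), (78, 3), (80, 3), (81, 3), (82, 3), (83, 3), (84, 3), (85, 3), (133, 2), (136, 1), (138, 1), (139, 1)] [(160, 3), (162, 3), (166, 3), (187, 3), (272, 6), (276, 7), (283, 8), (418, 9), (807, 9), (810, 9), (817, 9)])
 (.pair 70 133
 (.leaf 3 [(36, 2), (41, 2), (70, 1), (78, 1), (80, 1), (81, 1), (82, 1), (83, 1), (84, 1), (85, 1), (86, 1)] [(160, 1), (162, 1), (166, 1), (187, 1), (272, 3), (276, 3), (283, 3), (418, 3), (807, 3), (810, 3), (817, 3)])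
 (.pair 70 136
 (.leaf 3 [(36, 2), (41, 2), (70, 1), (78, 1), (80, 1), (81, 1), (82, 1), (83, 1), (84, 1), (85, 1), (86, 1)] [(160, 1), (162, 1), (166, 1), (187, 1), (272, 3), (276, 3), (283, 3), (418, 3), (807, 3), (810, 3), (817, 3)])
 (.pair 70 138
 (.leaf 3 [(36, 2), (41, 2), (70, 1), (78, 1), (80, 1), (81, 1), (82, 1), (83, 1), (84, 1), (85, 1), (86, 1)] [(160, 1), (162, 1), (166, 1), (187, 1), (272, 3), (276, 3), (283, 3), (418, 3), (807, 3), (810, 3), (817, 3)])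
 (.pair 70 139
 (.leaf 3 [(36, 2), (41, 2), (70, 1), (78, 1), (80, 1), (81, 1), (82, 1), (83, 1), (84, 1), (85, 1), (86, 1)] [(160, 1), (162, 1), (166, 1), (187, 1), (272, 3), (276, 3), (283, 3), (418, 3), (807, 3), (810, 3), (817, 3)])
 (.pair 70 141
 (.leaf 3 [(36, 2), (41, 2), (70, 1), (78, 1), (80, 1), (81, 1), (82, 1), (83, 1), (84, 1), (85, 1), (86, 1)] [(160, 1), (162, 1), (166, 1), (187, 1), (272, 3), (276, 3), (283, 3), (418, 3), (807, 3), (810, 3), (817, 3)])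
 (.pair 70 143
 (.leaf 3 [(36, 2), (41, 2), (70, 1), (78, 1), (80, 1), (81, 1), (82, 1), (83, 1), (84, 1), (85, 1), (86, 1)] [(160, 1), (162, 1), (166, 1), (187, 1), (272, 3), (276, 3), (283, 3), (418, 3), (807, 3), (810, 3), (817, 3)])
 (.pair 70 144
 (.leaf 3 [(36, 2), (41, 2), (70, 1), (78, 1), (80, 1), (81, 1), (82, 1), (83, 1), (84, 1), (85, 1), (86, 1)] [(160, 1), (162, 1), (166, 1), (187, 1), (272, 3), (276, 3), (283, 3), (418, 3), (807, 3), (810, 3), (817, 3)])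
 (.pair 70 400
 (.leaf 9 [(36, 6), (41, 6), (70, 3), (78, 3), (80, 3), (81, 3), (82, 3), (83, 3), (84, 3), (85, 3), (86, 3), (133, 2), (136, 1), (138, 1), (139, 1)] [(160, 3), (162, 3), (166, 3), (187, 3), (272, 6), (276, 7), (283, 8), (418, 9), (807, 9), (810, 9), (817, 9)])
 (.pair 70 403
 (.leaf 9 [(36, 6), (41, 6), (70, 3), (78, 3), (80, 3), (81, 3), (82, 3), (83, 3), (84, 3), (85, 3), (86, 3), (133, 2), (136, 1), (138, 1), (139, 1)] [(160, 3), (162, 3), (166, 3), (187, 3), (272, 6), (276, 7), (283, 8), (418, 9), (807, 9), (810, 9), (817, 9)])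
 (.pair 70 406
 (.leaf 9 [(36, 6), (41, 6), (70, 3), (78, 3), (80, 3), (81, 3), (82, 3), (83, 3), (84, 3), (85, 3), (86, 3), (133, 2), (136, 1), (138, 1), (139, 1)] [(160, 3), (162, 3), (166, 3), (187, 3), (272, 6), (276, 7), (283, 8), (418, 9), (807, 9), (810, 9), (817, 9)])
 (.pair 70 408
 (.leaf 9 [(36, 6), (41, 6), (70, 3), (78, 3), (80, 3), (81, 3), (82, 3), (83, 3), (84, 3), (85, 3), (86, 3), (133, 2), (136, 1), (138, 1), (139, 1)] [(160, 3), (162, 3), (166, 3), (187, 3), (272, 6), (276, 7), (283, 8), (418, 9), (807, 9), (810, 9), (817, 9)])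
 (.pair 70 410
 (.leaf 9 [(36, 6), (41, 6), (70, 3), (78, 3), (80, 3), (81, 3), (82, 3), (83, 3), (84, 3), (85, 3), (86, 3), (133, 2), (136, 1), (138, 1), (139, 1)] [(160, 3), (162, 3), (166, 3), (187, 3), (272, 6), (276, 7), (283, 8), (418, 9), (807, 9), (810, 9), (817, 9)])
 (.pair 70 411
 (.leaf 9 [(36, 6), (41, 6), (70, 3), (78, 3), (80, 3), (81, 3), (82, 3), (83, 3), (84, 3), (85, 3), (86, 3), (133, 2), (136, 1), (138, 1), (139, 1)] [(160, 3), (162, 3), (166, 3), (187, 3), (272, 6), (276, 7), (283, 8), (418, 9), (807, 9), (810, 9), (817, 9)])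
 (.absent 70
 (.leaf 9 [(36, 6), (41, 6), (70, 3), (78, 3), (80, 3), (81, 3), (82, 3), (83, 3), (84, 3), (85, 3), (86, 3), (133, 2), (136, 1), (138, 1), (139, 1)] [(160, 3), (162, 3), (166, 3), (187, 3), (272, 6), (276, 7), (283, 8), (418, 9), (807, 9), (810, 9), (817, 9)]))))))))))))))))))))))))

def certFifteen_12 : Cert :=
 (.pair 78 82
 (.pair 80 36
 (.leaf 9 [(41, 6), (81, 6), (83, 3), (84, 3), (85, 3), (86, 3), (133, 2), (136, 1), (138, 1), (139, 1)] [(187, 3), (272, 6), (276, 7), (283, 8), (418, 9), (807, 9), (810, 9), (817, 9)])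
 (.pair 80 41
 (.leaf 9 [(36, 6), (81, 6), (83, 3), (84, 3), (85, 3), (86, 3), (133, 2), (136, 1), (138, 1), (139, 1)] [(187, 3), (272, 6), (276, 7), (283, 8), (418, 9), (807, 9), (810, 9), (817, 9)])
 (.pair 80 81
 (.leaf 9 [(36, 6), (41, 6), (83, 3), (84, 3), (85, 3), (86, 3), (133, 2), (136, 1), (138, 1), (139, 1)] [(187, 3), (272, 6), (276, 7), (283, 8), (418, 9), (807, 9), (810, 9), (817, 9)])
 (.pair 80 83
 (.leaf 9 [(36, 6), (41, 6), (81, 3), (84, 3), (85, 3), (86, 3), (133, 2), (136, 1), (138, 1), (139, 1)] [(166, 3), (187, 3), (272, 6), (276, 7), (283, 8), (418, 9), (807, 9), (810, 9), (817, 9)])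
 (.pair 80 84
 (.leaf 9 [(36, 6), (41, 6), (81, 3), (83, 3), (85, 3), (86, 3), (133, 2), (136, 1), (138, 1), (139, 1)] [(166, 3), (187, 3), (272, 6), (276, 7), (283, 8), (418, 9), (807, 9), (810, 9), (817, 9)])
 (.pair 80 85
 (.leaf 9 [(36, 6), (41, 6), (81, 3), (83, 3), (84, 3), (86, 3), (133, 2), (136, 1), (138, 1), (139, 1)] [(166, 3), (187, 3), (272, 6), (276, 7), (283, 8), (418, 9), (807, 9), (810, 9), (817, 9)])
 (.pair 80 86
 (.leaf 9 [(36, 6), (41, 6), (81, 3), (83, 3), (84, 3), (85, 3), (133, 2), (136, 1), (138, 1), (139, 1)] [(166, 3), (187, 3), (272, 6), (276, 7), (283, 8), (418, 9), (807, 9), (810, 9), (817, 9)])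
 (.pair 80 133
 (.leaf 3 [(36, 2), (41, 2), (81, 2), (83, 1), (84, 1), (85, 1), (86, 1)] [(187, 1), (272, 3), (276, 3), (283, 3), (418, 3), (807, 3), (810, 3), (817, 3)])
 (.pair 80 136
 (.leaf 3 [(36, 2), (41, 2), (81, 2), (83, 1), (84, 1), (85, 1), (86, 1)] [(187, 1), (272, 3), (276, 3), (283, 3), (418, 3), (807, 3), (810, 3), (817, 3)])
 (.pair 80 138
 (.leaf 3 [(36, 2), (41, 2), (81, 2), (83, 1), (84, 1), (85, 1), (86, 1)] [(187, 1), (272, 3), (276, 3), (283, 3), (418, 3), (807, 3), (810, 3), (817, 3)])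
 (.pair 80 139
 (.leaf 3 [(36, 2), (41, 2), (81, 2), (83, 1), (84, 1), (85, 1), (86, 1)] [(187, 1), (272, 3), (276, 3), (283, 3), (418, 3), (807, 3), (810, 3), (817, 3)])
 (.pair 80 141
 (.leaf 3 [(36, 2), (41, 2), (81, 2), (83, 1), (84, 1), (85, 1), (86, 1)] [(187, 1), (272, 3), (276, 3), (283, 3), (418, 3), (807, 3), (810, 3), (817, 3)])
 (.pair 80 143
 (.leaf 3 [(36, 2), (41, 2), (81, 2), (83, 1), (84, 1), (85, 1), (86, 1)] [(187, 1), (272, 3), (276, 3), (283, 3), (418, 3), (807, 3), (810, 3), (817, 3)])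
 (.pair 80 144
 (.leaf 3 [(36, 2), (41, 2), (81, 2), (83, 1), (84, 1), (85, 1), (86, 1)] [(187, 1), (272, 3), (276, 3), (283, 3), (418, 3), (807, 3), (810, 3), (817, 3)])
 (.pair 80 400
 (.leaf 9 [(36, 6), (41, 6), (81, 3), (83, 3), (84, 3), (85, 3), (86, 3), (133, 2), (136, 1), (138, 1), (139, 1)] [(166, 3), (187, 3), (272, 6), (276, 7), (283, 8), (418, 9), (807, 9), (810, 9), (817, 9)])
 (.pair 80 403
 (.leaf 9 [(36, 6), (41, 6), (81, 3), (83, 3), (84, 3), (85, 3), (86, 3), (133, 2), (136, 1), (138, 1), (139, 1)] [(166, 3), (187, 3), (272, 6), (276, 7), (283, 8), (418, 9), (807, 9), (810, 9), (817, 9)])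
 (.pair 80 406
 (.leaf 9 [(36, 6), (41, 6), (81, 3), (83, 3), (84, 3), (85, 3), (86, 3), (133, 2), (136, 1), (138, 1), (139, 1)] [(166, 3), (187, 3), (272, 6), (276, 7), (283, 8), (418, 9), (807, 9), (810, 9), (817, 9)])
 (.pair 80 408
 (.leaf 9 [(36, 6), (41, 6), (81, 3), (83, 3), (84, 3), (85, 3), (86, 3), (133, 2), (136, 1), (138, 1), (139, 1)] [(166, 3), (187, 3), (272, 6), (276, 7), (283, 8), (418, 9), (807, 9), (810, 9), (817, 9)])
 (.pair 80 410
 (.leaf 9 [(36, 6), (41, 6), (81, 3), (83, 3), (84, 3), (85, 3), (86, 3), (133, 2), (136, 1), (138, 1), (139, 1)] [(166, 3), (187, 3), (272, 6), (276, 7), (283, 8), (418, 9), (807, 9), (810, 9), (817, 9)])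
 (.pair 80 411
 (.leaf 9 [(36, 6), (41, 6), (81, 3), (83, 3), (84, 3), (85, 3), (86, 3), (133, 2), (136, 1), (138, 1), (139, 1)] [(166, 3), (187, 3), (272, 6), (276, 7), (283, 8), (418, 9), (807, 9), (810, 9), (817, 9)])
 (.absent 80
 (.leaf 9 [(36, 6), (41, 6), (81, 6), (83, 3), (84, 3), (85, 3), (86, 3), (133, 2), (136, 1), (138, 1), (139, 1)] [(187, 3), (272, 6), (276, 7), (283, 8), (418, 9), (807, 9), (810, 9), (817, 9)]))))))))))))))))))))))
 (.pair 78 83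
 (.leaf 9 [(36, 6), (41, 6), (80, 3), (81, 3), (82, 3), (84, 3), (85, 3), (86, 3), (133, 2), (136, 1), (138, 1), (139, 1)] [(162, 3), (166, 3), (187, 3), (272, 6), (276, 7), (283, 8), (418, 9), (807, 9), (810, 9), (817, 9)])
 (.pair 78 84
 (.leaf 9 [(36, 6), (41, 6), (80, 3), (81, 3), (82, 3), (83, 3), (85, 3), (86, 3), (133, 2), (136, 1), (138, 1), (139, 1)] [(162, 3), (166, 3), (187, 3), (272, 6), (276, 7), (283, 8), (418, 9), (807, 9), (810, 9), (817, 9)])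
 (.pair 78 85
 (.leaf 9 [(36, 6), (41, 6), (80, 6), (81, 3), (82, 3), (83, 3), (84, 3), (86, 3), (133, 2), (136, 1), (138, 1), (139, 1)] [(166, 3), (187, 3), (272, 6), (276, 7), (283, 8), (418, 9), (807, 9), (810, 9), (817, 9)])
 (.pair 78 86
 (.leaf 9 [(36, 6), (41, 6), (80, 6), (81, 3), (82, 3), (83, 3), (84, 3), (85, 3), (133, 2), (136, 1), (138, 1), (139, 1)] [(166, 3), (187, 3), (272, 6), (276, 7), (283, 8), (418, 9), (807, 9), (810, 9), (817, 9)])
 (.pair 78 133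
 (.leaf 3 [(36, 2), (41, 2), (80, 2), (81, 1), (82, 1), (83, 1), (84, 1), (85, 1), (86, 1)] [(166, 1), (187, 1), (272, 3), (276, 3), (283, 3), (418, 3), (807, 3), (810, 3), (817, 3)])
 (.pair 78 136
 (.leaf 3 [(36, 2), (41, 2), (80, 2), (81, 1), (82, 1), (83, 1), (84, 1), (85, 1), (86, 1)] [(166, 1), (187, 1), (272, 3), (276, 3), (283, 3), (418, 3), (807, 3), (810, 3), (817, 3)])
 (.pair 78 138
 (.leaf 3 [(36, 2), (41, 2), (80, 2), (81, 1), (82, 1), (83, 1), (84, 1), (85, 1), (86, 1)] [(166, 1), (187, 1), (272, 3), (276, 3), (283, 3), (418, 3), (807, 3), (810, 3), (817, 3)])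
 (.pair 78 139
 (.leaf 3 [(36, 2), (41, 2), (80, 2), (81, 1), (82, 1), (83, 1), (84, 1), (85, 1), (86, 1)] [(166, 1), (187, 1), (272, 3), (276, 3), (283, 3), (418, 3), (807, 3), (810, 3), (817, 3)])
 (.pair 78 141
 (.leaf 3 [(36, 2), (41, 2), (80, 2), (81, 1), (82, 1), (83, 1), (84, 1), (85, 1), (86, 1)] [(166, 1), (187, 1), (272, 3), (276, 3), (283, 3), (418, 3), (807, 3), (810, 3), (817, 3)])
 (.pair 78 143
 (.leaf 3 [(36, 2), (41, 2), (80, 2), (81, 1), (82, 1), (83, 1), (84, 1), (85, 1), (86, 1)] [(166, 1), (187, 1), (272, 3), (276, 3), (283, 3), (418, 3), (807, 3), (810, 3), (817, 3)])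
 (.pair 78 144
 (.leaf 3 [(36, 2), (41, 2), (80, 2), (81, 1), (82, 1), (83, 1), (84, 1), (85, 1), (86, 1)] [(166, 1), (187, 1), (272, 3), (276, 3), (283, 3), (418, 3), (807, 3), (810, 3), (817, 3)])
 (.pair 78 400
 (.leaf 9 [(36, 6), (41, 6), (80, 6), (81, 3), (82, 3), (83, 3), (84, 3), (85, 3), (86, 3), (133, 2), (136, 1), (138, 1), (139, 1)] [(166, 3), (187, 3), (272, 6), (276, 7), (283, 8), (418, 9), (807, 9), (810, 9), (817, 9)])
 (.pair 78 403
 (.leaf 9 [(36, 6), (41, 6), (80, 6), (81, 3), (82, 3), (83, 3), (84, 3), (85, 3), (86, 3), (133, 2), (136, 1), (138, 1), (139, 1)] [(166, 3), (187, 3), (272, 6), (276, 7), (283, 8), (418, 9), (807, 9), (810, 9), (817, 9)])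
 (.pair 78 406
 (.leaf 9 [(36, 6), (41, 6), (80, 6), (81, 3), (82, 3), (83, 3), (84, 3), (85, 3), (86, 3), (133, 2), (136, 1), (138, 1), (139, 1)] [(166, 3), (187, 3), (272, 6), (276, 7), (283, 8), (418, 9), (807, 9), (810, 9), (817, 9)])
 (.pair 78 408
 (.leaf 9 [(36, 6), (41, 6), (80, 6), (81, 3), (82, 3), (83, 3), (84, 3), (85, 3), (86, 3), (133, 2), (136, 1), (138, 1), (139, 1)] [(166, 3), (187, 3), (272, 6), (276, 7), (283, 8), (418, 9), (807, 9), (810, 9), (817, 9)])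
 (.pair 78 410
 (.leaf 9 [(36, 6), (41, 6), (80, 6), (81, 3), (82, 3), (83, 3), (84, 3), (85, 3), (86, 3), (133, 2), (136, 1), (138, 1), (139, 1)] [(166, 3), (187, 3), (272, 6), (276, 7), (283, 8), (418, 9), (807, 9), (810, 9), (817, 9)])
 (.pair 78 411
 (.leaf 9 [(36, 6), (41, 6), (80, 6), (81, 3), (82, 3), (83, 3), (84, 3), (85, 3), (86, 3), (133, 2), (136, 1), (138, 1), (139, 1)] [(166, 3), (187, 3), (272, 6), (276, 7), (283, 8), (418, 9), (807, 9), (810, 9), (817, 9)])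
 (.absent 78
 (.leaf 9 [(36, 6), (41, 6), (80, 6), (81, 3), (82, 3), (83, 3), (84, 3), (85, 3), (86, 3), (133, 2), (136, 1), (138, 1), (139, 1)] [(166, 3), (187, 3), (272, 6), (276, 7), (283, 8), (418, 9), (807, 9), (810, 9), (817, 9)]))))))))))))))))))))

def certFifteen_13 : Cert :=
 (.pair 68 70
 (.pair 78 36
 (.leaf 18 [(41, 12), (80, 9), (81, 9), (82, 9), (83, 6), (84, 6), (85, 6), (86, 6), (133, 4), (136, 2), (138, 2), (139, 2)] [(166, 3), (187, 6), (272, 12), (276, 14), (283, 16), (418, 18), (807, 18), (810, 18), (817, 18)])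
 (.pair 78 41
 (.leaf 18 [(36, 12), (80, 9), (81, 9), (82, 9), (83, 6), (84, 6), (85, 6), (86, 6), (133, 4), (136, 2), (138, 2), (139, 2)] [(166, 3), (187, 6), (272, 12), (276, 14), (283, 16), (418, 18), (807, 18), (810, 18), (817, 18)])
 (.pair 78 80
 (.leaf 9 [(36, 6), (41, 6), (81, 3), (82, 3), (83, 3), (84, 3), (85, 3), (86, 3), (133, 2), (136, 1), (138, 1), (139, 1)] [(166, 3), (187, 3), (272, 6), (276, 7), (283, 8), (418, 9), (807, 9), (810, 9), (817, 9)])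
 (.pair 78 81
 (.pair 80 36
 (.leaf 9 [(41, 6), (82, 6), (83, 3), (84, 3), (85, 3), (86, 3), (133, 2), (136, 1), (138, 1), (139, 1)] [(187, 3), (272, 6), (276, 7), (283, 8), (418, 9), (807, 9), (810, 9), (817, 9)])
 (.pair 80 41
 (.leaf 9 [(36, 6), (82, 6), (83, 3), (84, 3), (85, 3), (86, 3), (133, 2), (136, 1), (138, 1), (139, 1)] [(187, 3), (272, 6), (276, 7), (283, 8), (418, 9), (807, 9), (810, 9), (817, 9)])
 (.pair 80 82
 (.leaf 9 [(36, 6), (41, 6), (83, 3), (84, 3), (85, 3), (86, 3), (133, 2), (136, 1), (138, 1), (139, 1)] [(187, 3), (272, 6), (276, 7), (283, 8), (418, 9), (807, 9), (810, 9), (817, 9)])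
 (.pair 80 83
 (.leaf 9 [(36, 6), (41, 6), (82, 3), (84, 3), (85, 3), (86, 3), (133, 2), (136, 1), (138, 1), (139, 1)] [(166, 3), (187, 3), (272, 6), (276, 7), (283, 8), (418, 9), (807, 9), (810, 9), (817, 9)])
 (.pair 80 84
 (.leaf 9 [(36, 6), (41, 6), (82, 3), (83, 3), (85, 3), (86, 3), (133, 2), (136, 1), (138, 1), (139, 1)] [(166, 3), (187, 3), (272, 6), (276, 7), (283, 8), (418, 9), (807, 9), (810, 9), (817, 9)])
 (.pair 80 85
 (.leaf 9 [(36, 6), (41, 6), (82, 3), (83, 3), (84, 3), (86, 3), (133, 2), (136, 1), (138, 1), (139, 1)] [(166, 3), (187, 3), (272, 6), (276, 7), (283, 8), (418, 9), (807, 9), (810, 9), (817, 9)])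
 (.pair 80 86
 (.leaf 9 [(36, 6), (41, 6), (82, 3), (83, 3), (84, 3), (85, 3), (133, 2), (136, 1), (138, 1), (139, 1)] [(166, 3), (187, 3), (272, 6), (276, 7), (283, 8), (418, 9), (807, 9), (810, 9), (817, 9)])
 (.pair 80 133
 (.leaf 3 [(36, 2), (41, 2), (82, 2), (83, 1), (84, 1), (85, 1), (86, 1)] [(187, 1), (272, 3), (276, 3), (283, 3), (418, 3), (807, 3), (810, 3), (817, 3)])
 (.pair 80 136
 (.leaf 3 [(36, 2), (41, 2), (82, 2), (83, 1), (84, 1), (85, 1), (86, 1)] [(187, 1), (272, 3), (276, 3), (283, 3), (418, 3), (807, 3), (810, 3), (817, 3)])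
 (.pair 80 138
 (.leaf 3 [(36, 2), (41, 2), (82, 2), (83, 1), (84, 1), (85, 1), (86, 1)] [(187, 1), (272, 3), (276, 3), (283, 3), (418, 3), (807, 3), (810, 3), (817, 3)])
 (.pair 80 139
 (.leaf 3 [(36, 2), (41, 2), (82, 2), (83, 1), (84, 1), (85, 1), (86, 1)] [(187, 1), (272, 3), (276, 3), (283, 3), (418, 3), (807, 3), (810, 3), (817, 3)])
 (.pair 80 141
 (.leaf 3 [(36, 2), (41, 2), (82, 2), (83, 1), (84, 1), (85, 1), (86, 1)] [(187, 1), (272, 3), (276, 3), (283, 3), (418, 3), (807, 3), (810, 3), (817, 3)])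
 (.pair 80 143
 (.leaf 3 [(36, 2), (41, 2), (82, 2), (83, 1), (84, 1), (85, 1), (86, 1)] [(187, 1), (272, 3), (276, 3), (283, 3), (418, 3), (807, 3), (810, 3), (817, 3)])
 (.pair 80 144
 (.leaf 3 [(36, 2), (41, 2), (82, 2), (83, 1), (84, 1), (85, 1), (86, 1)] [(187, 1), (272, 3), (276, 3), (283, 3), (418, 3), (807, 3), (810, 3), (817, 3)])
 (.pair 80 400
 (.leaf 9 [(36, 6), (41, 6), (82, 3), (83, 3), (84, 3), (85, 3), (86, 3), (133, 2), (136, 1), (138, 1), (139, 1)] [(166, 3), (187, 3), (272, 6), (276, 7), (283, 8), (418, 9), (807, 9), (810, 9), (817, 9)])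
 (.pair 80 403
 (.leaf 9 [(36, 6), (41, 6), (82, 3), (83, 3), (84, 3), (85, 3), (86, 3), (133, 2), (136, 1), (138, 1), (139, 1)] [(166, 3), (187, 3), (272, 6), (276, 7), (283, 8), (418, 9), (807, 9), (810, 9), (817, 9)])
 (.pair 80 406
 (.leaf 9 [(36, 6), (41, 6), (82, 3), (83, 3), (84, 3), (85, 3), (86, 3), (133, 2), (136, 1), (138, 1), (139, 1)] [(166, 3), (187, 3), (272, 6), (276, 7), (283, 8), (418, 9), (807, 9), (810, 9), (817, 9)])
 (.pair 80 408
 (.leaf 9 [(36, 6), (41, 6), (82, 3), (83, 3), (84, 3), (85, 3), (86, 3), (133, 2), (136, 1), (138, 1), (139, 1)] [(166, 3), (187, 3), (272, 6), (276, 7), (283, 8), (418, 9), (807, 9), (810, 9), (817, 9)])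
 (.pair 80 410
 (.leaf 9 [(36, 6), (41, 6), (82, 3), (83, 3), (84, 3), (85, 3), (86, 3), (133, 2), (136, 1), (138, 1), (139, 1)] [(166, 3), (187, 3), (272, 6), (276, 7), (283, 8), (418, 9), (807, 9), (810, 9), (817, 9)])
 (.pair 80 411
 (.leaf 9 [(36, 6), (41, 6), (82, 3), (83, 3), (84, 3), (85, 3), (86, 3), (133, 2), (136, 1), (138, 1), (139, 1)] [(166, 3), (187, 3), (272, 6), (276, 7), (283, 8), (418, 9), (807, 9), (810, 9), (817, 9)])
 (.absent 80
 (.leaf 9 [(36, 6), (41, 6), (82, 6), (83, 3), (84, 3), (85, 3), (86, 3), (133, 2), (136, 1), (138, 1), (139, 1)] [(187, 3), (272, 6), (276, 7), (283, 8), (418, 9), (807, 9), (810, 9), (817, 9)]))))))))))))))))))))))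
 certFifteen_12))))
 (.pair 68 78
 (.leaf 9 [(36, 6), (41, 6), (70, 3), (80, 3), (81, 3), (82, 3), (83, 3), (84, 3), (85, 3), (86, 3), (133, 2), (136, 1), (138, 1), (139, 1)] [(160, 3), (162, 3), (166, 3), (187, 3), (272, 6), (276, 7), (283, 8), (418, 9), (807, 9), (810, 9), (817, 9)])
 (.pair 68 80
 (.leaf 9 [(36, 6), (41, 6), (70, 3), (78, 3), (81, 3), (82, 3), (83, 3), (84, 3), (85, 3), (86, 3), (133, 2), (136, 1), (138, 1), (139, 1)] [(160, 3), (162, 3), (166, 3), (187, 3), (272, 6), (276, 7), (283, 8), (418, 9), (807, 9), (810, 9), (817, 9)])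
 (.pair 68 81
 (.leaf 9 [(36, 6), (41, 6), (70, 3), (78, 3), (80, 3), (82, 3), (83, 3), (84, 3), (85, 3), (86, 3), (133, 2), (136, 1), (138, 1), (139, 1)] [(160, 3), (162, 3), (166, 3), (187, 3), (272, 6), (276, 7), (283, 8), (418, 9), (807, 9), (810, 9), (817, 9)])
 (.pair 68 82
 (.leaf 9 [(36, 6), (41, 6), (70, 3), (78, 3), (80, 3), (81, 3), (83, 3), (84, 3), (85, 3), (86, 3), (133, 2), (136, 1), (138, 1), (139, 1)] [(160, 3), (162, 3), (166, 3), (187, 3), (272, 6), (276, 7), (283, 8), (418, 9), (807, 9), (810, 9), (817, 9)])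
 (.pair 68 83
 (.leaf 9 [(36, 6), (41, 6), (70, 3), (78, 3), (80, 3), (81, 3), (82, 3), (84, 3), (85, 3), (86, 3), (133, 2), (136, 1), (138, 1), (139, 1)] [(160, 3), (162, 3), (166, 3), (187, 3), (272, 6), (276, 7), (283, 8), (418, 9), (807, 9), (810, 9), (817, 9)])
 (.pair 68 84
 (.leaf 9 [(36, 6), (41, 6), (70, 3), (78, 3), (80, 3), (81, 3), (82, 3), (83, 3), (85, 3), (86, 3), (133, 2), (136, 1), (138, 1), (139, 1)] [(160, 3), (162, 3), (166, 3), (187, 3), (272, 6), (276, 7), (283, 8), (418, 9), (807, 9), (810, 9), (817, 9)])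
 (.pair 68 85
 (.leaf 9 [(36, 6), (41, 6), (70, 3), (78, 3), (80, 3), (81, 3), (82, 3), (83, 3), (84, 3), (86, 3), (133, 2), (136, 1), (138, 1), (139, 1)] [(160, 3), (162, 3), (166, 3), (187, 3), (272, 6), (276, 7), (283, 8), (418, 9), (807, 9), (810, 9), (817, 9)])
 (.pair 68 86
 (.leaf 9 [(36, 6), (41, 6), (70, 3), (78, 3), (80, 3), (81, 3), (82, 3), (83, 3), (84, 3), (85, 3), (133, 2), (136, 1), (138, 1), (139, 1)] [(160, 3), (162, 3), (166, 3), (187, 3), (272, 6), (276, 7), (283, 8), (418, 9), (807, 9), (810, 9), (817, 9)])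
 (.pair 68 133
 (.leaf 3 [(36, 2), (41, 2), (70, 1), (78, 1), (80, 1), (81, 1), (82, 1), (83, 1), (84, 1), (85, 1), (86, 1)] [(160, 1), (162, 1), (166, 1), (187, 1), (272, 3), (276, 3), (283, 3), (418, 3), (807, 3), (810, 3), (817, 3)])
 (.pair 68 136
 (.leaf 3 [(36, 2), (41, 2), (70, 1), (78, 1), (80, 1), (81, 1), (82, 1), (83, 1), (84, 1), (85, 1), (86, 1)] [(160, 1), (162, 1), (166, 1), (187, 1), (272, 3), (276, 3), (283, 3), (418, 3), (807, 3), (810, 3), (817, 3)])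
 (.pair 68 138
 (.leaf 3 [(36, 2), (41, 2), (70, 1), (78, 1), (80, 1), (81, 1), (82, 1), (83, 1), (84, 1), (85, 1), (86, 1)] [(160, 1), (162, 1), (166, 1), (187, 1), (272, 3), (276, 3), (283, 3), (418, 3), (807, 3), (810, 3), (817, 3)])
 (.pair 68 139
 (.leaf 3 [(36, 2), (41, 2), (70, 1), (78, 1), (80, 1), (81, 1), (82, 1), (83, 1), (84, 1), (85, 1), (86, 1)] [(160, 1), (162, 1), (166, 1), (187, 1), (272, 3), (276, 3), (283, 3), (418, 3), (807, 3), (810, 3), (817, 3)])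
 (.pair 68 141
 (.leaf 3 [(36, 2), (41, 2), (70, 1), (78, 1), (80, 1), (81, 1), (82, 1), (83, 1), (84, 1), (85, 1), (86, 1)] [(160, 1), (162, 1), (166, 1), (187, 1), (272, 3), (276, 3), (283, 3), (418, 3), (807, 3), (810, 3), (817, 3)])
 (.pair 68 143
 (.leaf 3 [(36, 2), (41, 2), (70, 1), (78, 1), (80, 1), (81, 1), (82, 1), (83, 1), (84, 1), (85, 1), (86, 1)] [(160, 1), (162, 1), (166, 1), (187, 1), (272, 3), (276, 3), (283, 3), (418, 3), (807, 3), (810, 3), (817, 3)])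
 (.pair 68 144
 (.leaf 3 [(36, 2), (41, 2), (70, 1), (78, 1), (80, 1), (81, 1), (82, 1), (83, 1), (84, 1), (85, 1), (86, 1)] [(160, 1), (162, 1), (166, 1), (187, 1), (272, 3), (276, 3), (283, 3), (418, 3), (807, 3), (810, 3), (817, 3)])
 (.pair 68 400
 (.leaf 9 [(36, 6), (41, 6), (70, 3), (78, 3), (80, 3), (81, 3), (82, 3), (83, 3), (84, 3), (85, 3), (86, 3), (133, 2), (136, 1), (138, 1), (139, 1)] [(160, 3), (162, 3), (166, 3), (187, 3), (272, 6), (276, 7), (283, 8), (418, 9), (807, 9), (810, 9), (817, 9)])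
 (.pair 68 403
 (.leaf 9 [(36, 6), (41, 6), (70, 3), (78, 3), (80, 3), (81, 3), (82, 3), (83, 3), (84, 3), (85, 3), (86, 3), (133, 2), (136, 1), (138, 1), (139, 1)] [(160, 3), (162, 3), (166, 3), (187, 3), (272, 6), (276, 7), (283, 8), (418, 9), (807, 9), (810, 9), (817, 9)])
 (.pair 68 406
 (.leaf 9 [(36, 6), (41, 6), (70, 3), (78, 3), (80, 3), (81, 3), (82, 3), (83, 3), (84, 3), (85, 3), (86, 3), (133, 2), (136, 1), (138, 1), (139, 1)] [(160, 3), (162, 3), (166, 3), (187, 3), (272, 6), (276, 7), (283, 8), (418, 9), (807, 9), (810, 9), (817, 9)])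
 (.pair 68 408
 (.leaf 9 [(36, 6), (41, 6), (70, 3), (78, 3), (80, 3), (81, 3), (82, 3), (83, 3), (84, 3), (85, 3), (86, 3), (133, 2), (136, 1), (138, 1), (139, 1)] [(160, 3), (162, 3), (166, 3), (187, 3), (272, 6), (276, 7), (283, 8), (418, 9), (807, 9), (810, 9), (817, 9)])
 (.pair 68 410
 (.leaf 9 [(36, 6), (41, 6), (70, 3), (78, 3), (80, 3), (81, 3), (82, 3), (83, 3), (84, 3), (85, 3), (86, 3), (133, 2), (136, 1), (138, 1), (139, 1)] [(160, 3), (162, 3), (166, 3), (187, 3), (272, 6), (276, 7), (283, 8), (418, 9), (807, 9), (810, 9), (817, 9)])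
 (.pair 68 411
 (.leaf 9 [(36, 6), (41, 6), (70, 3), (78, 3), (80, 3), (81, 3), (82, 3), (83, 3), (84, 3), (85, 3), (86, 3), (133, 2), (136, 1), (138, 1), (139, 1)] [(160, 3), (162, 3), (166, 3), (187, 3), (272, 6), (276, 7), (283, 8), (418, 9), (807, 9), (810, 9), (817, 9)])
 (.absent 68
 (.leaf 9 [(36, 6), (41, 6), (70, 3), (78, 3), (80, 3), (81, 3), (82, 3), (83, 3), (84, 3), (85, 3), (86, 3), (133, 2), (136, 1), (138, 1), (139, 1)] [(160, 3), (162, 3), (166, 3), (187, 3), (272, 6), (276, 7), (283, 8), (418, 9), (807, 9), (810, 9), (817, 9)]))))))))))))))))))))))))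

def certFifteen_14 : Cert :=
 (.pair 60 78
 (.leaf 9 [(36, 6), (41, 6), (68, 3), (70, 3), (80, 3), (81, 3), (82, 3), (83, 3), (84, 3), (85, 3), (86, 3), (133, 2), (136, 1), (138, 1), (139, 1)] [(145, 3), (160, 3), (162, 3), (166, 3), (187, 3), (272, 6), (276, 7), (283, 8), (418, 9), (807, 9), (810, 9), (817, 9)])
 (.pair 60 80
 (.leaf 9 [(36, 6), (41, 6), (68, 3), (70, 3), (78, 3), (81, 3), (82, 3), (83, 3), (84, 3), (85, 3), (86, 3), (133, 2), (136, 1), (138, 1), (139, 1)] [(145, 3), (160, 3), (162, 3), (166, 3), (187, 3), (272, 6), (276, 7), (283, 8), (418, 9), (807, 9), (810, 9), (817, 9)])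
 (.pair 60 81
 (.leaf 9 [(36, 6), (41, 6), (68, 3), (70, 3), (78, 3), (80, 3), (82, 3), (83, 3), (84, 3), (85, 3), (86, 3), (133, 2), (136, 1), (138, 1), (139, 1)] [(145, 3), (160, 3), (162, 3), (166, 3), (187, 3), (272, 6), (276, 7), (283, 8), (418, 9), (807, 9), (810, 9), (817, 9)])
 (.pair 60 82
 (.leaf 9 [(36, 6), (41, 6), (68, 3), (70, 3), (78, 3), (80, 3), (81, 3), (83, 3), (84, 3), (85, 3), (86, 3), (133, 2), (136, 1), (138, 1), (139, 1)] [(145, 3), (160, 3), (162, 3), (166, 3), (187, 3), (272, 6), (276, 7), (283, 8), (418, 9), (807, 9), (810, 9), (817, 9)])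
 (.pair 60 83
 (.leaf 9 [(36, 6), (41, 6), (68, 3), (70, 3), (78, 3), (80, 3), (81, 3), (82, 3), (84, 3), (85, 3), (86, 3), (133, 2), (136, 1), (138, 1), (139, 1)] [(145, 3), (160, 3), (162, 3), (166, 3), (187, 3), (272, 6), (276, 7), (283, 8), (418, 9), (807, 9), (810, 9), (817, 9)])
 (.pair 60 84
 (.leaf 9 [(36, 6), (41, 6), (68, 3), (70, 3), (78, 3), (80, 3), (81, 3), (82, 3), (83, 3), (85, 3), (86, 3), (133, 2), (136, 1), (138, 1), (139, 1)] [(145, 3), (160, 3), (162, 3), (166, 3), (187, 3), (272, 6), (276, 7), (283, 8), (418, 9), (807, 9), (810, 9), (817, 9)])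
 (.pair 60 85
 (.leaf 9 [(36, 6), (41, 6), (68, 3), (70, 3), (78, 3), (80, 3), (81, 3), (82, 3), (83, 3), (84, 3), (86, 3), (133, 2), (136, 1), (138, 1), (139, 1)] [(145, 3), (160, 3), (162, 3), (166, 3), (187, 3), (272, 6), (276, 7), (283, 8), (418, 9), (807, 9), (810, 9), (817, 9)])
 (.pair 60 86
 (.leaf 9 [(36, 6), (41, 6), (68, 3), (70, 3), (78, 3), (80, 3), (81, 3), (82, 3), (83, 3), (84, 3), (85, 3), (133, 2), (136, 1), (138, 1), (139, 1)] [(145, 3), (160, 3), (162, 3), (166, 3), (187, 3), (272, 6), (276, 7), (283, 8), (418, 9), (807, 9), (810, 9), (817, 9)])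
 (.pair 60 133
 (.leaf 3 [(36, 2), (41, 2), (68, 1), (70, 1), (78, 1), (80, 1), (81, 1), (82, 1), (83, 1), (84, 1), (85, 1), (86, 1)] [(145, 1), (160, 1), (162, 1), (166, 1), (187, 1), (272, 3), (276, 3), (283, 3), (418, 3), (807, 3), (810, 3), (817, 3)])
 (.pair 60 136
 (.leaf 3 [(36, 2), (41, 2), (68, 1), (70, 1), (78, 1), (80, 1), (81, 1), (82, 1), (83, 1), (84, 1), (85, 1), (86, 1)] [(145, 1), (160, 1), (162, 1), (166, 1), (187, 1), (272, 3), (276, 3), (283, 3), (418, 3), (807, 3), (810, 3), (817, 3)])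
 (.pair 60 138
 (.leaf 3 [(36, 2), (41, 2), (68, 1), (70, 1), (78, 1), (80, 1), (81, 1), (82, 1), (83, 1), (84, 1), (85, 1), (86, 1)] [(145, 1), (160, 1), (162, 1), (166, 1), (187, 1), (272, 3), (276, 3), (283, 3), (418, 3), (807, 3), (810, 3), (817, 3)])
 (.pair 60 139
 (.leaf 3 [(36, 2), (41, 2), (68, 1), (70, 1), (78, 1), (80, 1), (81, 1), (82, 1), (83, 1), (84, 1), (85, 1), (86, 1)] [(145, 1), (160, 1), (162, 1), (166, 1), (187, 1), (272, 3), (276, 3), (283, 3), (418, 3), (807, 3), (810, 3), (817, 3)])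
 (.pair 60 141
 (.leaf 3 [(36, 2), (41, 2), (68, 1), (70, 1), (78, 1), (80, 1), (81, 1), (82, 1), (83, 1), (84, 1), (85, 1), (86, 1)] [(145, 1), (160, 1), (162, 1), (166, 1), (187, 1), (272, 3), (276, 3), (283, 3), (418, 3), (807, 3), (810, 3), (817, 3)])
 (.pair 60 143
 (.leaf 3 [(36, 2), (41, 2), (68, 1), (70, 1), (78, 1), (80, 1), (81, 1), (82, 1), (83, 1), (84, 1), (85, 1), (86, 1)] [(145, 1), (160, 1), (162, 1), (166, 1), (187, 1), (272, 3), (276, 3), (283, 3), (418, 3), (807, 3), (810, 3), (817, 3)])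
 (.pair 60 144
 (.leaf 3 [(36, 2), (41, 2), (68, 1), (70, 1), (78, 1), (80, 1), (81, 1), (82, 1), (83, 1), (84, 1), (85, 1), (86, 1)] [(145, 1), (160, 1), (162, 1), (166, 1), (187, 1), (272, 3), (276, 3), (283, 3), (418, 3), (807, 3), (810, 3), (817, 3)])
 (.pair 60 400
 (.leaf 9 [(36, 6), (41, 6), (68, 3), (70, 3), (78, 3), (80, 3), (81, 3), (82, 3), (83, 3), (84, 3), (85, 3), (86, 3), (133, 2), (136, 1), (138, 1), (139, 1)] [(145, 3), (160, 3), (162, 3), (166, 3), (187, 3), (272, 6), (276, 7), (283, 8), (418, 9), (807, 9), (810, 9), (817, 9)])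
 (.pair 60 403
 (.leaf 9 [(36, 6), (41, 6), (68, 3), (70, 3), (78, 3), (80, 3), (81, 3), (82, 3), (83, 3), (84, 3), (85, 3), (86, 3), (133, 2), (136, 1), (138, 1), (139, 1)] [(145, 3), (160, 3), (162, 3), (166, 3), (187, 3), (272, 6), (276, 7), (283, 8), (418, 9), (807, 9), (810, 9), (817, 9)])
 (.pair 60 406
 (.leaf 9 [(36, 6), (41, 6), (68, 3), (70, 3), (78, 3), (80, 3), (81, 3), (82, 3), (83, 3), (84, 3), (85, 3), (86, 3), (133, 2), (136, 1), (138, 1), (139, 1)] [(145, 3), (160, 3), (162, 3), (166, 3), (187, 3), (272, 6), (276, 7), (283, 8), (418, 9), (807, 9), (810, 9), (817, 9)])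
 (.pair 60 408
 (.leaf 9 [(36, 6), (41, 6), (68, 3), (70, 3), (78, 3), (80, 3), (81, 3), (82, 3), (83, 3), (84, 3), (85, 3), (86, 3), (133, 2), (136, 1), (138, 1), (139, 1)] [(145, 3), (160, 3), (162, 3), (166, 3), (187, 3), (272, 6), (276, 7), (283, 8), (418, 9), (807, 9), (810, 9), (817, 9)])
 (.pair 60 410
 (.leaf 9 [(36, 6), (41, 6), (68, 3), (70, 3), (78, 3), (80, 3), (81, 3), (82, 3), (83, 3), (84, 3), (85, 3), (86, 3), (133, 2), (136, 1), (138, 1), (139, 1)] [(145, 3), (160, 3), (162, 3), (166, 3), (187, 3), (272, 6), (276, 7), (283, 8), (418, 9), (807, 9), (810, 9), (817, 9)])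
 (.pair 60 411
 (.leaf 9 [(36, 6), (41, 6), (68, 3), (70, 3), (78, 3), (80, 3), (81, 3), (82, 3), (83, 3), (84, 3), (85, 3), (86, 3), (133, 2), (136, 1), (138, 1), (139, 1)] [(145, 3), (160, 3), (162, 3), (166, 3), (187, 3), (272, 6), (276, 7), (283, 8), (418, 9), (807, 9), (810, 9), (817, 9)])
 (.absent 60
 (.leaf 9 [(36, 6), (41, 6), (68, 3), (70, 3), (78, 3), (80, 3), (81, 3), (82, 3), (83, 3), (84, 3), (85, 3), (86, 3), (133, 2), (136, 1), (138, 1), (139, 1)] [(145, 3), (160, 3), (162, 3), (166, 3), (187, 3), (272, 6), (276, 7), (283, 8), (418, 9), (807, 9), (810, 9), (817, 9)])))))))))))))))))))))))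

def certFifteen_15 : Cert :=
 (.pair 78 82
 (.pair 80 36
 (.leaf 9 [(41, 6), (81, 6), (83, 3), (84, 3), (85, 3), (86, 3), (133, 2), (136, 1), (138, 1), (139, 1)] [(187, 3), (272, 6), (276, 7), (283, 8), (418, 9), (807, 9), (810, 9), (817, 9)])
 (.pair 80 41
 (.leaf 9 [(36, 6), (81, 6), (83, 3), (84, 3), (85, 3), (86, 3), (133, 2), (136, 1), (138, 1), (139, 1)] [(187, 3), (272, 6), (276, 7), (283, 8), (418, 9), (807, 9), (810, 9), (817, 9)])
 (.pair 80 81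
 (.leaf 9 [(36, 6), (41, 6), (83, 3), (84, 3), (85, 3), (86, 3), (133, 2), (136, 1), (138, 1), (139, 1)] [(187, 3), (272, 6), (276, 7), (283, 8), (418, 9), (807, 9), (810, 9), (817, 9)])
 (.pair 80 83
 (.leaf 9 [(36, 6), (41, 6), (81, 3), (84, 3), (85, 3), (86, 3), (133, 2), (136, 1), (138, 1), (139, 1)] [(166, 3), (187, 3), (272, 6), (276, 7), (283, 8), (418, 9), (807, 9), (810, 9), (817, 9)])
 (.pair 80 84
 (.leaf 9 [(36, 6), (41, 6), (81, 3), (83, 3), (85, 3), (86, 3), (133, 2), (136, 1), (138, 1), (139, 1)] [(166, 3), (187, 3), (272, 6), (276, 7), (283, 8), (418, 9), (807, 9), (810, 9), (817, 9)])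
 (.pair 80 85
 (.leaf 9 [(36, 6), (41, 6), (81, 3), (83, 3), (84, 3), (86, 3), (133, 2), (136, 1), (138, 1), (139, 1)] [(166, 3), (187, 3), (272, 6), (276, 7), (283, 8), (418, 9), (807, 9), (810, 9), (817, 9)])
 (.pair 80 86
 (.leaf 9 [(36, 6), (41, 6), (81, 3), (83, 3), (84, 3), (85, 3), (133, 2), (136, 1), (138, 1), (139, 1)] [(166, 3), (187, 3), (272, 6), (276, 7), (283, 8), (418, 9), (807, 9), (810, 9), (817, 9)])
 (.pair 80 133
 (.leaf 3 [(36, 2), (41, 2), (81, 2), (83, 1), (84, 1), (85, 1), (86, 1)] [(187, 1), (272, 3), (276, 3), (283, 3), (418, 3), (807, 3), (810, 3), (817, 3)])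
 (.pair 80 136
 (.leaf 3 [(36, 2), (41, 2), (81, 2), (83, 1), (84, 1), (85, 1), (86, 1)] [(187, 1), (272, 3), (276, 3), (283, 3), (418, 3), (807, 3), (810, 3), (817, 3)])
 (.pair 80 138
 (.leaf 3 [(36, 2), (41, 2), (81, 2), (83, 1), (84, 1), (85, 1), (86, 1)] [(187, 1), (272, 3), (276, 3), (283, 3), (418, 3), (807, 3), (810, 3), (817, 3)])
 (.pair 80 139
 (.leaf 3 [(36, 2), (41, 2), (81, 2), (83, 1), (84, 1), (85, 1), (86, 1)] [(187, 1), (272, 3), (276, 3), (283, 3), (418, 3), (807, 3), (810, 3), (817, 3)])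
 (.pair 80 141
 (.leaf 3 [(36, 2), (41, 2), (81, 2), (83, 1), (84, 1), (85, 1), (86, 1)] [(187, 1), (272, 3), (276, 3), (283, 3), (418, 3), (807, 3), (810, 3), (817, 3)])
 (.pair 80 143
 (.leaf 3 [(36, 2), (41, 2), (81, 2), (83, 1), (84, 1), (85, 1), (86, 1)] [(187, 1), (272, 3), (276, 3), (283, 3), (418, 3), (807, 3), (810, 3), (817, 3)])
 (.pair 80 144
 (.leaf 3 [(36, 2), (41, 2), (81, 2), (83, 1), (84, 1), (85, 1), (86, 1)] [(187, 1), (272, 3), (276, 3), (283, 3), (418, 3), (807, 3), (810, 3), (817, 3)])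
 (.pair 80 400
 (.leaf 9 [(36, 6), (41, 6), (81, 3), (83, 3), (84, 3), (85, 3), (86, 3), (133, 2), (136, 1), (138, 1), (139, 1)] [(166, 3), (187, 3), (272, 6), (276, 7), (283, 8), (418, 9), (807, 9), (810, 9), (817, 9)])
 (.pair 80 403
 (.leaf 9 [(36, 6), (41, 6), (81, 3), (83, 3), (84, 3), (85, 3), (86, 3), (133, 2), (136, 1), (138, 1), (139, 1)] [(166, 3), (187, 3), (272, 6), (276, 7), (283, 8), (418, 9), (807, 9), (810, 9), (817, 9)])
 (.pair 80 405
 (.leaf 9 [(36, 6), (41, 6), (81, 3), (83, 3), (84, 3), (85, 3), (86, 3), (133, 2), (136, 1), (138, 1), (139, 1)] [(166, 3), (187, 3), (272, 6), (276, 7), (283, 8), (418, 9), (807, 9), (810, 9), (817, 9)])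
 (.pair 80 408
 (.leaf 9 [(36, 6), (41, 6), (81, 3), (83, 3), (84, 3), (85, 3), (86, 3), (133, 2), (136, 1), (138, 1), (139, 1)] [(166, 3), (187, 3), (272, 6), (276, 7), (283, 8), (418, 9), (807, 9), (810, 9), (817, 9)])
 (.pair 80 410
 (.leaf 9 [(36, 6), (41, 6), (81, 3), (83, 3), (84, 3), (85, 3), (86, 3), (133, 2), (136, 1), (138, 1), (139, 1)] [(166, 3), (187, 3), (272, 6), (276, 7), (283, 8), (418, 9), (807, 9), (810, 9), (817, 9)])
 (.pair 80 411
 (.leaf 9 [(36, 6), (41, 6), (81, 3), (83, 3), (84, 3), (85, 3), (86, 3), (133, 2), (136, 1), (138, 1), (139, 1)] [(166, 3), (187, 3), (272, 6), (276, 7), (283, 8), (418, 9), (807, 9), (810, 9), (817, 9)])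
 (.absent 80
 (.leaf 9 [(36, 6), (41, 6), (81, 6), (83, 3), (84, 3), (85, 3), (86, 3), (133, 2), (136, 1), (138, 1), (139, 1)] [(187, 3), (272, 6), (276, 7), (283, 8), (418, 9), (807, 9), (810, 9), (817, 9)]))))))))))))))))))))))
 (.pair 78 83
 (.leaf 9 [(36, 6), (41, 6), (80, 3), (81, 3), (82, 3), (84, 3), (85, 3), (86, 3), (133, 2), (136, 1), (138, 1), (139, 1)] [(162, 3), (166, 3), (187, 3), (272, 6), (276, 7), (283, 8), (418, 9), (807, 9), (810, 9), (817, 9)])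
 (.pair 78 84
 (.leaf 9 [(36, 6), (41, 6), (80, 3), (81, 3), (82, 3), (83, 3), (85, 3), (86, 3), (133, 2), (136, 1), (138, 1), (139, 1)] [(162, 3), (166, 3), (187, 3), (272, 6), (276, 7), (283, 8), (418, 9), (807, 9), (810, 9), (817, 9)])
 (.pair 78 85
 (.leaf 9 [(36, 6), (41, 6), (80, 6), (81, 3), (82, 3), (83, 3), (84, 3), (86, 3), (133, 2), (136, 1), (138, 1), (139, 1)] [(166, 3), (187, 3), (272, 6), (276, 7), (283, 8), (418, 9), (807, 9), (810, 9), (817, 9)])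
 (.pair 78 86
 (.leaf 9 [(36, 6), (41, 6), (80, 6), (81, 3), (82, 3), (83, 3), (84, 3), (85, 3), (133, 2), (136, 1), (138, 1), (139, 1)] [(166, 3), (187, 3), (272, 6), (276, 7), (283, 8), (418, 9), (807, 9), (810, 9), (817, 9)])
 (.pair 78 133
 (.leaf 3 [(36, 2), (41, 2), (80, 2), (81, 1), (82, 1), (83, 1), (84, 1), (85, 1), (86, 1)] [(166, 1), (187, 1), (272, 3), (276, 3), (283, 3), (418, 3), (807, 3), (810, 3), (817, 3)])
 (.pair 78 136
 (.leaf 3 [(36, 2), (41, 2), (80, 2), (81, 1), (82, 1), (83, 1), (84, 1), (85, 1), (86, 1)] [(166, 1), (187, 1), (272, 3), (276, 3), (283, 3), (418, 3), (807, 3), (810, 3), (817, 3)])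
 (.pair 78 138
 (.leaf 3 [(36, 2), (41, 2), (80, 2), (81, 1), (82, 1), (83, 1), (84, 1), (85, 1), (86, 1)] [(166, 1), (187, 1), (272, 3), (276, 3), (283, 3), (418, 3), (807, 3), (810, 3), (817, 3)])
 (.pair 78 139
 (.leaf 3 [(36, 2), (41, 2), (80, 2), (81, 1), (82, 1), (83, 1), (84, 1), (85, 1), (86, 1)] [(166, 1), (187, 1), (272, 3), (276, 3), (283, 3), (418, 3), (807, 3), (810, 3), (817, 3)])
 (.pair 78 141
 (.leaf 3 [(36, 2), (41, 2), (80, 2), (81, 1), (82, 1), (83, 1), (84, 1), (85, 1), (86, 1)] [(166, 1), (187, 1), (272, 3), (276, 3), (283, 3), (418, 3), (807, 3), (810, 3), (817, 3)])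
 (.pair 78 143
 (.leaf 3 [(36, 2), (41, 2), (80, 2), (81, 1), (82, 1), (83, 1), (84, 1), (85, 1), (86, 1)] [(166, 1), (187, 1), (272, 3), (276, 3), (283, 3), (418, 3), (807, 3), (810, 3), (817, 3)])
 (.pair 78 144
 (.leaf 3 [(36, 2), (41, 2), (80, 2), (81, 1), (82, 1), (83, 1), (84, 1), (85, 1), (86, 1)] [(166, 1), (187, 1), (272, 3), (276, 3), (283, 3), (418, 3), (807, 3), (810, 3), (817, 3)])
 (.pair 78 400
 (.leaf 9 [(36, 6), (41, 6), (80, 6), (81, 3), (82, 3), (83, 3), (84, 3), (85, 3), (86, 3), (133, 2), (136, 1), (138, 1), (139, 1)] [(166, 3), (187, 3), (272, 6), (276, 7), (283, 8), (418, 9), (807, 9), (810, 9), (817, 9)])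
 (.pair 78 403
 (.leaf 9 [(36, 6), (41, 6), (80, 6), (81, 3), (82, 3), (83, 3), (84, 3), (85, 3), (86, 3), (133, 2), (136, 1), (138, 1), (139, 1)] [(166, 3), (187, 3), (272, 6), (276, 7), (283, 8), (418, 9), (807, 9), (810, 9), (817, 9)])
 (.pair 78 405
 (.leaf 9 [(36, 6), (41, 6), (80, 6), (81, 3), (82, 3), (83, 3), (84, 3), (85, 3), (86, 3), (133, 2), (136, 1), (138, 1), (139, 1)] [(166, 3), (187, 3), (272, 6), (276, 7), (283, 8), (418, 9), (807, 9), (810, 9), (817, 9)])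
 (.pair 78 408
 (.leaf 9 [(36, 6), (41, 6), (80, 6), (81, 3), (82, 3), (83, 3), (84, 3), (85, 3), (86, 3), (133, 2), (136, 1), (138, 1), (139, 1)] [(166, 3), (187, 3), (272, 6), (276, 7), (283, 8), (418, 9), (807, 9), (810, 9), (817, 9)])
 (.pair 78 410
 (.leaf 9 [(36, 6), (41, 6), (80, 6), (81, 3), (82, 3), (83, 3), (84, 3), (85, 3), (86, 3), (133, 2), (136, 1), (138, 1), (139, 1)] [(166, 3), (187, 3), (272, 6), (276, 7), (283, 8), (418, 9), (807, 9), (810, 9), (817, 9)])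
 (.pair 78 411
 (.leaf 9 [(36, 6), (41, 6), (80, 6), (81, 3), (82, 3), (83, 3), (84, 3), (85, 3), (86, 3), (133, 2), (136, 1), (138, 1), (139, 1)] [(166, 3), (187, 3), (272, 6), (276, 7), (283, 8), (418, 9), (807, 9), (810, 9), (817, 9)])
 (.absent 78
 (.leaf 9 [(36, 6), (41, 6), (80, 6), (81, 3), (82, 3), (83, 3), (84, 3), (85, 3), (86, 3), (133, 2), (136, 1), (138, 1), (139, 1)] [(166, 3), (187, 3), (272, 6), (276, 7), (283, 8), (418, 9), (807, 9), (810, 9), (817, 9)]))))))))))))))))))))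

def certFifteen_16 : Cert :=
 (.pair 70 70
 (.pair 78 36
 (.leaf 18 [(41, 12), (80, 9), (81, 9), (82, 9), (83, 6), (84, 6), (85, 6), (86, 6), (133, 4), (136, 2), (138, 2), (139, 2)] [(166, 3), (187, 6), (272, 12), (276, 14), (283, 16), (418, 18), (807, 18), (810, 18), (817, 18)])
 (.pair 78 41
 (.leaf 18 [(36, 12), (80, 9), (81, 9), (82, 9), (83, 6), (84, 6), (85, 6), (86, 6), (133, 4), (136, 2), (138, 2), (139, 2)] [(166, 3), (187, 6), (272, 12), (276, 14), (283, 16), (418, 18), (807, 18), (810, 18), (817, 18)])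
 (.pair 78 80
 (.leaf 9 [(36, 6), (41, 6), (81, 3), (82, 3), (83, 3), (84, 3), (85, 3), (86, 3), (133, 2), (136, 1), (138, 1), (139, 1)] [(166, 3), (187, 3), (272, 6), (276, 7), (283, 8), (418, 9), (807, 9), (810, 9), (817, 9)])
 (.pair 78 81
 (.pair 80 36
 (.leaf 9 [(41, 6), (82, 6), (83, 3), (84, 3), (85, 3), (86, 3), (133, 2), (136, 1), (138, 1), (139, 1)] [(187, 3), (272, 6), (276, 7), (283, 8), (418, 9), (807, 9), (810, 9), (817, 9)])
 (.pair 80 41
 (.leaf 9 [(36, 6), (82, 6), (83, 3), (84, 3), (85, 3), (86, 3), (133, 2), (136, 1), (138, 1), (139, 1)] [(187, 3), (272, 6), (276, 7), (283, 8), (418, 9), (807, 9), (810, 9), (817, 9)])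
 (.pair 80 82
 (.leaf 9 [(36, 6), (41, 6), (83, 3), (84, 3), (85, 3), (86, 3), (133, 2), (136, 1), (138, 1), (139, 1)] [(187, 3), (272, 6), (276, 7), (283, 8), (418, 9), (807, 9), (810, 9), (817, 9)])
 (.pair 80 83
 (.leaf 9 [(36, 6), (41, 6), (82, 3), (84, 3), (85, 3), (86, 3), (133, 2), (136, 1), (138, 1), (139, 1)] [(166, 3), (187, 3), (272, 6), (276, 7), (283, 8), (418, 9), (807, 9), (810, 9), (817, 9)])
 (.pair 80 84
 (.leaf 9 [(36, 6), (41, 6), (82, 3), (83, 3), (85, 3), (86, 3), (133, 2), (136, 1), (138, 1), (139, 1)] [(166, 3), (187, 3), (272, 6), (276, 7), (283, 8), (418, 9), (807, 9), (810, 9), (817, 9)])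
 (.pair 80 85
 (.leaf 9 [(36, 6), (41, 6), (82, 3), (83, 3), (84, 3), (86, 3), (133, 2), (136, 1), (138, 1), (139, 1)] [(166, 3), (187, 3), (272, 6), (276, 7), (283, 8), (418, 9), (807, 9), (810, 9), (817, 9)])
 (.pair 80 86
 (.leaf 9 [(36, 6), (41, 6), (82, 3), (83, 3), (84, 3), (85, 3), (133, 2), (136, 1), (138, 1), (139, 1)] [(166, 3), (187, 3), (272, 6), (276, 7), (283, 8), (418, 9), (807, 9), (810, 9), (817, 9)])
 (.pair 80 133
 (.leaf 3 [(36, 2), (41, 2), (82, 2), (83, 1), (84, 1), (85, 1), (86, 1)] [(187, 1), (272, 3), (276, 3), (283, 3), (418, 3), (807, 3), (810, 3), (817, 3)])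
 (.pair 80 136
 (.leaf 3 [(36, 2), (41, 2), (82, 2), (83, 1), (84, 1), (85, 1), (86, 1)] [(187, 1), (272, 3), (276, 3), (283, 3), (418, 3), (807, 3), (810, 3), (817, 3)])
 (.pair 80 138
 (.leaf 3 [(36, 2), (41, 2), (82, 2), (83, 1), (84, 1), (85, 1), (86, 1)] [(187, 1), (272, 3), (276, 3), (283, 3), (418, 3), (807, 3), (810, 3), (817, 3)])
 (.pair 80 139
 (.leaf 3 [(36, 2), (41, 2), (82, 2), (83, 1), (84, 1), (85, 1), (86, 1)] [(187, 1), (272, 3), (276, 3), (283, 3), (418, 3), (807, 3), (810, 3), (817, 3)])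
 (.pair 80 141
 (.leaf 3 [(36, 2), (41, 2), (82, 2), (83, 1), (84, 1), (85, 1), (86, 1)] [(187, 1), (272, 3), (276, 3), (283, 3), (418, 3), (807, 3), (810, 3), (817, 3)])
 (.pair 80 143
 (.leaf 3 [(36, 2), (41, 2), (82, 2), (83, 1), (84, 1), (85, 1), (86, 1)] [(187, 1), (272, 3), (276, 3), (283, 3), (418, 3), (807, 3), (810, 3), (817, 3)])
 (.pair 80 144
 (.leaf 3 [(36, 2), (41, 2), (82, 2), (83, 1), (84, 1), (85, 1), (86, 1)] [(187, 1), (272, 3), (276, 3), (283, 3), (418, 3), (807, 3), (810, 3), (817, 3)])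
 (.pair 80 400
 (.leaf 9 [(36, 6), (41, 6), (82, 3), (83, 3), (84, 3), (85, 3), (86, 3), (133, 2), (136, 1), (138, 1), (139, 1)] [(166, 3), (187, 3), (272, 6), (276, 7), (283, 8), (418, 9), (807, 9), (810, 9), (817, 9)])
 (.pair 80 403
 (.leaf 9 [(36, 6), (41, 6), (82, 3), (83, 3), (84, 3), (85, 3), (86, 3), (133, 2), (136, 1), (138, 1), (139, 1)] [(166, 3), (187, 3), (272, 6), (276, 7), (283, 8), (418, 9), (807, 9), (810, 9), (817, 9)])
 (.pair 80 405
 (.leaf 9 [(36, 6), (41, 6), (82, 3), (83, 3), (84, 3), (85, 3), (86, 3), (133, 2), (136, 1), (138, 1), (139, 1)] [(166, 3), (187, 3), (272, 6), (276, 7), (283, 8), (418, 9), (807, 9), (810, 9), (817, 9)])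
 (.pair 80 408
 (.leaf 9 [(36, 6), (41, 6), (82, 3), (83, 3), (84, 3), (85, 3), (86, 3), (133, 2), (136, 1), (138, 1), (139, 1)] [(166, 3), (187, 3), (272, 6), (276, 7), (283, 8), (418, 9), (807, 9), (810, 9), (817, 9)])
 (.pair 80 410
 (.leaf 9 [(36, 6), (41, 6), (82, 3), (83, 3), (84, 3), (85, 3), (86, 3), (133, 2), (136, 1), (138, 1), (139, 1)] [(166, 3), (187, 3), (272, 6), (276, 7), (283, 8), (418, 9), (807, 9), (810, 9), (817, 9)])
 (.pair 80 411
 (.leaf 9 [(36, 6), (41, 6), (82, 3), (83, 3), (84, 3), (85, 3), (86, 3), (133, 2), (136, 1), (138, 1), (139, 1)] [(166, 3), (187, 3), (272, 6), (276, 7), (283, 8), (418, 9), (807, 9), (810, 9), (817, 9)])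
 (.absent 80
 (.leaf 9 [(36, 6), (41, 6), (82, 6), (83, 3), (84, 3), (85, 3), (86, 3), (133, 2), (136, 1), (138, 1), (139, 1)] [(187, 3), (272, 6), (276, 7), (283, 8), (418, 9), (807, 9), (810, 9), (817, 9)]))))))))))))))))))))))
 certFifteen_15))))
 (.pair 70 78
 (.leaf 9 [(36, 6), (41, 6), (70, 3), (80, 3), (81, 3), (82, 3), (83, 3), (84, 3), (85, 3), (86, 3), (133, 2), (136, 1), (138, 1), (139, 1)] [(160, 3), (162, 3), (166, 3), (187, 3), (272, 6), (276, 7), (283, 8), (418, 9), (807, 9), (810, 9), (817, 9)])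
 (.pair 70 80
 (.leaf 9 [(36, 6), (41, 6), (70, 3), (78, 3), (81, 3), (82, 3), (83, 3), (84, 3), (85, 3), (86, 3), (133, 2), (136, 1), (138, 1), (139, 1)] [(160, 3), (162, 3), (166, 3), (187, 3), (272, 6), (276, 7), (283, 8), (418, 9), (807, 9), (810, 9), (817, 9)])
 (.pair 70 81
 (.leaf 9 [(36, 6), (41, 6), (70, 3), (78, 3), (80, 3), (82, 3), (83, 3), (84, 3), (85, 3), (86, 3), (133, 2), (136, 1), (138, 1), (139, 1)] [(160, 3), (162, 3), (166, 3), (187, 3), (272, 6), (276, 7), (283, 8), (418, 9), (807, 9), (810, 9), (817, 9)])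
 (.pair 70 82
 (.leaf 9 [(36, 6), (41, 6), (70, 3), (78, 3), (80, 3), (81, 3), (83, 3), (84, 3), (85, 3), (86, 3), (133, 2), (136, 1), (138, 1), (139, 1)] [(160, 3), (162, 3), (166, 3), (187, 3), (272, 6), (276, 7), (283, 8), (418, 9), (807, 9), (810, 9), (817, 9)])
 (.pair 70 83
 (.leaf 9 [(36, 6), (41, 6), (70, 3), (78, 3), (80, 3), (81, 3), (82, 3), (84, 3), (85, 3), (86, 3), (133, 2), (136, 1), (138, 1), (139, 1)] [(160, 3), (162, 3), (166, 3), (187, 3), (272, 6), (276, 7), (283, 8), (418, 9), (807, 9), (810, 9), (817, 9)])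
 (.pair 70 84
 (.leaf 9 [(36, 6), (41, 6), (70, 3), (78, 3), (80, 3), (81, 3), (82, 3), (83, 3), (85, 3), (86, 3), (133, 2), (136, 1), (138, 1), (139, 1)] [(160, 3), (162, 3), (166, 3), (187, 3), (272, 6), (276, 7), (283, 8), (418, 9), (807, 9), (810, 9), (817, 9)])
 (.pair 70 85
 (.leaf 9 [(36, 6), (41, 6), (70, 3), (78, 3), (80, 3), (81, 3), (82, 3), (83, 3), (84, 3), (86, 3), (133, 2), (136, 1), (138, 1), (139, 1)] [(160, 3), (162, 3), (166, 3), (187, 3), (272, 6), (276, 7), (283, 8), (418, 9), (807, 9), (810, 9), (817, 9)])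
 (.pair 70 86
 (.leaf 9 [(36, 6), (41, 6), (70, 3), (78, 3), (80, 3), (81, 3), (82, 3), (83, 3), (84, 3), (85, 3), (133, 2), (136, 1), (138, 1), (139, 1)] [(160, 3), (162, 3), (166, 3), (187, 3), (272, 6), (276, 7), (283, 8), (418, 9), (807, 9), (810, 9), (817, 9)])
 (.pair 70 133
 (.leaf 3 [(36, 2), (41, 2), (70, 1), (78, 1), (80, 1), (81, 1), (82, 1), (83, 1), (84, 1), (85, 1), (86, 1)] [(160, 1), (162, 1), (166, 1), (187, 1), (272, 3), (276, 3), (283, 3), (418, 3), (807, 3), (810, 3), (817, 3)])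
 (.pair 70 136
 (.leaf 3 [(36, 2), (41, 2), (70, 1), (78, 1), (80, 1), (81, 1), (82, 1), (83, 1), (84, 1), (85, 1), (86, 1)] [(160, 1), (162, 1), (166, 1), (187, 1), (272, 3), (276, 3), (283, 3), (418, 3), (807, 3), (810, 3), (817, 3)])
 (.pair 70 138
 (.leaf 3 [(36, 2), (41, 2), (70, 1), (78, 1), (80, 1), (81, 1), (82, 1), (83, 1), (84, 1), (85, 1), (86, 1)] [(160, 1), (162, 1), (166, 1), (187, 1), (272, 3), (276, 3), (283, 3), (418, 3), (807, 3), (810, 3), (817, 3)])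
 (.pair 70 139
 (.leaf 3 [(36, 2), (41, 2), (70, 1), (78, 1), (80, 1), (81, 1), (82, 1), (83, 1), (84, 1), (85, 1), (86, 1)] [(160, 1), (162, 1), (166, 1), (187, 1), (272, 3), (276, 3), (283, 3), (418, 3), (807, 3), (810, 3), (817, 3)])
 (.pair 70 141
 (.leaf 3 [(36, 2), (41, 2), (70, 1), (78, 1), (80, 1), (81, 1), (82, 1), (83, 1), (84, 1), (85, 1), (86, 1)] [(160, 1), (162, 1), (166, 1), (187, 1), (272, 3), (276, 3), (283, 3), (418, 3), (807, 3), (810, 3), (817, 3)])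
 (.pair 70 143
 (.leaf 3 [(36, 2), (41, 2), (70, 1), (78, 1), (80, 1), (81, 1), (82, 1), (83, 1), (84, 1), (85, 1), (86, 1)] [(160, 1), (162, 1), (166, 1), (187, 1), (272, 3), (276, 3), (283, 3), (418, 3), (807, 3), (810, 3), (817, 3)])
 (.pair 70 144
 (.leaf 3 [(36, 2), (41, 2), (70, 1), (78, 1), (80, 1), (81, 1), (82, 1), (83, 1), (84, 1), (85, 1), (86, 1)] [(160, 1), (162, 1), (166, 1), (187, 1), (272, 3), (276, 3), (283, 3), (418, 3), (807, 3), (810, 3), (817, 3)])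
 (.pair 70 400
 (.leaf 9 [(36, 6), (41, 6), (70, 3), (78, 3), (80, 3), (81, 3), (82, 3), (83, 3), (84, 3), (85, 3), (86, 3), (133, 2), (136, 1), (138, 1), (139, 1)] [(160, 3), (162, 3), (166, 3), (187, 3), (272, 6), (276, 7), (283, 8), (418, 9), (807, 9), (810, 9), (817, 9)])
 (.pair 70 403
 (.leaf 9 [(36, 6), (41, 6), (70, 3), (78, 3), (80, 3), (81, 3), (82, 3), (83, 3), (84, 3), (85, 3), (86, 3), (133, 2), (136, 1), (138, 1), (139, 1)] [(160, 3), (162, 3), (166, 3), (187, 3), (272, 6), (276, 7), (283, 8), (418, 9), (807, 9), (810, 9), (817, 9)])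
 (.pair 70 405
 (.leaf 9 [(36, 6), (41, 6), (70, 3), (78, 3), (80, 3), (81, 3), (82, 3), (83, 3), (84, 3), (85, 3), (86, 3), (133, 2), (136, 1), (138, 1), (139, 1)] [(160, 3), (162, 3), (166, 3), (187, 3), (272, 6), (276, 7), (283, 8), (418, 9), (807, 9), (810, 9), (817, 9)])
 (.pair 70 408
 (.leaf 9 [(36, 6), (41, 6), (70, 3), (78, 3), (80, 3), (81, 3), (82, 3), (83, 3), (84, 3), (85, 3), (86, 3), (133, 2), (136, 1), (138, 1), (139, 1)] [(160, 3), (162, 3), (166, 3), (187, 3), (272, 6), (276, 7), (283, 8), (418, 9), (807, 9), (810, 9), (817, 9)])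
 (.pair 70 410
 (.leaf 9 [(36, 6), (41, 6), (70, 3), (78, 3), (80, 3), (81, 3), (82, 3), (83, 3), (84, 3), (85, 3), (86, 3), (133, 2), (136, 1), (138, 1), (139, 1)] [(160, 3), (162, 3), (166, 3), (187, 3), (272, 6), (276, 7), (283, 8), (418, 9), (807, 9), (810, 9), (817, 9)])
 (.pair 70 411
 (.leaf 9 [(36, 6), (41, 6), (70, 3), (78, 3), (80, 3), (81, 3), (82, 3), (83, 3), (84, 3), (85, 3), (86, 3), (133, 2), (136, 1), (138, 1), (139, 1)] [(160, 3), (162, 3), (166, 3), (187, 3), (272, 6), (276, 7), (283, 8), (418, 9), (807, 9), (810, 9), (817, 9)])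
 (.absent 70
 (.leaf 9 [(36, 6), (41, 6), (70, 3), (78, 3), (80, 3), (81, 3), (82, 3), (83, 3), (84, 3), (85, 3), (86, 3), (133, 2), (136, 1), (138, 1), (139, 1)] [(160, 3), (162, 3), (166, 3), (187, 3), (272, 6), (276, 7), (283, 8), (418, 9), (807, 9), (810, 9), (817, 9)]))))))))))))))))))))))))

def certFifteen_17 : Cert :=
 (.pair 78 82
 (.pair 80 36
 (.leaf 9 [(41, 6), (81, 6), (83, 3), (84, 3), (85, 3), (86, 3), (133, 2), (136, 1), (138, 1), (139, 1)] [(187, 3), (272, 6), (276, 7), (283, 8), (418, 9), (807, 9), (810, 9), (817, 9)])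
 (.pair 80 41
 (.leaf 9 [(36, 6), (81, 6), (83, 3), (84, 3), (85, 3), (86, 3), (133, 2), (136, 1), (138, 1), (139, 1)] [(187, 3), (272, 6), (276, 7), (283, 8), (418, 9), (807, 9), (810, 9), (817, 9)])
 (.pair 80 81
 (.leaf 9 [(36, 6), (41, 6), (83, 3), (84, 3), (85, 3), (86, 3), (133, 2), (136, 1), (138, 1), (139, 1)] [(187, 3), (272, 6), (276, 7), (283, 8), (418, 9), (807, 9), (810, 9), (817, 9)])
 (.pair 80 83
 (.leaf 9 [(36, 6), (41, 6), (81, 3), (84, 3), (85, 3), (86, 3), (133, 2), (136, 1), (138, 1), (139, 1)] [(166, 3), (187, 3), (272, 6), (276, 7), (283, 8), (418, 9), (807, 9), (810, 9), (817, 9)])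
 (.pair 80 84
 (.leaf 9 [(36, 6), (41, 6), (81, 3), (83, 3), (85, 3), (86, 3), (133, 2), (136, 1), (138, 1), (139, 1)] [(166, 3), (187, 3), (272, 6), (276, 7), (283, 8), (418, 9), (807, 9), (810, 9), (817, 9)])
 (.pair 80 85
 (.leaf 9 [(36, 6), (41, 6), (81, 3), (83, 3), (84, 3), (86, 3), (133, 2), (136, 1), (138, 1), (139, 1)] [(166, 3), (187, 3), (272, 6), (276, 7), (283, 8), (418, 9), (807, 9), (810, 9), (817, 9)])
 (.pair 80 86
 (.leaf 9 [(36, 6), (41, 6), (81, 3), (83, 3), (84, 3), (85, 3), (133, 2), (136, 1), (138, 1), (139, 1)] [(166, 3), (187, 3), (272, 6), (276, 7), (283, 8), (418, 9), (807, 9), (810, 9), (817, 9)])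
 (.pair 80 133
 (.leaf 3 [(36, 2), (41, 2), (81, 2), (83, 1), (84, 1), (85, 1), (86, 1)] [(187, 1), (272, 3), (276, 3), (283, 3), (418, 3), (807, 3), (810, 3), (817, 3)])
 (.pair 80 136
 (.leaf 3 [(36, 2), (41, 2), (81, 2), (83, 1), (84, 1), (85, 1), (86, 1)] [(187, 1), (272, 3), (276, 3), (283, 3), (418, 3), (807, 3), (810, 3), (817, 3)])
 (.pair 80 138
 (.leaf 3 [(36, 2), (41, 2), (81, 2), (83, 1), (84, 1), (85, 1), (86, 1)] [(187, 1), (272, 3), (276, 3), (283, 3), (418, 3), (807, 3), (810, 3), (817, 3)])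
 (.pair 80 139
 (.leaf 3 [(36, 2), (41, 2), (81, 2), (83, 1), (84, 1), (85, 1), (86, 1)] [(187, 1), (272, 3), (276, 3), (283, 3), (418, 3), (807, 3), (810, 3), (817, 3)])
 (.pair 80 141
 (.leaf 3 [(36, 2), (41, 2), (81, 2), (83, 1), (84, 1), (85, 1), (86, 1)] [(187, 1), (272, 3), (276, 3), (283, 3), (418, 3), (807, 3), (810, 3), (817, 3)])
 (.pair 80 143
 (.leaf 3 [(36, 2), (41, 2), (81, 2), (83, 1), (84, 1), (85, 1), (86, 1)] [(187, 1), (272, 3), (276, 3), (283, 3), (418, 3), (807, 3), (810, 3), (817, 3)])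
 (.pair 80 144
 (.leaf 3 [(36, 2), (41, 2), (81, 2), (83, 1), (84, 1), (85, 1), (86, 1)] [(187, 1), (272, 3), (276, 3), (283, 3), (418, 3), (807, 3), (810, 3), (817, 3)])
 (.pair 80 400
 (.leaf 9 [(36, 6), (41, 6), (81, 3), (83, 3), (84, 3), (85, 3), (86, 3), (133, 2), (136, 1), (138, 1), (139, 1)] [(166, 3), (187, 3), (272, 6), (276, 7), (283, 8), (418, 9), (807, 9), (810, 9), (817, 9)])
 (.pair 80 403
 (.leaf 9 [(36, 6), (41, 6), (81, 3), (83, 3), (84, 3), (85, 3), (86, 3), (133, 2), (136, 1), (138, 1), (139, 1)] [(166, 3), (187, 3), (272, 6), (276, 7), (283, 8), (418, 9), (807, 9), (810, 9), (817, 9)])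
 (.pair 80 405
 (.leaf 9 [(36, 6), (41, 6), (81, 3), (83, 3), (84, 3), (85, 3), (86, 3), (133, 2), (136, 1), (138, 1), (139, 1)] [(166, 3), (187, 3), (272, 6), (276, 7), (283, 8), (418, 9), (807, 9), (810, 9), (817, 9)])
 (.pair 80 408
 (.leaf 9 [(36, 6), (41, 6), (81, 3), (83, 3), (84, 3), (85, 3), (86, 3), (133, 2), (136, 1), (138, 1), (139, 1)] [(166, 3), (187, 3), (272, 6), (276, 7), (283, 8), (418, 9), (807, 9), (810, 9), (817, 9)])
 (.pair 80 410
 (.leaf 9 [(36, 6), (41, 6), (81, 3), (83, 3), (84, 3), (85, 3), (86, 3), (133, 2), (136, 1), (138, 1), (139, 1)] [(166, 3), (187, 3), (272, 6), (276, 7), (283, 8), (418, 9), (807, 9), (810, 9), (817, 9)])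
 (.pair 80 411
 (.leaf 9 [(36, 6), (41, 6), (81, 3), (83, 3), (84, 3), (85, 3), (86, 3), (133, 2), (136, 1), (138, 1), (139, 1)] [(166, 3), (187, 3), (272, 6), (276, 7), (283, 8), (418, 9), (807, 9), (810, 9), (817, 9)])
 (.absent 80
 (.leaf 9 [(36, 6), (41, 6), (81, 6), (83, 3), (84, 3), (85, 3), (86, 3), (133, 2), (136, 1), (138, 1), (139, 1)] [(187, 3), (272, 6), (276, 7), (283, 8), (418, 9), (807, 9), (810, 9), (817, 9)]))))))))))))))))))))))
 (.pair 78 83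
 (.leaf 9 [(36, 6), (41, 6), (80, 3), (81, 3), (82, 3), (84, 3), (85, 3), (86, 3), (133, 2), (136, 1), (138, 1), (139, 1)] [(162, 3), (166, 3), (187, 3), (272, 6), (276, 7), (283, 8), (418, 9), (807, 9), (810, 9), (817, 9)])
 (.pair 78 84
 (.leaf 9 [(36, 6), (41, 6), (80, 3), (81, 3), (82, 3), (83, 3), (85, 3), (86, 3), (133, 2), (136, 1), (138, 1), (139, 1)] [(162, 3), (166, 3), (187, 3), (272, 6), (276, 7), (283, 8), (418, 9), (807, 9), (810, 9), (817, 9)])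
 (.pair 78 85
 (.leaf 9 [(36, 6), (41, 6), (80, 6), (81, 3), (82, 3), (83, 3), (84, 3), (86, 3), (133, 2), (136, 1), (138, 1), (139, 1)] [(166, 3), (187, 3), (272, 6), (276, 7), (283, 8), (418, 9), (807, 9), (810, 9), (817, 9)])
 (.pair 78 86
 (.leaf 9 [(36, 6), (41, 6), (80, 6), (81, 3), (82, 3), (83, 3), (84, 3), (85, 3), (133, 2), (136, 1), (138, 1), (139, 1)] [(166, 3), (187, 3), (272, 6), (276, 7), (283, 8), (418, 9), (807, 9), (810, 9), (817, 9)])
 (.pair 78 133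
 (.leaf 3 [(36, 2), (41, 2), (80, 2), (81, 1), (82, 1), (83, 1), (84, 1), (85, 1), (86, 1)] [(166, 1), (187, 1), (272, 3), (276, 3), (283, 3), (418, 3), (807, 3), (810, 3), (817, 3)])
 (.pair 78 136
 (.leaf 3 [(36, 2), (41, 2), (80, 2), (81, 1), (82, 1), (83, 1), (84, 1), (85, 1), (86, 1)] [(166, 1), (187, 1), (272, 3), (276, 3), (283, 3), (418, 3), (807, 3), (810, 3), (817, 3)])
 (.pair 78 138
 (.leaf 3 [(36, 2), (41, 2), (80, 2), (81, 1), (82, 1), (83, 1), (84, 1), (85, 1), (86, 1)] [(166, 1), (187, 1), (272, 3), (276, 3), (283, 3), (418, 3), (807, 3), (810, 3), (817, 3)])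
 (.pair 78 139
 (.leaf 3 [(36, 2), (41, 2), (80, 2), (81, 1), (82, 1), (83, 1), (84, 1), (85, 1), (86, 1)] [(166, 1), (187, 1), (272, 3), (276, 3), (283, 3), (418, 3), (807, 3), (810, 3), (817, 3)])
 (.pair 78 141
 (.leaf 3 [(36, 2), (41, 2), (80, 2), (81, 1), (82, 1), (83, 1), (84, 1), (85, 1), (86, 1)] [(166, 1), (187, 1), (272, 3), (276, 3), (283, 3), (418, 3), (807, 3), (810, 3), (817, 3)])
 (.pair 78 143
 (.leaf 3 [(36, 2), (41, 2), (80, 2), (81, 1), (82, 1), (83, 1), (84, 1), (85, 1), (86, 1)] [(166, 1), (187, 1), (272, 3), (276, 3), (283, 3), (418, 3), (807, 3), (810, 3), (817, 3)])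
 (.pair 78 144
 (.leaf 3 [(36, 2), (41, 2), (80, 2), (81, 1), (82, 1), (83, 1), (84, 1), (85, 1), (86, 1)] [(166, 1), (187, 1), (272, 3), (276, 3), (283, 3), (418, 3), (807, 3), (810, 3), (817, 3)])
 (.pair 78 400
 (.leaf 9 [(36, 6), (41, 6), (80, 6), (81, 3), (82, 3), (83, 3), (84, 3), (85, 3), (86, 3), (133, 2), (136, 1), (138, 1), (139, 1)] [(166, 3), (187, 3), (272, 6), (276, 7), (283, 8), (418, 9), (807, 9), (810, 9), (817, 9)])
 (.pair 78 403
 (.leaf 9 [(36, 6), (41, 6), (80, 6), (81, 3), (82, 3), (83, 3), (84, 3), (85, 3), (86, 3), (133, 2), (136, 1), (138, 1), (139, 1)] [(166, 3), (187, 3), (272, 6), (276, 7), (283, 8), (418, 9), (807, 9), (810, 9), (817, 9)])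
 (.pair 78 405
 (.leaf 9 [(36, 6), (41, 6), (80, 6), (81, 3), (82, 3), (83, 3), (84, 3), (85, 3), (86, 3), (133, 2), (136, 1), (138, 1), (139, 1)] [(166, 3), (187, 3), (272, 6), (276, 7), (283, 8), (418, 9), (807, 9), (810, 9), (817, 9)])
 (.pair 78 408
 (.leaf 9 [(36, 6), (41, 6), (80, 6), (81, 3), (82, 3), (83, 3), (84, 3), (85, 3), (86, 3), (133, 2), (136, 1), (138, 1), (139, 1)] [(166, 3), (187, 3), (272, 6), (276, 7), (283, 8), (418, 9), (807, 9), (810, 9), (817, 9)])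
 (.pair 78 410
 (.leaf 9 [(36, 6), (41, 6), (80, 6), (81, 3), (82, 3), (83, 3), (84, 3), (85, 3), (86, 3), (133, 2), (136, 1), (138, 1), (139, 1)] [(166, 3), (187, 3), (272, 6), (276, 7), (283, 8), (418, 9), (807, 9), (810, 9), (817, 9)])
 (.pair 78 411
 (.leaf 9 [(36, 6), (41, 6), (80, 6), (81, 3), (82, 3), (83, 3), (84, 3), (85, 3), (86, 3), (133, 2), (136, 1), (138, 1), (139, 1)] [(166, 3), (187, 3), (272, 6), (276, 7), (283, 8), (418, 9), (807, 9), (810, 9), (817, 9)])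
 (.absent 78
 (.leaf 9 [(36, 6), (41, 6), (80, 6), (81, 3), (82, 3), (83, 3), (84, 3), (85, 3), (86, 3), (133, 2), (136, 1), (138, 1), (139, 1)] [(166, 3), (187, 3), (272, 6), (276, 7), (283, 8), (418, 9), (807, 9), (810, 9), (817, 9)]))))))))))))))))))))

def certFifteen_18 : Cert :=
 (.pair 68 70
 (.pair 78 36
 (.leaf 18 [(41, 12), (80, 9), (81, 9), (82, 9), (83, 6), (84, 6), (85, 6), (86, 6), (133, 4), (136, 2), (138, 2), (139, 2)] [(166, 3), (187, 6), (272, 12), (276, 14), (283, 16), (418, 18), (807, 18), (810, 18), (817, 18)])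
 (.pair 78 41
 (.leaf 18 [(36, 12), (80, 9), (81, 9), (82, 9), (83, 6), (84, 6), (85, 6), (86, 6), (133, 4), (136, 2), (138, 2), (139, 2)] [(166, 3), (187, 6), (272, 12), (276, 14), (283, 16), (418, 18), (807, 18), (810, 18), (817, 18)])
 (.pair 78 80
 (.leaf 9 [(36, 6), (41, 6), (81, 3), (82, 3), (83, 3), (84, 3), (85, 3), (86, 3), (133, 2), (136, 1), (138, 1), (139, 1)] [(166, 3), (187, 3), (272, 6), (276, 7), (283, 8), (418, 9), (807, 9), (810, 9), (817, 9)])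
 (.pair 78 81
 (.pair 80 36
 (.leaf 9 [(41, 6), (82, 6), (83, 3), (84, 3), (85, 3), (86, 3), (133, 2), (136, 1), (138, 1), (139, 1)] [(187, 3), (272, 6), (276, 7), (283, 8), (418, 9), (807, 9), (810, 9), (817, 9)])
 (.pair 80 41
 (.leaf 9 [(36, 6), (82, 6), (83, 3), (84, 3), (85, 3), (86, 3), (133, 2), (136, 1), (138, 1), (139, 1)] [(187, 3), (272, 6), (276, 7), (283, 8), (418, 9), (807, 9), (810, 9), (817, 9)])
 (.pair 80 82
 (.leaf 9 [(36, 6), (41, 6), (83, 3), (84, 3), (85, 3), (86, 3), (133, 2), (136, 1), (138, 1), (139, 1)] [(187, 3), (272, 6), (276, 7), (283, 8), (418, 9), (807, 9), (810, 9), (817, 9)])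
 (.pair 80 83
 (.leaf 9 [(36, 6), (41, 6), (82, 3), (84, 3), (85, 3), (86, 3), (133, 2), (136, 1), (138, 1), (139, 1)] [(166, 3), (187, 3), (272, 6), (276, 7), (283, 8), (418, 9), (807, 9), (810, 9), (817, 9)])
 (.pair 80 84
 (.leaf 9 [(36, 6), (41, 6), (82, 3), (83, 3), (85, 3), (86, 3), (133, 2), (136, 1), (138, 1), (139, 1)] [(166, 3), (187, 3), (272, 6), (276, 7), (283, 8), (418, 9), (807, 9), (810, 9), (817, 9)])
 (.pair 80 85
 (.leaf 9 [(36, 6), (41, 6), (82, 3), (83, 3), (84, 3), (86, 3), (133, 2), (136, 1), (138, 1), (139, 1)] [(166, 3), (187, 3), (272, 6), (276, 7), (283, 8), (418, 9), (807, 9), (810, 9), (817, 9)])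
 (.pair 80 86
 (.leaf 9 [(36, 6), (41, 6), (82, 3), (83, 3), (84, 3), (85, 3), (133, 2), (136, 1), (138, 1), (139, 1)] [(166, 3), (187, 3), (272, 6), (276, 7), (283, 8), (418, 9), (807, 9), (810, 9), (817, 9)])
 (.pair 80 133
 (.leaf 3 [(36, 2), (41, 2), (82, 2), (83, 1), (84, 1), (85, 1), (86, 1)] [(187, 1), (272, 3), (276, 3), (283, 3), (418, 3), (807, 3), (810, 3), (817, 3)])
 (.pair 80 136
 (.leaf 3 [(36, 2), (41, 2), (82, 2), (83, 1), (84, 1), (85, 1), (86, 1)] [(187, 1), (272, 3), (276, 3), (283, 3), (418, 3), (807, 3), (810, 3), (817, 3)])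
 (.pair 80 138
 (.leaf 3 [(36, 2), (41, 2), (82, 2), (83, 1), (84, 1), (85, 1), (86, 1)] [(187, 1), (272, 3), (276, 3), (283, 3), (418, 3), (807, 3), (810, 3), (817, 3)])
 (.pair 80 139
 (.leaf 3 [(36, 2), (41, 2), (82, 2), (83, 1), (84, 1), (85, 1), (86, 1)] [(187, 1), (272, 3), (276, 3), (283, 3), (418, 3), (807, 3), (810, 3), (817, 3)])
 (.pair 80 141
 (.leaf 3 [(36, 2), (41, 2), (82, 2), (83, 1), (84, 1), (85, 1), (86, 1)] [(187, 1), (272, 3), (276, 3), (283, 3), (418, 3), (807, 3), (810, 3), (817, 3)])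
 (.pair 80 143
 (.leaf 3 [(36, 2), (41, 2), (82, 2), (83, 1), (84, 1), (85, 1), (86, 1)] [(187, 1), (272, 3), (276, 3), (283, 3), (418, 3), (807, 3), (810, 3), (817, 3)])
 (.pair 80 144
 (.leaf 3 [(36, 2), (41, 2), (82, 2), (83, 1), (84, 1), (85, 1), (86, 1)] [(187, 1), (272, 3), (276, 3), (283, 3), (418, 3), (807, 3), (810, 3), (817, 3)])
 (.pair 80 400
 (.leaf 9 [(36, 6), (41, 6), (82, 3), (83, 3), (84, 3), (85, 3), (86, 3), (133, 2), (136, 1), (138, 1), (139, 1)] [(166, 3), (187, 3), (272, 6), (276, 7), (283, 8), (418, 9), (807, 9), (810, 9), (817, 9)])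
 (.pair 80 403
 (.leaf 9 [(36, 6), (41, 6), (82, 3), (83, 3), (84, 3), (85, 3), (86, 3), (133, 2), (136, 1), (138, 1), (139, 1)] [(166, 3), (187, 3), (272, 6), (276, 7), (283, 8), (418, 9), (807, 9), (810, 9), (817, 9)])
 (.pair 80 405
 (.leaf 9 [(36, 6), (41, 6), (82, 3), (83, 3), (84, 3), (85, 3), (86, 3), (133, 2), (136, 1), (138, 1), (139, 1)] [(166, 3), (187, 3), (272, 6), (276, 7), (283, 8), (418, 9), (807, 9), (810, 9), (817, 9)])
 (.pair 80 408
 (.leaf 9 [(36, 6), (41, 6), (82, 3), (83, 3), (84, 3), (85, 3), (86, 3), (133, 2), (136, 1), (138, 1), (139, 1)] [(166, 3), (187, 3), (272, 6), (276, 7), (283, 8), (418, 9), (807, 9), (810, 9), (817, 9)])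
 (.pair 80 410
 (.leaf 9 [(36, 6), (41, 6), (82, 3), (83, 3), (84, 3), (85, 3), (86, 3), (133, 2), (136, 1), (138, 1), (139, 1)] [(166, 3), (187, 3), (272, 6), (276, 7), (283, 8), (418, 9), (807, 9), (810, 9), (817, 9)])
 (.pair 80 411
 (.leaf 9 [(36, 6), (41, 6), (82, 3), (83, 3), (84, 3), (85, 3), (86, 3), (133, 2), (136, 1), (138, 1), (139, 1)] [(166, 3), (187, 3), (272, 6), (276, 7), (283, 8), (418, 9), (807, 9), (810, 9), (817, 9)])
 (.absent 80
 (.leaf 9 [(36, 6), (41, 6), (82, 6), (83, 3), (84, 3), (85, 3), (86, 3), (133, 2), (136, 1), (138, 1), (139, 1)] [(187, 3), (272, 6), (276, 7), (283, 8), (418, 9), (807, 9), (810, 9), (817, 9)]))))))))))))))))))))))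
 certFifteen_17))))
 (.pair 68 78
 (.leaf 9 [(36, 6), (41, 6), (70, 3), (80, 3), (81, 3), (82, 3), (83, 3), (84, 3), (85, 3), (86, 3), (133, 2), (136, 1), (138, 1), (139, 1)] [(160, 3), (162, 3), (166, 3), (187, 3), (272, 6), (276, 7), (283, 8), (418, 9), (807, 9), (810, 9), (817, 9)])
 (.pair 68 80
 (.leaf 9 [(36, 6), (41, 6), (70, 3), (78, 3), (81, 3), (82, 3), (83, 3), (84, 3), (85, 3), (86, 3), (133, 2), (136, 1), (138, 1), (139, 1)] [(160, 3), (162, 3), (166, 3), (187, 3), (272, 6), (276, 7), (283, 8), (418, 9), (807, 9), (810, 9), (817, 9)])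
 (.pair 68 81
 (.leaf 9 [(36, 6), (41, 6), (70, 3), (78, 3), (80, 3), (82, 3), (83, 3), (84, 3), (85, 3), (86, 3), (133, 2), (136, 1), (138, 1), (139, 1)] [(160, 3), (162, 3), (166, 3), (187, 3), (272, 6), (276, 7), (283, 8), (418, 9), (807, 9), (810, 9), (817, 9)])
 (.pair 68 82
 (.leaf 9 [(36, 6), (41, 6), (70, 3), (78, 3), (80, 3), (81, 3), (83, 3), (84, 3), (85, 3), (86, 3), (133, 2), (136, 1), (138, 1), (139, 1)] [(160, 3), (162, 3), (166, 3), (187, 3), (272, 6), (276, 7), (283, 8), (418, 9), (807, 9), (810, 9), (817, 9)])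
 (.pair 68 83
 (.leaf 9 [(36, 6), (41, 6), (70, 3), (78, 3), (80, 3), (81, 3), (82, 3), (84, 3), (85, 3), (86, 3), (133, 2), (136, 1), (138, 1), (139, 1)] [(160, 3), (162, 3), (166, 3), (187, 3), (272, 6), (276, 7), (283, 8), (418, 9), (807, 9), (810, 9), (817, 9)])
 (.pair 68 84
 (.leaf 9 [(36, 6), (41, 6), (70, 3), (78, 3), (80, 3), (81, 3), (82, 3), (83, 3), (85, 3), (86, 3), (133, 2), (136, 1), (138, 1), (139, 1)] [(160, 3), (162, 3), (166, 3), (187, 3), (272, 6), (276, 7), (283, 8), (418, 9), (807, 9), (810, 9), (817, 9)])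
 (.pair 68 85
 (.leaf 9 [(36, 6), (41, 6), (70, 3), (78, 3), (80, 3), (81, 3), (82, 3), (83, 3), (84, 3), (86, 3), (133, 2), (136, 1), (138, 1), (139, 1)] [(160, 3), (162, 3), (166, 3), (187, 3), (272, 6), (276, 7), (283, 8), (418, 9), (807, 9), (810, 9), (817, 9)])
 (.pair 68 86
 (.leaf 9 [(36, 6), (41, 6), (70, 3), (78, 3), (80, 3), (81, 3), (82, 3), (83, 3), (84, 3), (85, 3), (133, 2), (136, 1), (138, 1), (139, 1)] [(160, 3), (162, 3), (166, 3), (187, 3), (272, 6), (276, 7), (283, 8), (418, 9), (807, 9), (810, 9), (817, 9)])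
 (.pair 68 133
 (.leaf 3 [(36, 2), (41, 2), (70, 1), (78, 1), (80, 1), (81, 1), (82, 1), (83, 1), (84, 1), (85, 1), (86, 1)] [(160, 1), (162, 1), (166, 1), (187, 1), (272, 3), (276, 3), (283, 3), (418, 3), (807, 3), (810, 3), (817, 3)])
 (.pair 68 136
 (.leaf 3 [(36, 2), (41, 2), (70, 1), (78, 1), (80, 1), (81, 1), (82, 1), (83, 1), (84, 1), (85, 1), (86, 1)] [(160, 1), (162, 1), (166, 1), (187, 1), (272, 3), (276, 3), (283, 3), (418, 3), (807, 3), (810, 3), (817, 3)])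
 (.pair 68 138
 (.leaf 3 [(36, 2), (41, 2), (70, 1), (78, 1), (80, 1), (81, 1), (82, 1), (83, 1), (84, 1), (85, 1), (86, 1)] [(160, 1), (162, 1), (166, 1), (187, 1), (272, 3), (276, 3), (283, 3), (418, 3), (807, 3), (810, 3), (817, 3)])
 (.pair 68 139
 (.leaf 3 [(36, 2), (41, 2), (70, 1), (78, 1), (80, 1), (81, 1), (82, 1), (83, 1), (84, 1), (85, 1), (86, 1)] [(160, 1), (162, 1), (166, 1), (187, 1), (272, 3), (276, 3), (283, 3), (418, 3), (807, 3), (810, 3), (817, 3)])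
 (.pair 68 141
 (.leaf 3 [(36, 2), (41, 2), (70, 1), (78, 1), (80, 1), (81, 1), (82, 1), (83, 1), (84, 1), (85, 1), (86, 1)] [(160, 1), (162, 1), (166, 1), (187, 1), (272, 3), (276, 3), (283, 3), (418, 3), (807, 3), (810, 3), (817, 3)])
 (.pair 68 143
 (.leaf 3 [(36, 2), (41, 2), (70, 1), (78, 1), (80, 1), (81, 1), (82, 1), (83, 1), (84, 1), (85, 1), (86, 1)] [(160, 1), (162, 1), (166, 1), (187, 1), (272, 3), (276, 3), (283, 3), (418, 3), (807, 3), (810, 3), (817, 3)])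
 (.pair 68 144
 (.leaf 3 [(36, 2), (41, 2), (70, 1), (78, 1), (80, 1), (81, 1), (82, 1), (83, 1), (84, 1), (85, 1), (86, 1)] [(160, 1), (162, 1), (166, 1), (187, 1), (272, 3), (276, 3), (283, 3), (418, 3), (807, 3), (810, 3), (817, 3)])
 (.pair 68 400
 (.leaf 9 [(36, 6), (41, 6), (70, 3), (78, 3), (80, 3), (81, 3), (82, 3), (83, 3), (84, 3), (85, 3), (86, 3), (133, 2), (136, 1), (138, 1), (139, 1)] [(160, 3), (162, 3), (166, 3), (187, 3), (272, 6), (276, 7), (283, 8), (418, 9), (807, 9), (810, 9), (817, 9)])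
 (.pair 68 403
 (.leaf 9 [(36, 6), (41, 6), (70, 3), (78, 3), (80, 3), (81, 3), (82, 3), (83, 3), (84, 3), (85, 3), (86, 3), (133, 2), (136, 1), (138, 1), (139, 1)] [(160, 3), (162, 3), (166, 3), (187, 3), (272, 6), (276, 7), (283, 8), (418, 9), (807, 9), (810, 9), (817, 9)])
 (.pair 68 405
 (.leaf 9 [(36, 6), (41, 6), (70, 3), (78, 3), (80, 3), (81, 3), (82, 3), (83, 3), (84, 3), (85, 3), (86, 3), (133, 2), (136, 1), (138, 1), (139, 1)] [(160, 3), (162, 3), (166, 3), (187, 3), (272, 6), (276, 7), (283, 8), (418, 9), (807, 9), (810, 9), (817, 9)])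
 (.pair 68 408
 (.leaf 9 [(36, 6), (41, 6), (70, 3), (78, 3), (80, 3), (81, 3), (82, 3), (83, 3), (84, 3), (85, 3), (86, 3), (133, 2), (136, 1), (138, 1), (139, 1)] [(160, 3), (162, 3), (166, 3), (187, 3), (272, 6), (276, 7), (283, 8), (418, 9), (807, 9), (810, 9), (817, 9)])
 (.pair 68 410
 (.leaf 9 [(36, 6), (41, 6), (70, 3), (78, 3), (80, 3), (81, 3), (82, 3), (83, 3), (84, 3), (85, 3), (86, 3), (133, 2), (136, 1), (138, 1), (139, 1)] [(160, 3), (162, 3), (166, 3), (187, 3), (272, 6), (276, 7), (283, 8), (418, 9), (807, 9), (810, 9), (817, 9)])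
 (.pair 68 411
 (.leaf 9 [(36, 6), (41, 6), (70, 3), (78, 3), (80, 3), (81, 3), (82, 3), (83, 3), (84, 3), (85, 3), (86, 3), (133, 2), (136, 1), (138, 1), (139, 1)] [(160, 3), (162, 3), (166, 3), (187, 3), (272, 6), (276, 7), (283, 8), (418, 9), (807, 9), (810, 9), (817, 9)])
 (.absent 68
 (.leaf 9 [(36, 6), (41, 6), (70, 3), (78, 3), (80, 3), (81, 3), (82, 3), (83, 3), (84, 3), (85, 3), (86, 3), (133, 2), (136, 1), (138, 1), (139, 1)] [(160, 3), (162, 3), (166, 3), (187, 3), (272, 6), (276, 7), (283, 8), (418, 9), (807, 9), (810, 9), (817, 9)]))))))))))))))))))))))))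

def certFifteen_19 : Cert :=
 (.pair 60 78
 (.leaf 9 [(36, 6), (41, 6), (68, 3), (70, 3), (80, 3), (81, 3), (82, 3), (83, 3), (84, 3), (85, 3), (86, 3), (133, 2), (136, 1), (138, 1), (139, 1)] [(145, 3), (160, 3), (162, 3), (166, 3), (187, 3), (272, 6), (276, 7), (283, 8), (418, 9), (807, 9), (810, 9), (817, 9)])
 (.pair 60 80
 (.leaf 9 [(36, 6), (41, 6), (68, 3), (70, 3), (78, 3), (81, 3), (82, 3), (83, 3), (84, 3), (85, 3), (86, 3), (133, 2), (136, 1), (138, 1), (139, 1)] [(145, 3), (160, 3), (162, 3), (166, 3), (187, 3), (272, 6), (276, 7), (283, 8), (418, 9), (807, 9), (810, 9), (817, 9)])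
 (.pair 60 81
 (.leaf 9 [(36, 6), (41, 6), (68, 3), (70, 3), (78, 3), (80, 3), (82, 3), (83, 3), (84, 3), (85, 3), (86, 3), (133, 2), (136, 1), (138, 1), (139, 1)] [(145, 3), (160, 3), (162, 3), (166, 3), (187, 3), (272, 6), (276, 7), (283, 8), (418, 9), (807, 9), (810, 9), (817, 9)])
 (.pair 60 82
 (.leaf 9 [(36, 6), (41, 6), (68, 3), (70, 3), (78, 3), (80, 3), (81, 3), (83, 3), (84, 3), (85, 3), (86, 3), (133, 2), (136, 1), (138, 1), (139, 1)] [(145, 3), (160, 3), (162, 3), (166, 3), (187, 3), (272, 6), (276, 7), (283, 8), (418, 9), (807, 9), (810, 9), (817, 9)])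
 (.pair 60 83
 (.leaf 9 [(36, 6), (41, 6), (68, 3), (70, 3), (78, 3), (80, 3), (81, 3), (82, 3), (84, 3), (85, 3), (86, 3), (133, 2), (136, 1), (138, 1), (139, 1)] [(145, 3), (160, 3), (162, 3), (166, 3), (187, 3), (272, 6), (276, 7), (283, 8), (418, 9), (807, 9), (810, 9), (817, 9)])
 (.pair 60 84
 (.leaf 9 [(36, 6), (41, 6), (68, 3), (70, 3), (78, 3), (80, 3), (81, 3), (82, 3), (83, 3), (85, 3), (86, 3), (133, 2), (136, 1), (138, 1), (139, 1)] [(145, 3), (160, 3), (162, 3), (166, 3), (187, 3), (272, 6), (276, 7), (283, 8), (418, 9), (807, 9), (810, 9), (817, 9)])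
 (.pair 60 85
 (.leaf 9 [(36, 6), (41, 6), (68, 3), (70, 3), (78, 3), (80, 3), (81, 3), (82, 3), (83, 3), (84, 3), (86, 3), (133, 2), (136, 1), (138, 1), (139, 1)] [(145, 3), (160, 3), (162, 3), (166, 3), (187, 3), (272, 6), (276, 7), (283, 8), (418, 9), (807, 9), (810, 9), (817, 9)])
 (.pair 60 86
 (.leaf 9 [(36, 6), (41, 6), (68, 3), (70, 3), (78, 3), (80, 3), (81, 3), (82, 3), (83, 3), (84, 3), (85, 3), (133, 2), (136, 1), (138, 1), (139, 1)] [(145, 3), (160, 3), (162, 3), (166, 3), (187, 3), (272, 6), (276, 7), (283, 8), (418, 9), (807, 9), (810, 9), (817, 9)])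
 (.pair 60 133
 (.leaf 3 [(36, 2), (41, 2), (68, 1), (70, 1), (78, 1), (80, 1), (81, 1), (82, 1), (83, 1), (84, 1), (85, 1), (86, 1)] [(145, 1), (160, 1), (162, 1), (166, 1), (187, 1), (272, 3), (276, 3), (283, 3), (418, 3), (807, 3), (810, 3), (817, 3)])
 (.pair 60 136
 (.leaf 3 [(36, 2), (41, 2), (68, 1), (70, 1), (78, 1), (80, 1), (81, 1), (82, 1), (83, 1), (84, 1), (85, 1), (86, 1)] [(145, 1), (160, 1), (162, 1), (166, 1), (187, 1), (272, 3), (276, 3), (283, 3), (418, 3), (807, 3), (810, 3), (817, 3)])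
 (.pair 60 138
 (.leaf 3 [(36, 2), (41, 2), (68, 1), (70, 1), (78, 1), (80, 1), (81, 1), (82, 1), (83, 1), (84, 1), (85, 1), (86, 1)] [(145, 1), (160, 1), (162, 1), (166, 1), (187, 1), (272, 3), (276, 3), (283, 3), (418, 3), (807, 3), (810, 3), (817, 3)])
 (.pair 60 139
 (.leaf 3 [(36, 2), (41, 2), (68, 1), (70, 1), (78, 1), (80, 1), (81, 1), (82, 1), (83, 1), (84, 1), (85, 1), (86, 1)] [(145, 1), (160, 1), (162, 1), (166, 1), (187, 1), (272, 3), (276, 3), (283, 3), (418, 3), (807, 3), (810, 3), (817, 3)])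
 (.pair 60 141
 (.leaf 3 [(36, 2), (41, 2), (68, 1), (70, 1), (78, 1), (80, 1), (81, 1), (82, 1), (83, 1), (84, 1), (85, 1), (86, 1)] [(145, 1), (160, 1), (162, 1), (166, 1), (187, 1), (272, 3), (276, 3), (283, 3), (418, 3), (807, 3), (810, 3), (817, 3)])
 (.pair 60 143
 (.leaf 3 [(36, 2), (41, 2), (68, 1), (70, 1), (78, 1), (80, 1), (81, 1), (82, 1), (83, 1), (84, 1), (85, 1), (86, 1)] [(145, 1), (160, 1), (162, 1), (166, 1), (187, 1), (272, 3), (276, 3), (283, 3), (418, 3), (807, 3), (810, 3), (817, 3)])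
 (.pair 60 144
 (.leaf 3 [(36, 2), (41, 2), (68, 1), (70, 1), (78, 1), (80, 1), (81, 1), (82, 1), (83, 1), (84, 1), (85, 1), (86, 1)] [(145, 1), (160, 1), (162, 1), (166, 1), (187, 1), (272, 3), (276, 3), (283, 3), (418, 3), (807, 3), (810, 3), (817, 3)])
 (.pair 60 400
 (.leaf 9 [(36, 6), (41, 6), (68, 3), (70, 3), (78, 3), (80, 3), (81, 3), (82, 3), (83, 3), (84, 3), (85, 3), (86, 3), (133, 2), (136, 1), (138, 1), (139, 1)] [(145, 3), (160, 3), (162, 3), (166, 3), (187, 3), (272, 6), (276, 7), (283, 8), (418, 9), (807, 9), (810, 9), (817, 9)])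
 (.pair 60 403
 (.leaf 9 [(36, 6), (41, 6), (68, 3), (70, 3), (78, 3), (80, 3), (81, 3), (82, 3), (83, 3), (84, 3), (85, 3), (86, 3), (133, 2), (136, 1), (138, 1), (139, 1)] [(145, 3), (160, 3), (162, 3), (166, 3), (187, 3), (272, 6), (276, 7), (283, 8), (418, 9), (807, 9), (810, 9), (817, 9)])
 (.pair 60 405
 (.leaf 9 [(36, 6), (41, 6), (68, 3), (70, 3), (78, 3), (80, 3), (81, 3), (82, 3), (83, 3), (84, 3), (85, 3), (86, 3), (133, 2), (136, 1), (138, 1), (139, 1)] [(145, 3), (160, 3), (162, 3), (166, 3), (187, 3), (272, 6), (276, 7), (283, 8), (418, 9), (807, 9), (810, 9), (817, 9)])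
 (.pair 60 408
 (.leaf 9 [(36, 6), (41, 6), (68, 3), (70, 3), (78, 3), (80, 3), (81, 3), (82, 3), (83, 3), (84, 3), (85, 3), (86, 3), (133, 2), (136, 1), (138, 1), (139, 1)] [(145, 3), (160, 3), (162, 3), (166, 3), (187, 3), (272, 6), (276, 7), (283, 8), (418, 9), (807, 9), (810, 9), (817, 9)])
 (.pair 60 410
 (.leaf 9 [(36, 6), (41, 6), (68, 3), (70, 3), (78, 3), (80, 3), (81, 3), (82, 3), (83, 3), (84, 3), (85, 3), (86, 3), (133, 2), (136, 1), (138, 1), (139, 1)] [(145, 3), (160, 3), (162, 3), (166, 3), (187, 3), (272, 6), (276, 7), (283, 8), (418, 9), (807, 9), (810, 9), (817, 9)])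
 (.pair 60 411
 (.leaf 9 [(36, 6), (41, 6), (68, 3), (70, 3), (78, 3), (80, 3), (81, 3), (82, 3), (83, 3), (84, 3), (85, 3), (86, 3), (133, 2), (136, 1), (138, 1), (139, 1)] [(145, 3), (160, 3), (162, 3), (166, 3), (187, 3), (272, 6), (276, 7), (283, 8), (418, 9), (807, 9), (810, 9), (817, 9)])
 (.absent 60
 (.leaf 9 [(36, 6), (41, 6), (68, 3), (70, 3), (78, 3), (80, 3), (81, 3), (82, 3), (83, 3), (84, 3), (85, 3), (86, 3), (133, 2), (136, 1), (138, 1), (139, 1)] [(145, 3), (160, 3), (162, 3), (166, 3), (187, 3), (272, 6), (276, 7), (283, 8), (418, 9), (807, 9), (810, 9), (817, 9)])))))))))))))))))))))))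

def certFifteen_20 : Cert :=
 (.pair 78 82
 (.pair 80 36
 (.leaf 9 [(41, 6), (81, 6), (83, 3), (84, 3), (85, 3), (86, 3), (133, 2), (136, 1), (138, 1), (139, 1)] [(187, 3), (272, 6), (276, 7), (283, 8), (418, 9), (807, 9), (810, 9), (817, 9)])
 (.pair 80 41
 (.leaf 9 [(36, 6), (81, 6), (83, 3), (84, 3), (85, 3), (86, 3), (133, 2), (136, 1), (138, 1), (139, 1)] [(187, 3), (272, 6), (276, 7), (283, 8), (418, 9), (807, 9), (810, 9), (817, 9)])
 (.pair 80 81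
 (.leaf 9 [(36, 6), (41, 6), (83, 3), (84, 3), (85, 3), (86, 3), (133, 2), (136, 1), (138, 1), (139, 1)] [(187, 3), (272, 6), (276, 7), (283, 8), (418, 9), (807, 9), (810, 9), (817, 9)])
 (.pair 80 83
 (.leaf 9 [(36, 6), (41, 6), (81, 3), (84, 3), (85, 3), (86, 3), (133, 2), (136, 1), (138, 1), (139, 1)] [(166, 3), (187, 3), (272, 6), (276, 7), (283, 8), (418, 9), (807, 9), (810, 9), (817, 9)])
 (.pair 80 84
 (.leaf 9 [(36, 6), (41, 6), (81, 3), (83, 3), (85, 3), (86, 3), (133, 2), (136, 1), (138, 1), (139, 1)] [(166, 3), (187, 3), (272, 6), (276, 7), (283, 8), (418, 9), (807, 9), (810, 9), (817, 9)])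
 (.pair 80 85
 (.leaf 9 [(36, 6), (41, 6), (81, 3), (83, 3), (84, 3), (86, 3), (133, 2), (136, 1), (138, 1), (139, 1)] [(166, 3), (187, 3), (272, 6), (276, 7), (283, 8), (418, 9), (807, 9), (810, 9), (817, 9)])
 (.pair 80 86
 (.leaf 9 [(36, 6), (41, 6), (81, 3), (83, 3), (84, 3), (85, 3), (133, 2), (136, 1), (138, 1), (139, 1)] [(166, 3), (187, 3), (272, 6), (276, 7), (283, 8), (418, 9), (807, 9), (810, 9), (817, 9)])
 (.pair 80 133
 (.leaf 3 [(36, 2), (41, 2), (81, 1), (83, 1), (84, 1), (85, 1), (86, 1)] [(166, 1), (187, 1), (272, 3), (276, 3), (283, 3), (418, 3), (807, 3), (810, 3), (817, 3)])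
 (.pair 80 136
 (.leaf 3 [(36, 2), (41, 2), (81, 1), (83, 1), (84, 1), (85, 1), (86, 1)] [(166, 1), (187, 1), (272, 3), (276, 3), (283, 3), (418, 3), (807, 3), (810, 3), (817, 3)])
 (.pair 80 138
 (.leaf 3 [(36, 2), (41, 2), (81, 2), (83, 1), (84, 1), (85, 1), (86, 1)] [(187, 1), (272, 3), (276, 3), (283, 3), (418, 3), (807, 3), (810, 3), (817, 3)])
 (.pair 80 139
 (.leaf 3 [(36, 2), (41, 2), (81, 2), (83, 1), (84, 1), (85, 1), (86, 1)] [(187, 1), (272, 3), (276, 3), (283, 3), (418, 3), (807, 3), (810, 3), (817, 3)])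
 (.pair 80 141
 (.leaf 3 [(36, 2), (41, 2), (81, 2), (83, 1), (84, 1), (85, 1), (86, 1)] [(187, 1), (272, 3), (276, 3), (283, 3), (418, 3), (807, 3), (810, 3), (817, 3)])
 (.pair 80 143
 (.leaf 3 [(36, 2), (41, 2), (81, 2), (83, 1), (84, 1), (85, 1), (86, 1)] [(187, 1), (272, 3), (276, 3), (283, 3), (418, 3), (807, 3), (810, 3), (817, 3)])
 (.pair 80 144
 (.leaf 3 [(36, 2), (41, 2), (81, 2), (83, 1), (84, 1), (85, 1), (86, 1)] [(187, 1), (272, 3), (276, 3), (283, 3), (418, 3), (807, 3), (810, 3), (817, 3)])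
 (.pair 80 400
 (.leaf 9 [(36, 6), (41, 6), (81, 3), (83, 3), (84, 3), (85, 3), (86, 3), (133, 2), (136, 1), (138, 1), (139, 1)] [(166, 3), (187, 3), (272, 6), (276, 7), (283, 8), (418, 9), (807, 9), (810, 9), (817, 9)])
 (.pair 80 403
 (.leaf 9 [(36, 6), (41, 6), (81, 3), (83, 3), (84, 3), (85, 3), (86, 3), (133, 2), (136, 1), (138, 1), (139, 1)] [(166, 3), (187, 3), (272, 6), (276, 7), (283, 8), (418, 9), (807, 9), (810, 9), (817, 9)])
 (.pair 80 405
 (.leaf 9 [(36, 6), (41, 6), (81, 3), (83, 3), (84, 3), (85, 3), (86, 3), (133, 2), (136, 1), (138, 1), (139, 1)] [(166, 3), (187, 3), (272, 6), (276, 7), (283, 8), (418, 9), (807, 9), (810, 9), (817, 9)])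
 (.pair 80 406
 (.leaf 9 [(36, 6), (41, 6), (81, 3), (83, 3), (84, 3), (85, 3), (86, 3), (133, 2), (136, 1), (138, 1), (139, 1)] [(166, 3), (187, 3), (272, 6), (276, 7), (283, 8), (418, 9), (807, 9), (810, 9), (817, 9)])
 (.pair 80 410
 (.leaf 9 [(36, 6), (41, 6), (81, 6), (83, 3), (84, 3), (85, 3), (86, 3), (133, 2), (136, 1), (138, 1), (139, 1)] [(187, 3), (272, 6), (276, 7), (283, 8), (418, 9), (807, 9), (810, 9), (817, 9)])
 (.pair 80 411
 (.leaf 9 [(36, 6), (41, 6), (81, 6), (83, 3), (84, 3), (85, 3), (86, 3), (133, 2), (136, 1), (138, 1), (139, 1)] [(187, 3), (272, 6), (276, 7), (283, 8), (418, 9), (807, 9), (810, 9), (817, 9)])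
 (.absent 80
 (.leaf 9 [(36, 6), (41, 6), (81, 6), (83, 3), (84, 3), (85, 3), (86, 3), (133, 2), (136, 1), (138, 1), (139, 1)] [(187, 3), (272, 6), (276, 7), (283, 8), (418, 9), (807, 9), (810, 9), (817, 9)]))))))))))))))))))))))
 (.pair 78 83
 (.leaf 9 [(36, 6), (41, 6), (80, 3), (81, 3), (82, 3), (84, 3), (85, 3), (86, 3), (133, 2), (136, 1), (138, 1), (139, 1)] [(162, 3), (166, 3), (187, 3), (272, 6), (276, 7), (283, 8), (418, 9), (807, 9), (810, 9), (817, 9)])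
 (.pair 78 84
 (.leaf 9 [(36, 6), (41, 6), (80, 3), (81, 3), (82, 3), (83, 3), (85, 3), (86, 3), (133, 2), (136, 1), (138, 1), (139, 1)] [(162, 3), (166, 3), (187, 3), (272, 6), (276, 7), (283, 8), (418, 9), (807, 9), (810, 9), (817, 9)])
 (.pair 78 85
 (.leaf 9 [(36, 6), (41, 6), (80, 6), (81, 3), (82, 3), (83, 3), (84, 3), (86, 3), (133, 2), (136, 1), (138, 1), (139, 1)] [(166, 3), (187, 3), (272, 6), (276, 7), (283, 8), (418, 9), (807, 9), (810, 9), (817, 9)])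
 (.pair 78 86
 (.leaf 9 [(36, 6), (41, 6), (80, 6), (81, 3), (82, 3), (83, 3), (84, 3), (85, 3), (133, 2), (136, 1), (138, 1), (139, 1)] [(166, 3), (187, 3), (272, 6), (276, 7), (283, 8), (418, 9), (807, 9), (810, 9), (817, 9)])
 (.pair 78 133
 (.leaf 6 [(36, 4), (41, 4), (80, 4), (81, 2), (82, 2), (83, 2), (84, 2), (85, 2), (86, 2), (136, 1), (138, 1), (139, 1)] [(166, 2), (187, 2), (272, 4), (276, 4), (283, 5), (418, 6), (807, 6), (810, 6), (817, 6)])
 (.pair 78 136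
 (.leaf 3 [(36, 2), (41, 2), (80, 2), (81, 1), (82, 1), (83, 1), (84, 1), (85, 1), (86, 1)] [(166, 1), (187, 1), (272, 3), (276, 3), (283, 3), (418, 3), (807, 3), (810, 3), (817, 3)])
 (.pair 78 138
 (.leaf 3 [(36, 2), (41, 2), (80, 2), (81, 1), (82, 1), (83, 1), (84, 1), (85, 1), (86, 1)] [(166, 1), (187, 1), (272, 3), (276, 3), (283, 3), (418, 3), (807, 3), (810, 3), (817, 3)])
 (.pair 78 139
 (.leaf 3 [(36, 2), (41, 2), (80, 2), (81, 1), (82, 1), (83, 1), (84, 1), (85, 1), (86, 1)] [(166, 1), (187, 1), (272, 3), (276, 3), (283, 3), (418, 3), (807, 3), (810, 3), (817, 3)])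
 (.pair 78 141
 (.leaf 3 [(36, 2), (41, 2), (80, 2), (81, 1), (82, 1), (83, 1), (84, 1), (85, 1), (86, 1)] [(166, 1), (187, 1), (272, 3), (276, 3), (283, 3), (418, 3), (807, 3), (810, 3), (817, 3)])
 (.pair 78 143
 (.leaf 3 [(36, 2), (41, 2), (80, 2), (81, 1), (82, 1), (83, 1), (84, 1), (85, 1), (86, 1)] [(166, 1), (187, 1), (272, 3), (276, 3), (283, 3), (418, 3), (807, 3), (810, 3), (817, 3)])
 (.pair 78 144
 (.leaf 3 [(36, 2), (41, 2), (80, 2), (81, 1), (82, 1), (83, 1), (84, 1), (85, 1), (86, 1)] [(166, 1), (187, 1), (272, 3), (276, 3), (283, 3), (418, 3), (807, 3), (810, 3), (817, 3)])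
 (.pair 78 400
 (.leaf 9 [(36, 6), (41, 6), (80, 6), (81, 3), (82, 3), (83, 3), (84, 3), (85, 3), (86, 3), (133, 2), (136, 1), (138, 1), (139, 1)] [(166, 3), (187, 3), (272, 6), (276, 7), (283, 8), (418, 9), (807, 9), (810, 9), (817, 9)])
 (.pair 78 403
 (.leaf 9 [(36, 6), (41, 6), (80, 6), (81, 3), (82, 3), (83, 3), (84, 3), (85, 3), (86, 3), (133, 2), (136, 1), (138, 1), (139, 1)] [(166, 3), (187, 3), (272, 6), (276, 7), (283, 8), (418, 9), (807, 9), (810, 9), (817, 9)])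
 (.pair 78 405
 (.leaf 9 [(36, 6), (41, 6), (80, 6), (81, 3), (82, 3), (83, 3), (84, 3), (85, 3), (86, 3), (133, 2), (136, 1), (138, 1), (139, 1)] [(166, 3), (187, 3), (272, 6), (276, 7), (283, 8), (418, 9), (807, 9), (810, 9), (817, 9)])
 (.pair 78 406
 (.leaf 9 [(36, 6), (41, 6), (80, 6), (81, 3), (82, 3), (83, 3), (84, 3), (85, 3), (86, 3), (133, 2), (136, 1), (138, 1), (139, 1)] [(166, 3), (187, 3), (272, 6), (276, 7), (283, 8), (418, 9), (807, 9), (810, 9), (817, 9)])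
 (.pair 78 410
 (.leaf 9 [(36, 6), (41, 6), (80, 6), (81, 3), (82, 3), (83, 3), (84, 3), (85, 3), (86, 3), (133, 2), (136, 1), (138, 1), (139, 1)] [(166, 3), (187, 3), (272, 6), (276, 7), (283, 8), (418, 9), (807, 9), (810, 9), (817, 9)])
 (.pair 78 411
 (.leaf 9 [(36, 6), (41, 6), (80, 6), (81, 3), (82, 3), (83, 3), (84, 3), (85, 3), (86, 3), (133, 2), (136, 1), (138, 1), (139, 1)] [(166, 3), (187, 3), (272, 6), (276, 7), (283, 8), (418, 9), (807, 9), (810, 9), (817, 9)])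
 (.absent 78
 (.leaf 9 [(36, 6), (41, 6), (80, 6), (81, 3), (82, 3), (83, 3), (84, 3), (85, 3), (86, 3), (133, 2), (136, 1), (138, 1), (139, 1)] [(166, 3), (187, 3), (272, 6), (276, 7), (283, 8), (418, 9), (807, 9), (810, 9), (817, 9)]))))))))))))))))))))

def certFifteen_21 : Cert :=
 (.pair 70 70
 (.pair 78 36
 (.leaf 18 [(41, 12), (80, 9), (81, 9), (82, 9), (83, 6), (84, 6), (85, 6), (86, 6), (133, 4), (136, 2), (138, 2), (139, 2)] [(166, 3), (187, 6), (272, 12), (276, 14), (283, 16), (418, 18), (807, 18), (810, 18), (817, 18)])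
 (.pair 78 41
 (.leaf 18 [(36, 12), (80, 9), (81, 9), (82, 9), (83, 6), (84, 6), (85, 6), (86, 6), (133, 4), (136, 2), (138, 2), (139, 2)] [(166, 3), (187, 6), (272, 12), (276, 14), (283, 16), (418, 18), (807, 18), (810, 18), (817, 18)])
 (.pair 78 80
 (.leaf 9 [(36, 6), (41, 6), (81, 3), (82, 3), (83, 3), (84, 3), (85, 3), (86, 3), (133, 2), (136, 1), (138, 1), (139, 1)] [(166, 3), (187, 3), (272, 6), (276, 7), (283, 8), (418, 9), (807, 9), (810, 9), (817, 9)])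
 (.pair 78 81
 (.pair 80 36
 (.leaf 9 [(41, 6), (82, 6), (83, 3), (84, 3), (85, 3), (86, 3), (133, 2), (136, 1), (138, 1), (139, 1)] [(187, 3), (272, 6), (276, 7), (283, 8), (418, 9), (807, 9), (810, 9), (817, 9)])
 (.pair 80 41
 (.leaf 9 [(36, 6), (82, 6), (83, 3), (84, 3), (85, 3), (86, 3), (133, 2), (136, 1), (138, 1), (139, 1)] [(187, 3), (272, 6), (276, 7), (283, 8), (418, 9), (807, 9), (810, 9), (817, 9)])
 (.pair 80 82
 (.leaf 9 [(36, 6), (41, 6), (83, 3), (84, 3), (85, 3), (86, 3), (133, 2), (136, 1), (138, 1), (139, 1)] [(187, 3), (272, 6), (276, 7), (283, 8), (418, 9), (807, 9), (810, 9), (817, 9)])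
 (.pair 80 83
 (.leaf 9 [(36, 6), (41, 6), (82, 3), (84, 3), (85, 3), (86, 3), (133, 2), (136, 1), (138, 1), (139, 1)] [(166, 3), (187, 3), (272, 6), (276, 7), (283, 8), (418, 9), (807, 9), (810, 9), (817, 9)])
 (.pair 80 84
 (.leaf 9 [(36, 6), (41, 6), (82, 3), (83, 3), (85, 3), (86, 3), (133, 2), (136, 1), (138, 1), (139, 1)] [(166, 3), (187, 3), (272, 6), (276, 7), (283, 8), (418, 9), (807, 9), (810, 9), (817, 9)])
 (.pair 80 85
 (.leaf 9 [(36, 6), (41, 6), (82, 3), (83, 3), (84, 3), (86, 3), (133, 2), (136, 1), (138, 1), (139, 1)] [(166, 3), (187, 3), (272, 6), (276, 7), (283, 8), (418, 9), (807, 9), (810, 9), (817, 9)])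
 (.pair 80 86
 (.leaf 9 [(36, 6), (41, 6), (82, 3), (83, 3), (84, 3), (85, 3), (133, 2), (136, 1), (138, 1), (139, 1)] [(166, 3), (187, 3), (272, 6), (276, 7), (283, 8), (418, 9), (807, 9), (810, 9), (817, 9)])
 (.pair 80 133
 (.leaf 3 [(36, 2), (41, 2), (82, 1), (83, 1), (84, 1), (85, 1), (86, 1)] [(166, 1), (187, 1), (272, 3), (276, 3), (283, 3), (418, 3), (807, 3), (810, 3), (817, 3)])
 (.pair 80 136
 (.leaf 3 [(36, 2), (41, 2), (82, 1), (83, 1), (84, 1), (85, 1), (86, 1)] [(166, 1), (187, 1), (272, 3), (276, 3), (283, 3), (418, 3), (807, 3), (810, 3), (817, 3)])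
 (.pair 80 138
 (.leaf 3 [(36, 2), (41, 2), (82, 2), (83, 1), (84, 1), (85, 1), (86, 1)] [(187, 1), (272, 3), (276, 3), (283, 3), (418, 3), (807, 3), (810, 3), (817, 3)])
 (.pair 80 139
 (.leaf 3 [(36, 2), (41, 2), (82, 2), (83, 1), (84, 1), (85, 1), (86, 1)] [(187, 1), (272, 3), (276, 3), (283, 3), (418, 3), (807, 3), (810, 3), (817, 3)])
 (.pair 80 141
 (.leaf 3 [(36, 2), (41, 2), (82, 2), (83, 1), (84, 1), (85, 1), (86, 1)] [(187, 1), (272, 3), (276, 3), (283, 3), (418, 3), (807, 3), (810, 3), (817, 3)])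
 (.pair 80 143
 (.leaf 3 [(36, 2), (41, 2), (82, 2), (83, 1), (84, 1), (85, 1), (86, 1)] [(187, 1), (272, 3), (276, 3), (283, 3), (418, 3), (807, 3), (810, 3), (817, 3)])
 (.pair 80 144
 (.leaf 3 [(36, 2), (41, 2), (82, 2), (83, 1), (84, 1), (85, 1), (86, 1)] [(187, 1), (272, 3), (276, 3), (283, 3), (418, 3), (807, 3), (810, 3), (817, 3)])
 (.pair 80 400
 (.leaf 9 [(36, 6), (41, 6), (82, 3), (83, 3), (84, 3), (85, 3), (86, 3), (133, 2), (136, 1), (138, 1), (139, 1)] [(166, 3), (187, 3), (272, 6), (276, 7), (283, 8), (418, 9), (807, 9), (810, 9), (817, 9)])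
 (.pair 80 403
 (.leaf 9 [(36, 6), (41, 6), (82, 3), (83, 3), (84, 3), (85, 3), (86, 3), (133, 2), (136, 1), (138, 1), (139, 1)] [(166, 3), (187, 3), (272, 6), (276, 7), (283, 8), (418, 9), (807, 9), (810, 9), (817, 9)])
 (.pair 80 405
 (.leaf 9 [(36, 6), (41, 6), (82, 3), (83, 3), (84, 3), (85, 3), (86, 3), (133, 2), (136, 1), (138, 1), (139, 1)] [(166, 3), (187, 3), (272, 6), (276, 7), (283, 8), (418, 9), (807, 9), (810, 9), (817, 9)])
 (.pair 80 406
 (.leaf 9 [(36, 6), (41, 6), (82, 3), (83, 3), (84, 3), (85, 3), (86, 3), (133, 2), (136, 1), (138, 1), (139, 1)] [(166, 3), (187, 3), (272, 6), (276, 7), (283, 8), (418, 9), (807, 9), (810, 9), (817, 9)])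
 (.pair 80 410
 (.leaf 9 [(36, 6), (41, 6), (82, 6), (83, 3), (84, 3), (85, 3), (86, 3), (133, 2), (136, 1), (138, 1), (139, 1)] [(187, 3), (272, 6), (276, 7), (283, 8), (418, 9), (807, 9), (810, 9), (817, 9)])
 (.pair 80 411
 (.leaf 9 [(36, 6), (41, 6), (82, 6), (83, 3), (84, 3), (85, 3), (86, 3), (133, 2), (136, 1), (138, 1), (139, 1)] [(187, 3), (272, 6), (276, 7), (283, 8), (418, 9), (807, 9), (810, 9), (817, 9)])
 (.absent 80
 (.leaf 9 [(36, 6), (41, 6), (82, 6), (83, 3), (84, 3), (85, 3), (86, 3), (133, 2), (136, 1), (138, 1), (139, 1)] [(187, 3), (272, 6), (276, 7), (283, 8), (418, 9), (807, 9), (810, 9), (817, 9)]))))))))))))))))))))))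
 certFifteen_20))))
 (.pair 70 78
 (.leaf 9 [(36, 6), (41, 6), (70, 3), (80, 3), (81, 3), (82, 3), (83, 3), (84, 3), (85, 3), (86, 3), (133, 2), (136, 1), (138, 1), (139, 1)] [(160, 3), (162, 3), (166, 3), (187, 3), (272, 6), (276, 7), (283, 8), (418, 9), (807, 9), (810, 9), (817, 9)])
 (.pair 70 80
 (.leaf 9 [(36, 6), (41, 6), (70, 3), (78, 3), (81, 3), (82, 3), (83, 3), (84, 3), (85, 3), (86, 3), (133, 2), (136, 1), (138, 1), (139, 1)] [(160, 3), (162, 3), (166, 3), (187, 3), (272, 6), (276, 7), (283, 8), (418, 9), (807, 9), (810, 9), (817, 9)])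
 (.pair 70 81
 (.leaf 9 [(36, 6), (41, 6), (70, 3), (78, 3), (80, 3), (82, 3), (83, 3), (84, 3), (85, 3), (86, 3), (133, 2), (136, 1), (138, 1), (139, 1)] [(160, 3), (162, 3), (166, 3), (187, 3), (272, 6), (276, 7), (283, 8), (418, 9), (807, 9), (810, 9), (817, 9)])
 (.pair 70 82
 (.leaf 9 [(36, 6), (41, 6), (70, 3), (78, 3), (80, 3), (81, 3), (83, 3), (84, 3), (85, 3), (86, 3), (133, 2), (136, 1), (138, 1), (139, 1)] [(160, 3), (162, 3), (166, 3), (187, 3), (272, 6), (276, 7), (283, 8), (418, 9), (807, 9), (810, 9), (817, 9)])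
 (.pair 70 83
 (.leaf 9 [(36, 6), (41, 6), (70, 3), (78, 3), (80, 3), (81, 3), (82, 3), (84, 3), (85, 3), (86, 3), (133, 2), (136, 1), (138, 1), (139, 1)] [(160, 3), (162, 3), (166, 3), (187, 3), (272, 6), (276, 7), (283, 8), (418, 9), (807, 9), (810, 9), (817, 9)])
 (.pair 70 84
 (.leaf 9 [(36, 6), (41, 6), (70, 3), (78, 3), (80, 3), (81, 3), (82, 3), (83, 3), (85, 3), (86, 3), (133, 2), (136, 1), (138, 1), (139, 1)] [(160, 3), (162, 3), (166, 3), (187, 3), (272, 6), (276, 7), (283, 8), (418, 9), (807, 9), (810, 9), (817, 9)])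
 (.pair 70 85
 (.leaf 9 [(36, 6), (41, 6), (70, 3), (78, 3), (80, 3), (81, 3), (82, 3), (83, 3), (84, 3), (86, 3), (133, 2), (136, 1), (138, 1), (139, 1)] [(160, 3), (162, 3), (166, 3), (187, 3), (272, 6), (276, 7), (283, 8), (418, 9), (807, 9), (810, 9), (817, 9)])
 (.pair 70 86
 (.leaf 9 [(36, 6), (41, 6), (70, 3), (78, 3), (80, 3), (81, 3), (82, 3), (83, 3), (84, 3), (85, 3), (133, 2), (136, 1), (138, 1), (139, 1)] [(160, 3), (162, 3), (166, 3), (187, 3), (272, 6), (276, 7), (283, 8), (418, 9), (807, 9), (810, 9), (817, 9)])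
 (.pair 70 133
 (.leaf 3 [(36, 2), (41, 2), (70, 1), (78, 1), (80, 1), (81, 1), (82, 1), (83, 1), (84, 1), (85, 1), (86, 1)] [(160, 1), (162, 1), (166, 1), (187, 1), (272, 3), (276, 3), (283, 3), (418, 3), (807, 3), (810, 3), (817, 3)])
 (.pair 70 136
 (.leaf 3 [(36, 2), (41, 2), (70, 1), (78, 1), (80, 1), (81, 1), (82, 1), (83, 1), (84, 1), (85, 1), (86, 1)] [(160, 1), (162, 1), (166, 1), (187, 1), (272, 3), (276, 3), (283, 3), (418, 3), (807, 3), (810, 3), (817, 3)])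
 (.pair 70 138
 (.leaf 3 [(36, 2), (41, 2), (70, 1), (78, 1), (80, 1), (81, 1), (82, 1), (83, 1), (84, 1), (85, 1), (86, 1)] [(160, 1), (162, 1), (166, 1), (187, 1), (272, 3), (276, 3), (283, 3), (418, 3), (807, 3), (810, 3), (817, 3)])
 (.pair 70 139
 (.leaf 3 [(36, 2), (41, 2), (70, 1), (78, 1), (80, 1), (81, 1), (82, 1), (83, 1), (84, 1), (85, 1), (86, 1)] [(160, 1), (162, 1), (166, 1), (187, 1), (272, 3), (276, 3), (283, 3), (418, 3), (807, 3), (810, 3), (817, 3)])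
 (.pair 70 141
 (.leaf 3 [(36, 2), (41, 2), (70, 1), (78, 1), (80, 1), (81, 1), (82, 1), (83, 1), (84, 1), (85, 1), (86, 1)] [(160, 1), (162, 1), (166, 1), (187, 1), (272, 3), (276, 3), (283, 3), (418, 3), (807, 3), (810, 3), (817, 3)])
 (.pair 70 143
 (.leaf 3 [(36, 2), (41, 2), (70, 1), (78, 1), (80, 1), (81, 1), (82, 1), (83, 1), (84, 1), (85, 1), (86, 1)] [(160, 1), (162, 1), (166, 1), (187, 1), (272, 3), (276, 3), (283, 3), (418, 3), (807, 3), (810, 3), (817, 3)])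
 (.pair 70 144
 (.leaf 3 [(36, 2), (41, 2), (70, 1), (78, 1), (80, 1), (81, 1), (82, 1), (83, 1), (84, 1), (85, 1), (86, 1)] [(160, 1), (162, 1), (166, 1), (187, 1), (272, 3), (276, 3), (283, 3), (418, 3), (807, 3), (810, 3), (817, 3)])
 (.pair 70 400
 (.leaf 9 [(36, 6), (41, 6), (70, 3), (78, 3), (80, 3), (81, 3), (82, 3), (83, 3), (84, 3), (85, 3), (86, 3), (133, 2), (136, 1), (138, 1), (139, 1)] [(160, 3), (162, 3), (166, 3), (187, 3), (272, 6), (276, 7), (283, 8), (418, 9), (807, 9), (810, 9), (817, 9)])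
 (.pair 70 403
 (.leaf 9 [(36, 6), (41, 6), (70, 3), (78, 3), (80, 3), (81, 3), (82, 3), (83, 3), (84, 3), (85, 3), (86, 3), (133, 2), (136, 1), (138, 1), (139, 1)] [(160, 3), (162, 3), (166, 3), (187, 3), (272, 6), (276, 7), (283, 8), (418, 9), (807, 9), (810, 9), (817, 9)])
 (.pair 70 405
 (.leaf 9 [(36, 6), (41, 6), (70, 3), (78, 3), (80, 3), (81, 3), (82, 3), (83, 3), (84, 3), (85, 3), (86, 3), (133, 2), (136, 1), (138, 1), (139, 1)] [(160, 3), (162, 3), (166, 3), (187, 3), (272, 6), (276, 7), (283, 8), (418, 9), (807, 9), (810, 9), (817, 9)])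
 (.pair 70 406
 (.leaf 9 [(36, 6), (41, 6), (70, 3), (78, 3), (80, 3), (81, 3), (82, 3), (83, 3), (84, 3), (85, 3), (86, 3), (133, 2), (136, 1), (138, 1), (139, 1)] [(160, 3), (162, 3), (166, 3), (187, 3), (272, 6), (276, 7), (283, 8), (418, 9), (807, 9), (810, 9), (817, 9)])
 (.pair 70 410
 (.leaf 9 [(36, 6), (41, 6), (70, 3), (78, 3), (80, 3), (81, 3), (82, 3), (83, 3), (84, 3), (85, 3), (86, 3), (133, 2), (136, 1), (138, 1), (139, 1)] [(160, 3), (162, 3), (166, 3), (187, 3), (272, 6), (276, 7), (283, 8), (418, 9), (807, 9), (810, 9), (817, 9)])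
 (.pair 70 411
 (.leaf 9 [(36, 6), (41, 6), (70, 3), (78, 3), (80, 3), (81, 3), (82, 3), (83, 3), (84, 3), (85, 3), (86, 3), (133, 2), (136, 1), (138, 1), (139, 1)] [(160, 3), (162, 3), (166, 3), (187, 3), (272, 6), (276, 7), (283, 8), (418, 9), (807, 9), (810, 9), (817, 9)])
 (.absent 70
 (.leaf 9 [(36, 6), (41, 6), (70, 3), (78, 3), (80, 3), (81, 3), (82, 3), (83, 3), (84, 3), (85, 3), (86, 3), (133, 2), (136, 1), (138, 1), (139, 1)] [(160, 3), (162, 3), (166, 3), (187, 3), (272, 6), (276, 7), (283, 8), (418, 9), (807, 9), (810, 9), (817, 9)]))))))))))))))))))))))))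

def certFifteen_22 : Cert :=
 (.pair 78 82
 (.pair 80 36
 (.leaf 9 [(41, 6), (81, 6), (83, 3), (84, 3), (85, 3), (86, 3), (133, 2), (136, 1), (138, 1), (139, 1)] [(187, 3), (272, 6), (276, 7), (283, 8), (418, 9), (807, 9), (810, 9), (817, 9)])
 (.pair 80 41
 (.leaf 9 [(36, 6), (81, 6), (83, 3), (84, 3), (85, 3), (86, 3), (133, 2), (136, 1), (138, 1), (139, 1)] [(187, 3), (272, 6), (276, 7), (283, 8), (418, 9), (807, 9), (810, 9), (817, 9)])
 (.pair 80 81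
 (.leaf 9 [(36, 6), (41, 6), (83, 3), (84, 3), (85, 3), (86, 3), (133, 2), (136, 1), (138, 1), (139, 1)] [(187, 3), (272, 6), (276, 7), (283, 8), (418, 9), (807, 9), (810, 9), (817, 9)])
 (.pair 80 83
 (.leaf 9 [(36, 6), (41, 6), (81, 3), (84, 3), (85, 3), (86, 3), (133, 2), (136, 1), (138, 1), (139, 1)] [(166, 3), (187, 3), (272, 6), (276, 7), (283, 8), (418, 9), (807, 9), (810, 9), (817, 9)])
 (.pair 80 84
 (.leaf 9 [(36, 6), (41, 6), (81, 3), (83, 3), (85, 3), (86, 3), (133, 2), (136, 1), (138, 1), (139, 1)] [(166, 3), (187, 3), (272, 6), (276, 7), (283, 8), (418, 9), (807, 9), (810, 9), (817, 9)])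
 (.pair 80 85
 (.leaf 9 [(36, 6), (41, 6), (81, 3), (83, 3), (84, 3), (86, 3), (133, 2), (136, 1), (138, 1), (139, 1)] [(166, 3), (187, 3), (272, 6), (276, 7), (283, 8), (418, 9), (807, 9), (810, 9), (817, 9)])
 (.pair 80 86
 (.leaf 9 [(36, 6), (41, 6), (81, 3), (83, 3), (84, 3), (85, 3), (133, 2), (136, 1), (138, 1), (139, 1)] [(166, 3), (187, 3), (272, 6), (276, 7), (283, 8), (418, 9), (807, 9), (810, 9), (817, 9)])
 (.pair 80 133
 (.leaf 3 [(36, 2), (41, 2), (81, 1), (83, 1), (84, 1), (85, 1), (86, 1)] [(166, 1), (187, 1), (272, 3), (276, 3), (283, 3), (418, 3), (807, 3), (810, 3), (817, 3)])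
 (.pair 80 136
 (.leaf 3 [(36, 2), (41, 2), (81, 1), (83, 1), (84, 1), (85, 1), (86, 1)] [(166, 1), (187, 1), (272, 3), (276, 3), (283, 3), (418, 3), (807, 3), (810, 3), (817, 3)])
 (.pair 80 138
 (.leaf 3 [(36, 2), (41, 2), (81, 2), (83, 1), (84, 1), (85, 1), (86, 1)] [(187, 1), (272, 3), (276, 3), (283, 3), (418, 3), (807, 3), (810, 3), (817, 3)])
 (.pair 80 139
 (.leaf 3 [(36, 2), (41, 2), (81, 2), (83, 1), (84, 1), (85, 1), (86, 1)] [(187, 1), (272, 3), (276, 3), (283, 3), (418, 3), (807, 3), (810, 3), (817, 3)])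
 (.pair 80 141
 (.leaf 3 [(36, 2), (41, 2), (81, 2), (83, 1), (84, 1), (85, 1), (86, 1)] [(187, 1), (272, 3), (276, 3), (283, 3), (418, 3), (807, 3), (810, 3), (817, 3)])
 (.pair 80 143
 (.leaf 3 [(36, 2), (41, 2), (81, 2), (83, 1), (84, 1), (85, 1), (86, 1)] [(187, 1), (272, 3), (276, 3), (283, 3), (418, 3), (807, 3), (810, 3), (817, 3)])
 (.pair 80 144
 (.leaf 3 [(36, 2), (41, 2), (81, 2), (83, 1), (84, 1), (85, 1), (86, 1)] [(187, 1), (272, 3), (276, 3), (283, 3), (418, 3), (807, 3), (810, 3), (817, 3)])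
 (.pair 80 400
 (.leaf 9 [(36, 6), (41, 6), (81, 3), (83, 3), (84, 3), (85, 3), (86, 3), (133, 2), (136, 1), (138, 1), (139, 1)] [(166, 3), (187, 3), (272, 6), (276, 7), (283, 8), (418, 9), (807, 9), (810, 9), (817, 9)])
 (.pair 80 403
 (.leaf 9 [(36, 6), (41, 6), (81, 3), (83, 3), (84, 3), (85, 3), (86, 3), (133, 2), (136, 1), (138, 1), (139, 1)] [(166, 3), (187, 3), (272, 6), (276, 7), (283, 8), (418, 9), (807, 9), (810, 9), (817, 9)])
 (.pair 80 405
 (.leaf 9 [(36, 6), (41, 6), (81, 3), (83, 3), (84, 3), (85, 3), (86, 3), (133, 2), (136, 1), (138, 1), (139, 1)] [(166, 3), (187, 3), (272, 6), (276, 7), (283, 8), (418, 9), (807, 9), (810, 9), (817, 9)])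
 (.pair 80 406
 (.leaf 9 [(36, 6), (41, 6), (81, 3), (83, 3), (84, 3), (85, 3), (86, 3), (133, 2), (136, 1), (138, 1), (139, 1)] [(166, 3), (187, 3), (272, 6), (276, 7), (283, 8), (418, 9), (807, 9), (810, 9), (817, 9)])
 (.pair 80 410
 (.leaf 9 [(36, 6), (41, 6), (81, 6), (83, 3), (84, 3), (85, 3), (86, 3), (133, 2), (136, 1), (138, 1), (139, 1)] [(187, 3), (272, 6), (276, 7), (283, 8), (418, 9), (807, 9), (810, 9), (817, 9)])
 (.pair 80 411
 (.leaf 9 [(36, 6), (41, 6), (81, 6), (83, 3), (84, 3), (85, 3), (86, 3), (133, 2), (136, 1), (138, 1), (139, 1)] [(187, 3), (272, 6), (276, 7), (283, 8), (418, 9), (807, 9), (810, 9), (817, 9)])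
 (.absent 80
 (.leaf 9 [(36, 6), (41, 6), (81, 6), (83, 3), (84, 3), (85, 3), (86, 3), (133, 2), (136, 1), (138, 1), (139, 1)] [(187, 3), (272, 6), (276, 7), (283, 8), (418, 9), (807, 9), (810, 9), (817, 9)]))))))))))))))))))))))
 (.pair 78 83
 (.leaf 9 [(36, 6), (41, 6), (80, 3), (81, 3), (82, 3), (84, 3), (85, 3), (86, 3), (133, 2), (136, 1), (138, 1), (139, 1)] [(162, 3), (166, 3), (187, 3), (272, 6), (276, 7), (283, 8), (418, 9), (807, 9), (810, 9), (817, 9)])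
 (.pair 78 84
 (.leaf 9 [(36, 6), (41, 6), (80, 3), (81, 3), (82, 3), (83, 3), (85, 3), (86, 3), (133, 2), (136, 1), (138, 1), (139, 1)] [(162, 3), (166, 3), (187, 3), (272, 6), (276, 7), (283, 8), (418, 9), (807, 9), (810, 9), (817, 9)])
 (.pair 78 85
 (.leaf 9 [(36, 6), (41, 6), (80, 6), (81, 3), (82, 3), (83, 3), (84, 3), (86, 3), (133, 2), (136, 1), (138, 1), (139, 1)] [(166, 3), (187, 3), (272, 6), (276, 7), (283, 8), (418, 9), (807, 9), (810, 9), (817, 9)])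
 (.pair 78 86
 (.leaf 9 [(36, 6), (41, 6), (80, 6), (81, 3), (82, 3), (83, 3), (84, 3), (85, 3), (133, 2), (136, 1), (138, 1), (139, 1)] [(166, 3), (187, 3), (272, 6), (276, 7), (283, 8), (418, 9), (807, 9), (810, 9), (817, 9)])
 (.pair 78 133
 (.leaf 6 [(36, 4), (41, 4), (80, 4), (81, 2), (82, 2), (83, 2), (84, 2), (85, 2), (86, 2), (136, 1), (138, 1), (139, 1)] [(166, 2), (187, 2), (272, 4), (276, 4), (283, 5), (418, 6), (807, 6), (810, 6), (817, 6)])
 (.pair 78 136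
 (.leaf 3 [(36, 2), (41, 2), (80, 2), (81, 1), (82, 1), (83, 1), (84, 1), (85, 1), (86, 1)] [(166, 1), (187, 1), (272, 3), (276, 3), (283, 3), (418, 3), (807, 3), (810, 3), (817, 3)])
 (.pair 78 138
 (.leaf 3 [(36, 2), (41, 2), (80, 2), (81, 1), (82, 1), (83, 1), (84, 1), (85, 1), (86, 1)] [(166, 1), (187, 1), (272, 3), (276, 3), (283, 3), (418, 3), (807, 3), (810, 3), (817, 3)])
 (.pair 78 139
 (.leaf 3 [(36, 2), (41, 2), (80, 2), (81, 1), (82, 1), (83, 1), (84, 1), (85, 1), (86, 1)] [(166, 1), (187, 1), (272, 3), (276, 3), (283, 3), (418, 3), (807, 3), (810, 3), (817, 3)])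
 (.pair 78 141
 (.leaf 3 [(36, 2), (41, 2), (80, 2), (81, 1), (82, 1), (83, 1), (84, 1), (85, 1), (86, 1)] [(166, 1), (187, 1), (272, 3), (276, 3), (283, 3), (418, 3), (807, 3), (810, 3), (817, 3)])
 (.pair 78 143
 (.leaf 3 [(36, 2), (41, 2), (80, 2), (81, 1), (82, 1), (83, 1), (84, 1), (85, 1), (86, 1)] [(166, 1), (187, 1), (272, 3), (276, 3), (283, 3), (418, 3), (807, 3), (810, 3), (817, 3)])
 (.pair 78 144
 (.leaf 3 [(36, 2), (41, 2), (80, 2), (81, 1), (82, 1), (83, 1), (84, 1), (85, 1), (86, 1)] [(166, 1), (187, 1), (272, 3), (276, 3), (283, 3), (418, 3), (807, 3), (810, 3), (817, 3)])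
 (.pair 78 400
 (.leaf 9 [(36, 6), (41, 6), (80, 6), (81, 3), (82, 3), (83, 3), (84, 3), (85, 3), (86, 3), (133, 2), (136, 1), (138, 1), (139, 1)] [(166, 3), (187, 3), (272, 6), (276, 7), (283, 8), (418, 9), (807, 9), (810, 9), (817, 9)])
 (.pair 78 403
 (.leaf 9 [(36, 6), (41, 6), (80, 6), (81, 3), (82, 3), (83, 3), (84, 3), (85, 3), (86, 3), (133, 2), (136, 1), (138, 1), (139, 1)] [(166, 3), (187, 3), (272, 6), (276, 7), (283, 8), (418, 9), (807, 9), (810, 9), (817, 9)])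
 (.pair 78 405
 (.leaf 9 [(36, 6), (41, 6), (80, 6), (81, 3), (82, 3), (83, 3), (84, 3), (85, 3), (86, 3), (133, 2), (136, 1), (138, 1), (139, 1)] [(166, 3), (187, 3), (272, 6), (276, 7), (283, 8), (418, 9), (807, 9), (810, 9), (817, 9)])
 (.pair 78 406
 (.leaf 9 [(36, 6), (41, 6), (80, 6), (81, 3), (82, 3), (83, 3), (84, 3), (85, 3), (86, 3), (133, 2), (136, 1), (138, 1), (139, 1)] [(166, 3), (187, 3), (272, 6), (276, 7), (283, 8), (418, 9), (807, 9), (810, 9), (817, 9)])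
 (.pair 78 410
 (.leaf 9 [(36, 6), (41, 6), (80, 6), (81, 3), (82, 3), (83, 3), (84, 3), (85, 3), (86, 3), (133, 2), (136, 1), (138, 1), (139, 1)] [(166, 3), (187, 3), (272, 6), (276, 7), (283, 8), (418, 9), (807, 9), (810, 9), (817, 9)])
 (.pair 78 411
 (.leaf 9 [(36, 6), (41, 6), (80, 6), (81, 3), (82, 3), (83, 3), (84, 3), (85, 3), (86, 3), (133, 2), (136, 1), (138, 1), (139, 1)] [(166, 3), (187, 3), (272, 6), (276, 7), (283, 8), (418, 9), (807, 9), (810, 9), (817, 9)])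
 (.absent 78
 (.leaf 9 [(36, 6), (41, 6), (80, 6), (81, 3), (82, 3), (83, 3), (84, 3), (85, 3), (86, 3), (133, 2), (136, 1), (138, 1), (139, 1)] [(166, 3), (187, 3), (272, 6), (276, 7), (283, 8), (418, 9), (807, 9), (810, 9), (817, 9)]))))))))))))))))))))

def certFifteen_23 : Cert :=
 (.pair 68 70
 (.pair 78 36
 (.leaf 18 [(41, 12), (80, 9), (81, 9), (82, 9), (83, 6), (84, 6), (85, 6), (86, 6), (133, 4), (136, 2), (138, 2), (139, 2)] [(166, 3), (187, 6), (272, 12), (276, 14), (283, 16), (418, 18), (807, 18), (810, 18), (817, 18)])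
 (.pair 78 41
 (.leaf 18 [(36, 12), (80, 9), (81, 9), (82, 9), (83, 6), (84, 6), (85, 6), (86, 6), (133, 4), (136, 2), (138, 2), (139, 2)] [(166, 3), (187, 6), (272, 12), (276, 14), (283, 16), (418, 18), (807, 18), (810, 18), (817, 18)])
 (.pair 78 80
 (.leaf 9 [(36, 6), (41, 6), (81, 3), (82, 3), (83, 3), (84, 3), (85, 3), (86, 3), (133, 2), (136, 1), (138, 1), (139, 1)] [(166, 3), (187, 3), (272, 6), (276, 7), (283, 8), (418, 9), (807, 9), (810, 9), (817, 9)])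
 (.pair 78 81
 (.pair 80 36
 (.leaf 9 [(41, 6), (82, 6), (83, 3), (84, 3), (85, 3), (86, 3), (133, 2), (136, 1), (138, 1), (139, 1)] [(187, 3), (272, 6), (276, 7), (283, 8), (418, 9), (807, 9), (810, 9), (817, 9)])
 (.pair 80 41
 (.leaf 9 [(36, 6), (82, 6), (83, 3), (84, 3), (85, 3), (86, 3), (133, 2), (136, 1), (138, 1), (139, 1)] [(187, 3), (272, 6), (276, 7), (283, 8), (418, 9), (807, 9), (810, 9), (817, 9)])
 (.pair 80 82
 (.leaf 9 [(36, 6), (41, 6), (83, 3), (84, 3), (85, 3), (86, 3), (133, 2), (136, 1), (138, 1), (139, 1)] [(187, 3), (272, 6), (276, 7), (283, 8), (418, 9), (807, 9), (810, 9), (817, 9)])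
 (.pair 80 83
 (.leaf 9 [(36, 6), (41, 6), (82, 3), (84, 3), (85, 3), (86, 3), (133, 2), (136, 1), (138, 1), (139, 1)] [(166, 3), (187, 3), (272, 6), (276, 7), (283, 8), (418, 9), (807, 9), (810, 9), (817, 9)])
 (.pair 80 84
 (.leaf 9 [(36, 6), (41, 6), (82, 3), (83, 3), (85, 3), (86, 3), (133, 2), (136, 1), (138, 1), (139, 1)] [(166, 3), (187, 3), (272, 6), (276, 7), (283, 8), (418, 9), (807, 9), (810, 9), (817, 9)])
 (.pair 80 85
 (.leaf 9 [(36, 6), (41, 6), (82, 3), (83, 3), (84, 3), (86, 3), (133, 2), (136, 1), (138, 1), (139, 1)] [(166, 3), (187, 3), (272, 6), (276, 7), (283, 8), (418, 9), (807, 9), (810, 9), (817, 9)])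
 (.pair 80 86
 (.leaf 9 [(36, 6), (41, 6), (82, 3), (83, 3), (84, 3), (85, 3), (133, 2), (136, 1), (138, 1), (139, 1)] [(166, 3), (187, 3), (272, 6), (276, 7), (283, 8), (418, 9), (807, 9), (810, 9), (817, 9)])
 (.pair 80 133
 (.leaf 3 [(36, 2), (41, 2), (82, 1), (83, 1), (84, 1), (85, 1), (86, 1)] [(166, 1), (187, 1), (272, 3), (276, 3), (283, 3), (418, 3), (807, 3), (810, 3), (817, 3)])
 (.pair 80 136
 (.leaf 3 [(36, 2), (41, 2), (82, 1), (83, 1), (84, 1), (85, 1), (86, 1)] [(166, 1), (187, 1), (272, 3), (276, 3), (283, 3), (418, 3), (807, 3), (810, 3), (817, 3)])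
 (.pair 80 138
 (.leaf 3 [(36, 2), (41, 2), (82, 2), (83, 1), (84, 1), (85, 1), (86, 1)] [(187, 1), (272, 3), (276, 3), (283, 3), (418, 3), (807, 3), (810, 3), (817, 3)])
 (.pair 80 139
 (.leaf 3 [(36, 2), (41, 2), (82, 2), (83, 1), (84, 1), (85, 1), (86, 1)] [(187, 1), (272, 3), (276, 3), (283, 3), (418, 3), (807, 3), (810, 3), (817, 3)])
 (.pair 80 141
 (.leaf 3 [(36, 2), (41, 2), (82, 2), (83, 1), (84, 1), (85, 1), (86, 1)] [(187, 1), (272, 3), (276, 3), (283, 3), (418, 3), (807, 3), (810, 3), (817, 3)])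
 (.pair 80 143
 (.leaf 3 [(36, 2), (41, 2), (82, 2), (83, 1), (84, 1), (85, 1), (86, 1)] [(187, 1), (272, 3), (276, 3), (283, 3), (418, 3), (807, 3), (810, 3), (817, 3)])
 (.pair 80 144
 (.leaf 3 [(36, 2), (41, 2), (82, 2), (83, 1), (84, 1), (85, 1), (86, 1)] [(187, 1), (272, 3), (276, 3), (283, 3), (418, 3), (807, 3), (810, 3), (817, 3)])
 (.pair 80 400
 (.leaf 9 [(36, 6), (41, 6), (82, 3), (83, 3), (84, 3), (85, 3), (86, 3), (133, 2), (136, 1), (138, 1), (139, 1)] [(166, 3), (187, 3), (272, 6), (276, 7), (283, 8), (418, 9), (807, 9), (810, 9), (817, 9)])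
 (.pair 80 403
 (.leaf 9 [(36, 6), (41, 6), (82, 3), (83, 3), (84, 3), (85, 3), (86, 3), (133, 2), (136, 1), (138, 1), (139, 1)] [(166, 3), (187, 3), (272, 6), (276, 7), (283, 8), (418, 9), (807, 9), (810, 9), (817, 9)])
 (.pair 80 405
 (.leaf 9 [(36, 6), (41, 6), (82, 3), (83, 3), (84, 3), (85, 3), (86, 3), (133, 2), (136, 1), (138, 1), (139, 1)] [(166, 3), (187, 3), (272, 6), (276, 7), (283, 8), (418, 9), (807, 9), (810, 9), (817, 9)])
 (.pair 80 406
 (.leaf 9 [(36, 6), (41, 6), (82, 3), (83, 3), (84, 3), (85, 3), (86, 3), (133, 2), (136, 1), (138, 1), (139, 1)] [(166, 3), (187, 3), (272, 6), (276, 7), (283, 8), (418, 9), (807, 9), (810, 9), (817, 9)])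
 (.pair 80 410
 (.leaf 9 [(36, 6), (41, 6), (82, 6), (83, 3), (84, 3), (85, 3), (86, 3), (133, 2), (136, 1), (138, 1), (139, 1)] [(187, 3), (272, 6), (276, 7), (283, 8), (418, 9), (807, 9), (810, 9), (817, 9)])
 (.pair 80 411
 (.leaf 9 [(36, 6), (41, 6), (82, 6), (83, 3), (84, 3), (85, 3), (86, 3), (133, 2), (136, 1), (138, 1), (139, 1)] [(187, 3), (272, 6), (276, 7), (283, 8), (418, 9), (807, 9), (810, 9), (817, 9)])
 (.absent 80
 (.leaf 9 [(36, 6), (41, 6), (82, 6), (83, 3), (84, 3), (85, 3), (86, 3), (133, 2), (136, 1), (138, 1), (139, 1)] [(187, 3), (272, 6), (276, 7), (283, 8), (418, 9), (807, 9), (810, 9), (817, 9)]))))))))))))))))))))))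
 certFifteen_22))))
 (.pair 68 78
 (.leaf 9 [(36, 6), (41, 6), (70, 3), (80, 3), (81, 3), (82, 3), (83, 3), (84, 3), (85, 3), (86, 3), (133, 2), (136, 1), (138, 1), (139, 1)] [(160, 3), (162, 3), (166, 3), (187, 3), (272, 6), (276, 7), (283, 8), (418, 9), (807, 9), (810, 9), (817, 9)])
 (.pair 68 80
 (.leaf 9 [(36, 6), (41, 6), (70, 3), (78, 3), (81, 3), (82, 3), (83, 3), (84, 3), (85, 3), (86, 3), (133, 2), (136, 1), (138, 1), (139, 1)] [(160, 3), (162, 3), (166, 3), (187, 3), (272, 6), (276, 7), (283, 8), (418, 9), (807, 9), (810, 9), (817, 9)])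
 (.pair 68 81
 (.leaf 9 [(36, 6), (41, 6), (70, 3), (78, 3), (80, 3), (82, 3), (83, 3), (84, 3), (85, 3), (86, 3), (133, 2), (136, 1), (138, 1), (139, 1)] [(160, 3), (162, 3), (166, 3), (187, 3), (272, 6), (276, 7), (283, 8), (418, 9), (807, 9), (810, 9), (817, 9)])
 (.pair 68 82
 (.leaf 9 [(36, 6), (41, 6), (70, 3), (78, 3), (80, 3), (81, 3), (83, 3), (84, 3), (85, 3), (86, 3), (133, 2), (136, 1), (138, 1), (139, 1)] [(160, 3), (162, 3), (166, 3), (187, 3), (272, 6), (276, 7), (283, 8), (418, 9), (807, 9), (810, 9), (817, 9)])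
 (.pair 68 83
 (.leaf 9 [(36, 6), (41, 6), (70, 3), (78, 3), (80, 3), (81, 3), (82, 3), (84, 3), (85, 3), (86, 3), (133, 2), (136, 1), (138, 1), (139, 1)] [(160, 3), (162, 3), (166, 3), (187, 3), (272, 6), (276, 7), (283, 8), (418, 9), (807, 9), (810, 9), (817, 9)])
 (.pair 68 84
 (.leaf 9 [(36, 6), (41, 6), (70, 3), (78, 3), (80, 3), (81, 3), (82, 3), (83, 3), (85, 3), (86, 3), (133, 2), (136, 1), (138, 1), (139, 1)] [(160, 3), (162, 3), (166, 3), (187, 3), (272, 6), (276, 7), (283, 8), (418, 9), (807, 9), (810, 9), (817, 9)])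
 (.pair 68 85
 (.leaf 9 [(36, 6), (41, 6), (70, 3), (78, 3), (80, 3), (81, 3), (82, 3), (83, 3), (84, 3), (86, 3), (133, 2), (136, 1), (138, 1), (139, 1)] [(160, 3), (162, 3), (166, 3), (187, 3), (272, 6), (276, 7), (283, 8), (418, 9), (807, 9), (810, 9), (817, 9)])
 (.pair 68 86
 (.leaf 9 [(36, 6), (41, 6), (70, 3), (78, 3), (80, 3), (81, 3), (82, 3), (83, 3), (84, 3), (85, 3), (133, 2), (136, 1), (138, 1), (139, 1)] [(160, 3), (162, 3), (166, 3), (187, 3), (272, 6), (276, 7), (283, 8), (418, 9), (807, 9), (810, 9), (817, 9)])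
 (.pair 68 133
 (.leaf 3 [(36, 2), (41, 2), (70, 1), (78, 1), (80, 1), (81, 1), (82, 1), (83, 1), (84, 1), (85, 1), (86, 1)] [(160, 1), (162, 1), (166, 1), (187, 1), (272, 3), (276, 3), (283, 3), (418, 3), (807, 3), (810, 3), (817, 3)])
 (.pair 68 136
 (.leaf 3 [(36, 2), (41, 2), (70, 1), (78, 1), (80, 1), (81, 1), (82, 1), (83, 1), (84, 1), (85, 1), (86, 1)] [(160, 1), (162, 1), (166, 1), (187, 1), (272, 3), (276, 3), (283, 3), (418, 3), (807, 3), (810, 3), (817, 3)])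
 (.pair 68 138
 (.leaf 3 [(36, 2), (41, 2), (70, 1), (78, 1), (80, 1), (81, 1), (82, 1), (83, 1), (84, 1), (85, 1), (86, 1)] [(160, 1), (162, 1), (166, 1), (187, 1), (272, 3), (276, 3), (283, 3), (418, 3), (807, 3), (810, 3), (817, 3)])
 (.pair 68 139
 (.leaf 3 [(36, 2), (41, 2), (70, 1), (78, 1), (80, 1), (81, 1), (82, 1), (83, 1), (84, 1), (85, 1), (86, 1)] [(160, 1), (162, 1), (166, 1), (187, 1), (272, 3), (276, 3), (283, 3), (418, 3), (807, 3), (810, 3), (817, 3)])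
 (.pair 68 141
 (.leaf 3 [(36, 2), (41, 2), (70, 1), (78, 1), (80, 1), (81, 1), (82, 1), (83, 1), (84, 1), (85, 1), (86, 1)] [(160, 1), (162, 1), (166, 1), (187, 1), (272, 3), (276, 3), (283, 3), (418, 3), (807, 3), (810, 3), (817, 3)])
 (.pair 68 143
 (.leaf 3 [(36, 2), (41, 2), (70, 1), (78, 1), (80, 1), (81, 1), (82, 1), (83, 1), (84, 1), (85, 1), (86, 1)] [(160, 1), (162, 1), (166, 1), (187, 1), (272, 3), (276, 3), (283, 3), (418, 3), (807, 3), (810, 3), (817, 3)])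
 (.pair 68 144
 (.leaf 3 [(36, 2), (41, 2), (70, 1), (78, 1), (80, 1), (81, 1), (82, 1), (83, 1), (84, 1), (85, 1), (86, 1)] [(160, 1), (162, 1), (166, 1), (187, 1), (272, 3), (276, 3), (283, 3), (418, 3), (807, 3), (810, 3), (817, 3)])
 (.pair 68 400
 (.leaf 9 [(36, 6), (41, 6), (70, 3), (78, 3), (80, 3), (81, 3), (82, 3), (83, 3), (84, 3), (85, 3), (86, 3), (133, 2), (136, 1), (138, 1), (139, 1)] [(160, 3), (162, 3), (166, 3), (187, 3), (272, 6), (276, 7), (283, 8), (418, 9), (807, 9), (810, 9), (817, 9)])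
 (.pair 68 403
 (.leaf 9 [(36, 6), (41, 6), (70, 3), (78, 3), (80, 3), (81, 3), (82, 3), (83, 3), (84, 3), (85, 3), (86, 3), (133, 2), (136, 1), (138, 1), (139, 1)] [(160, 3), (162, 3), (166, 3), (187, 3), (272, 6), (276, 7), (283, 8), (418, 9), (807, 9), (810, 9), (817, 9)])
 (.pair 68 405
 (.leaf 9 [(36, 6), (41, 6), (70, 3), (78, 3), (80, 3), (81, 3), (82, 3), (83, 3), (84, 3), (85, 3), (86, 3), (133, 2), (136, 1), (138, 1), (139, 1)] [(160, 3), (162, 3), (166, 3), (187, 3), (272, 6), (276, 7), (283, 8), (418, 9), (807, 9), (810, 9), (817, 9)])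
 (.pair 68 406
 (.leaf 9 [(36, 6), (41, 6), (70, 3), (78, 3), (80, 3), (81, 3), (82, 3), (83, 3), (84, 3), (85, 3), (86, 3), (133, 2), (136, 1), (138, 1), (139, 1)] [(160, 3), (162, 3), (166, 3), (187, 3), (272, 6), (276, 7), (283, 8), (418, 9), (807, 9), (810, 9), (817, 9)])
 (.pair 68 410
 (.leaf 9 [(36, 6), (41, 6), (70, 3), (78, 3), (80, 3), (81, 3), (82, 3), (83, 3), (84, 3), (85, 3), (86, 3), (133, 2), (136, 1), (138, 1), (139, 1)] [(160, 3), (162, 3), (166, 3), (187, 3), (272, 6), (276, 7), (283, 8), (418, 9), (807, 9), (810, 9), (817, 9)])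
 (.pair 68 411
 (.leaf 9 [(36, 6), (41, 6), (70, 3), (78, 3), (80, 3), (81, 3), (82, 3), (83, 3), (84, 3), (85, 3), (86, 3), (133, 2), (136, 1), (138, 1), (139, 1)] [(160, 3), (162, 3), (166, 3), (187, 3), (272, 6), (276, 7), (283, 8), (418, 9), (807, 9), (810, 9), (817, 9)])
 (.absent 68
 (.leaf 9 [(36, 6), (41, 6), (70, 3), (78, 3), (80, 3), (81, 3), (82, 3), (83, 3), (84, 3), (85, 3), (86, 3), (133, 2), (136, 1), (138, 1), (139, 1)] [(160, 3), (162, 3), (166, 3), (187, 3), (272, 6), (276, 7), (283, 8), (418, 9), (807, 9), (810, 9), (817, 9)]))))))))))))))))))))))))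

def certFifteen_24 : Cert :=
 (.pair 60 78
 (.leaf 9 [(36, 6), (41, 6), (68, 3), (70, 3), (80, 3), (81, 3), (82, 3), (83, 3), (84, 3), (85, 3), (86, 3), (133, 2), (136, 1), (138, 1), (139, 1)] [(145, 3), (160, 3), (162, 3), (166, 3), (187, 3), (272, 6), (276, 7), (283, 8), (418, 9), (807, 9), (810, 9), (817, 9)])
 (.pair 60 80
 (.leaf 9 [(36, 6), (41, 6), (68, 3), (70, 3), (78, 3), (81, 3), (82, 3), (83, 3), (84, 3), (85, 3), (86, 3), (133, 2), (136, 1), (138, 1), (139, 1)] [(145, 3), (160, 3), (162, 3), (166, 3), (187, 3), (272, 6), (276, 7), (283, 8), (418, 9), (807, 9), (810, 9), (817, 9)])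
 (.pair 60 81
 (.leaf 9 [(36, 6), (41, 6), (68, 3), (70, 3), (78, 3), (80, 3), (82, 3), (83, 3), (84, 3), (85, 3), (86, 3), (133, 2), (136, 1), (138, 1), (139, 1)] [(145, 3), (160, 3), (162, 3), (166, 3), (187, 3), (272, 6), (276, 7), (283, 8), (418, 9), (807, 9), (810, 9), (817, 9)])
 (.pair 60 82
 (.leaf 9 [(36, 6), (41, 6), (68, 3), (70, 3), (78, 3), (80, 3), (81, 3), (83, 3), (84, 3), (85, 3), (86, 3), (133, 2), (136, 1), (138, 1), (139, 1)] [(145, 3), (160, 3), (162, 3), (166, 3), (187, 3), (272, 6), (276, 7), (283, 8), (418, 9), (807, 9), (810, 9), (817, 9)])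
 (.pair 60 83
 (.leaf 9 [(36, 6), (41, 6), (68, 3), (70, 3), (78, 3), (80, 3), (81, 3), (82, 3), (84, 3), (85, 3), (86, 3), (133, 2), (136, 1), (138, 1), (139, 1)] [(145, 3), (160, 3), (162, 3), (166, 3), (187, 3), (272, 6), (276, 7), (283, 8), (418, 9), (807, 9), (810, 9), (817, 9)])
 (.pair 60 84
 (.leaf 9 [(36, 6), (41, 6), (68, 3), (70, 3), (78, 3), (80, 3), (81, 3), (82, 3), (83, 3), (85, 3), (86, 3), (133, 2), (136, 1), (138, 1), (139, 1)] [(145, 3), (160, 3), (162, 3), (166, 3), (187, 3), (272, 6), (276, 7), (283, 8), (418, 9), (807, 9), (810, 9), (817, 9)])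
 (.pair 60 85
 (.leaf 9 [(36, 6), (41, 6), (68, 3), (70, 3), (78, 3), (80, 3), (81, 3), (82, 3), (83, 3), (84, 3), (86, 3), (133, 2), (136, 1), (138, 1), (139, 1)] [(145, 3), (160, 3), (162, 3), (166, 3), (187, 3), (272, 6), (276, 7), (283, 8), (418, 9), (807, 9), (810, 9), (817, 9)])
 (.pair 60 86
 (.leaf 9 [(36, 6), (41, 6), (68, 3), (70, 3), (78, 3), (80, 3), (81, 3), (82, 3), (83, 3), (84, 3), (85, 3), (133, 2), (136, 1), (138, 1), (139, 1)] [(145, 3), (160, 3), (162, 3), (166, 3), (187, 3), (272, 6), (276, 7), (283, 8), (418, 9), (807, 9), (810, 9), (817, 9)])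
 (.pair 60 133
 (.leaf 6 [(36, 4), (41, 4), (68, 2), (70, 2), (78, 2), (80, 2), (81, 2), (82, 2), (83, 2), (84, 2), (85, 2), (86, 2), (136, 1), (138, 1), (139, 1)] [(145, 2), (160, 2), (162, 2), (166, 2), (187, 2), (272, 4), (276, 4), (283, 5), (418, 6), (807, 6), (810, 6), (817, 6)])
 (.pair 60 136
 (.leaf 3 [(36, 2), (41, 2), (68, 1), (70, 1), (78, 1), (80, 1), (81, 1), (82, 1), (83, 1), (84, 1), (85, 1), (86, 1), (133, 1)] [(145, 1), (160, 1), (162, 1), (166, 1), (187, 1), (272, 2), (276, 2), (283, 3), (418, 3), (807, 3), (810, 3), (817, 3)])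
 (.pair 60 138
 (.leaf 3 [(36, 2), (41, 2), (68, 1), (70, 1), (78, 1), (80, 1), (81, 1), (82, 1), (83, 1), (84, 1), (85, 1), (86, 1)] [(145, 1), (160, 1), (162, 1), (166, 1), (187, 1), (272, 3), (276, 3), (283, 3), (418, 3), (807, 3), (810, 3), (817, 3)])
 (.pair 60 139
 (.leaf 3 [(36, 2), (41, 2), (68, 1), (70, 1), (78, 1), (80, 1), (81, 1), (82, 1), (83, 1), (84, 1), (85, 1), (86, 1)] [(145, 1), (160, 1), (162, 1), (166, 1), (187, 1), (272, 3), (276, 3), (283, 3), (418, 3), (807, 3), (810, 3), (817, 3)])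
 (.pair 60 141
 (.leaf 3 [(36, 2), (41, 2), (68, 1), (70, 1), (78, 1), (80, 1), (81, 1), (82, 1), (83, 1), (84, 1), (85, 1), (86, 1)] [(145, 1), (160, 1), (162, 1), (166, 1), (187, 1), (272, 3), (276, 3), (283, 3), (418, 3), (807, 3), (810, 3), (817, 3)])
 (.pair 60 143
 (.leaf 3 [(36, 2), (41, 2), (68, 1), (70, 1), (78, 1), (80, 1), (81, 1), (82, 1), (83, 1), (84, 1), (85, 1), (86, 1)] [(145, 1), (160, 1), (162, 1), (166, 1), (187, 1), (272, 3), (276, 3), (283, 3), (418, 3), (807, 3), (810, 3), (817, 3)])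
 (.pair 60 144
 (.leaf 3 [(36, 2), (41, 2), (68, 1), (70, 1), (78, 1), (80, 1), (81, 1), (82, 1), (83, 1), (84, 1), (85, 1), (86, 1)] [(145, 1), (160, 1), (162, 1), (166, 1), (187, 1), (272, 3), (276, 3), (283, 3), (418, 3), (807, 3), (810, 3), (817, 3)])
 (.pair 60 400
 (.leaf 9 [(36, 6), (41, 6), (68, 3), (70, 3), (78, 3), (80, 3), (81, 3), (82, 3), (83, 3), (84, 3), (85, 3), (86, 3), (133, 2), (136, 1), (138, 1), (139, 1)] [(145, 3), (160, 3), (162, 3), (166, 3), (187, 3), (272, 6), (276, 7), (283, 8), (418, 9), (807, 9), (810, 9), (817, 9)])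
 (.pair 60 403
 (.leaf 9 [(36, 6), (41, 6), (68, 3), (70, 3), (78, 3), (80, 3), (81, 3), (82, 3), (83, 3), (84, 3), (85, 3), (86, 3), (133, 2), (136, 1), (138, 1), (139, 1)] [(145, 3), (160, 3), (162, 3), (166, 3), (187, 3), (272, 6), (276, 7), (283, 8), (418, 9), (807, 9), (810, 9), (817, 9)])
 (.pair 60 405
 (.leaf 9 [(36, 6), (41, 6), (68, 3), (70, 3), (78, 3), (80, 3), (81, 3), (82, 3), (83, 3), (84, 3), (85, 3), (86, 3), (133, 2), (136, 1), (138, 1), (139, 1)] [(145, 3), (160, 3), (162, 3), (166, 3), (187, 3), (272, 6), (276, 7), (283, 8), (418, 9), (807, 9), (810, 9), (817, 9)])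
 (.pair 60 406
 (.leaf 9 [(36, 6), (41, 6), (68, 3), (70, 3), (78, 3), (80, 3), (81, 3), (82, 3), (83, 3), (84, 3), (85, 3), (86, 3), (133, 2), (136, 1), (138, 1), (139, 1)] [(145, 3), (160, 3), (162, 3), (166, 3), (187, 3), (272, 6), (276, 7), (283, 8), (418, 9), (807, 9), (810, 9), (817, 9)])
 (.pair 60 410
 (.leaf 9 [(36, 6), (41, 6), (68, 3), (70, 3), (78, 3), (80, 3), (81, 3), (82, 3), (83, 3), (84, 3), (85, 3), (86, 3), (133, 2), (136, 1), (138, 1), (139, 1)] [(145, 3), (160, 3), (162, 3), (166, 3), (187, 3), (272, 6), (276, 7), (283, 8), (418, 9), (807, 9), (810, 9), (817, 9)])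
 (.pair 60 411
 (.leaf 9 [(36, 6), (41, 6), (68, 3), (70, 3), (78, 3), (80, 3), (81, 3), (82, 3), (83, 3), (84, 3), (85, 3), (86, 3), (133, 2), (136, 1), (138, 1), (139, 1)] [(145, 3), (160, 3), (162, 3), (166, 3), (187, 3), (272, 6), (276, 7), (283, 8), (418, 9), (807, 9), (810, 9), (817, 9)])
 (.absent 60
 (.leaf 9 [(36, 6), (41, 6), (68, 3), (70, 3), (78, 3), (80, 3), (81, 3), (82, 3), (83, 3), (84, 3), (85, 3), (86, 3), (133, 2), (136, 1), (138, 1), (139, 1)] [(145, 3), (160, 3), (162, 3), (166, 3), (187, 3), (272, 6), (276, 7), (283, 8), (418, 9), (807, 9), (810, 9), (817, 9)])))))))))))))))))))))))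

def certFifteen_25 : Cert :=
 (.pair 78 82
 (.pair 80 36
 (.leaf 9 [(41, 6), (81, 6), (83, 3), (84, 3), (85, 3), (86, 3), (133, 2), (136, 1), (138, 1), (139, 1)] [(187, 3), (272, 6), (276, 7), (283, 8), (418, 9), (807, 9), (810, 9), (817, 9)])
 (.pair 80 41
 (.leaf 9 [(36, 6), (81, 6), (83, 3), (84, 3), (85, 3), (86, 3), (133, 2), (136, 1), (138, 1), (139, 1)] [(187, 3), (272, 6), (276, 7), (283, 8), (418, 9), (807, 9), (810, 9), (817, 9)])
 (.pair 80 81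
 (.leaf 9 [(36, 6), (41, 6), (83, 3), (84, 3), (85, 3), (86, 3), (133, 2), (136, 1), (138, 1), (139, 1)] [(187, 3), (272, 6), (276, 7), (283, 8), (418, 9), (807, 9), (810, 9), (817, 9)])
 (.pair 80 83
 (.leaf 9 [(36, 6), (41, 6), (81, 3), (84, 3), (85, 3), (86, 3), (133, 2), (136, 1), (138, 1), (139, 1)] [(166, 3), (187, 3), (272, 6), (276, 7), (283, 8), (418, 9), (807, 9), (810, 9), (817, 9)])
 (.pair 80 84
 (.leaf 9 [(36, 6), (41, 6), (81, 3), (83, 3), (85, 3), (86, 3), (133, 2), (136, 1), (138, 1), (139, 1)] [(166, 3), (187, 3), (272, 6), (276, 7), (283, 8), (418, 9), (807, 9), (810, 9), (817, 9)])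
 (.pair 80 85
 (.leaf 9 [(36, 6), (41, 6), (81, 3), (83, 3), (84, 3), (86, 3), (133, 2), (136, 1), (138, 1), (139, 1)] [(166, 3), (187, 3), (272, 6), (276, 7), (283, 8), (418, 9), (807, 9), (810, 9), (817, 9)])
 (.pair 80 86
 (.leaf 9 [(36, 6), (41, 6), (81, 3), (83, 3), (84, 3), (85, 3), (133, 2), (136, 1), (138, 1), (139, 1)] [(166, 3), (187, 3), (272, 6), (276, 7), (283, 8), (418, 9), (807, 9), (810, 9), (817, 9)])
 (.pair 80 133
 (.leaf 3 [(36, 2), (41, 2), (81, 1), (83, 1), (84, 1), (85, 1), (86, 1)] [(166, 1), (187, 1), (272, 3), (276, 3), (283, 3), (418, 3), (807, 3), (810, 3), (817, 3)])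
 (.pair 80 136
 (.leaf 3 [(36, 2), (41, 2), (81, 1), (83, 1), (84, 1), (85, 1), (86, 1)] [(166, 1), (187, 1), (272, 3), (276, 3), (283, 3), (418, 3), (807, 3), (810, 3), (817, 3)])
 (.pair 80 138
 (.leaf 3 [(36, 2), (41, 2), (81, 2), (83, 1), (84, 1), (85, 1), (86, 1)] [(187, 1), (272, 3), (276, 3), (283, 3), (418, 3), (807, 3), (810, 3), (817, 3)])
 (.pair 80 139
 (.leaf 3 [(36, 2), (41, 2), (81, 2), (83, 1), (84, 1), (85, 1), (86, 1)] [(187, 1), (272, 3), (276, 3), (283, 3), (418, 3), (807, 3), (810, 3), (817, 3)])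
 (.pair 80 141
 (.leaf 3 [(36, 2), (41, 2), (81, 2), (83, 1), (84, 1), (85, 1), (86, 1)] [(187, 1), (272, 3), (276, 3), (283, 3), (418, 3), (807, 3), (810, 3), (817, 3)])
 (.pair 80 143
 (.leaf 3 [(36, 2), (41, 2), (81, 2), (83, 1), (84, 1), (85, 1), (86, 1)] [(187, 1), (272, 3), (276, 3), (283, 3), (418, 3), (807, 3), (810, 3), (817, 3)])
 (.pair 80 144
 (.leaf 3 [(36, 2), (41, 2), (81, 2), (83, 1), (84, 1), (85, 1), (86, 1)] [(187, 1), (272, 3), (276, 3), (283, 3), (418, 3), (807, 3), (810, 3), (817, 3)])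
 (.pair 80 400
 (.leaf 9 [(36, 6), (41, 6), (81, 3), (83, 3), (84, 3), (85, 3), (86, 3), (133, 2), (136, 1), (138, 1), (139, 1)] [(166, 3), (187, 3), (272, 6), (276, 7), (283, 8), (418, 9), (807, 9), (810, 9), (817, 9)])
 (.pair 80 403
 (.leaf 9 [(36, 6), (41, 6), (81, 3), (83, 3), (84, 3), (85, 3), (86, 3), (133, 2), (136, 1), (138, 1), (139, 1)] [(166, 3), (187, 3), (272, 6), (276, 7), (283, 8), (418, 9), (807, 9), (810, 9), (817, 9)])
 (.pair 80 405
 (.leaf 9 [(36, 6), (41, 6), (81, 3), (83, 3), (84, 3), (85, 3), (86, 3), (133, 2), (136, 1), (138, 1), (139, 1)] [(166, 3), (187, 3), (272, 6), (276, 7), (283, 8), (418, 9), (807, 9), (810, 9), (817, 9)])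
 (.pair 80 406
 (.leaf 9 [(36, 6), (41, 6), (81, 3), (83, 3), (84, 3), (85, 3), (86, 3), (133, 2), (136, 1), (138, 1), (139, 1)] [(166, 3), (187, 3), (272, 6), (276, 7), (283, 8), (418, 9), (807, 9), (810, 9), (817, 9)])
 (.pair 80 408
 (.leaf 9 [(36, 6), (41, 6), (81, 6), (83, 3), (84, 3), (85, 3), (86, 3), (133, 2), (136, 1), (138, 1), (139, 1)] [(187, 3), (272, 6), (276, 7), (283, 8), (418, 9), (807, 9), (810, 9), (817, 9)])
 (.pair 80 411
 (.leaf 9 [(36, 6), (41, 6), (81, 6), (83, 3), (84, 3), (85, 3), (86, 3), (133, 2), (136, 1), (138, 1), (139, 1)] [(187, 3), (272, 6), (276, 7), (283, 8), (418, 9), (807, 9), (810, 9), (817, 9)])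
 (.absent 80
 (.leaf 9 [(36, 6), (41, 6), (81, 6), (83, 3), (84, 3), (85, 3), (86, 3), (133, 2), (136, 1), (138, 1), (139, 1)] [(187, 3), (272, 6), (276, 7), (283, 8), (418, 9), (807, 9), (810, 9), (817, 9)]))))))))))))))))))))))
 (.pair 78 83
 (.leaf 9 [(36, 6), (41, 6), (80, 3), (81, 3), (82, 3), (84, 3), (85, 3), (86, 3), (133, 2), (136, 1), (138, 1), (139, 1)] [(162, 3), (166, 3), (187, 3), (272, 6), (276, 7), (283, 8), (418, 9), (807, 9), (810, 9), (817, 9)])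
 (.pair 78 84
 (.leaf 9 [(36, 6), (41, 6), (80, 3), (81, 3), (82, 3), (83, 3), (85, 3), (86, 3), (133, 2), (136, 1), (138, 1), (139, 1)] [(162, 3), (166, 3), (187, 3), (272, 6), (276, 7), (283, 8), (418, 9), (807, 9), (810, 9), (817, 9)])
 (.pair 78 85
 (.leaf 9 [(36, 6), (41, 6), (80, 6), (81, 3), (82, 3), (83, 3), (84, 3), (86, 3), (133, 2), (136, 1), (138, 1), (139, 1)] [(166, 3), (187, 3), (272, 6), (276, 7), (283, 8), (418, 9), (807, 9), (810, 9), (817, 9)])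
 (.pair 78 86
 (.leaf 9 [(36, 6), (41, 6), (80, 6), (81, 3), (82, 3), (83, 3), (84, 3), (85, 3), (133, 2), (136, 1), (138, 1), (139, 1)] [(166, 3), (187, 3), (272, 6), (276, 7), (283, 8), (418, 9), (807, 9), (810, 9), (817, 9)])
 (.pair 78 133
 (.leaf 6 [(36, 4), (41, 4), (80, 4), (81, 2), (82, 2), (83, 2), (84, 2), (85, 2), (86, 2), (136, 1), (138, 1), (139, 1)] [(166, 2), (187, 2), (272, 4), (276, 4), (283, 5), (418, 6), (807, 6), (810, 6), (817, 6)])
 (.pair 78 136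
 (.leaf 3 [(36, 2), (41, 2), (80, 2), (81, 1), (82, 1), (83, 1), (84, 1), (85, 1), (86, 1)] [(166, 1), (187, 1), (272, 3), (276, 3), (283, 3), (418, 3), (807, 3), (810, 3), (817, 3)])
 (.pair 78 138
 (.leaf 3 [(36, 2), (41, 2), (80, 2), (81, 1), (82, 1), (83, 1), (84, 1), (85, 1), (86, 1)] [(166, 1), (187, 1), (272, 3), (276, 3), (283, 3), (418, 3), (807, 3), (810, 3), (817, 3)])
 (.pair 78 139
 (.leaf 3 [(36, 2), (41, 2), (80, 2), (81, 1), (82, 1), (83, 1), (84, 1), (85, 1), (86, 1)] [(166, 1), (187, 1), (272, 3), (276, 3), (283, 3), (418, 3), (807, 3), (810, 3), (817, 3)])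
 (.pair 78 141
 (.leaf 3 [(36, 2), (41, 2), (80, 2), (81, 1), (82, 1), (83, 1), (84, 1), (85, 1), (86, 1)] [(166, 1), (187, 1), (272, 3), (276, 3), (283, 3), (418, 3), (807, 3), (810, 3), (817, 3)])
 (.pair 78 143
 (.leaf 3 [(36, 2), (41, 2), (80, 2), (81, 1), (82, 1), (83, 1), (84, 1), (85, 1), (86, 1)] [(166, 1), (187, 1), (272, 3), (276, 3), (283, 3), (418, 3), (807, 3), (810, 3), (817, 3)])
 (.pair 78 144
 (.leaf 3 [(36, 2), (41, 2), (80, 2), (81, 1), (82, 1), (83, 1), (84, 1), (85, 1), (86, 1)] [(166, 1), (187, 1), (272, 3), (276, 3), (283, 3), (418, 3), (807, 3), (810, 3), (817, 3)])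
 (.pair 78 400
 (.leaf 9 [(36, 6), (41, 6), (80, 6), (81, 3), (82, 3), (83, 3), (84, 3), (85, 3), (86, 3), (133, 2), (136, 1), (138, 1), (139, 1)] [(166, 3), (187, 3), (272, 6), (276, 7), (283, 8), (418, 9), (807, 9), (810, 9), (817, 9)])
 (.pair 78 403
 (.leaf 9 [(36, 6), (41, 6), (80, 6), (81, 3), (82, 3), (83, 3), (84, 3), (85, 3), (86, 3), (133, 2), (136, 1), (138, 1), (139, 1)] [(166, 3), (187, 3), (272, 6), (276, 7), (283, 8), (418, 9), (807, 9), (810, 9), (817, 9)])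
 (.pair 78 405
 (.leaf 9 [(36, 6), (41, 6), (80, 6), (81, 3), (82, 3), (83, 3), (84, 3), (85, 3), (86, 3), (133, 2), (136, 1), (138, 1), (139, 1)] [(166, 3), (187, 3), (272, 6), (276, 7), (283, 8), (418, 9), (807, 9), (810, 9), (817, 9)])
 (.pair 78 406
 (.leaf 9 [(36, 6), (41, 6), (80, 6), (81, 3), (82, 3), (83, 3), (84, 3), (85, 3), (86, 3), (133, 2), (136, 1), (138, 1), (139, 1)] [(166, 3), (187, 3), (272, 6), (276, 7), (283, 8), (418, 9), (807, 9), (810, 9), (817, 9)])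
 (.pair 78 408
 (.leaf 9 [(36, 6), (41, 6), (80, 6), (81, 3), (82, 3), (83, 3), (84, 3), (85, 3), (86, 3), (133, 2), (136, 1), (138, 1), (139, 1)] [(166, 3), (187, 3), (272, 6), (276, 7), (283, 8), (418, 9), (807, 9), (810, 9), (817, 9)])
 (.pair 78 411
 (.leaf 9 [(36, 6), (41, 6), (80, 6), (81, 3), (82, 3), (83, 3), (84, 3), (85, 3), (86, 3), (133, 2), (136, 1), (138, 1), (139, 1)] [(166, 3), (187, 3), (272, 6), (276, 7), (283, 8), (418, 9), (807, 9), (810, 9), (817, 9)])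
 (.absent 78
 (.leaf 9 [(36, 6), (41, 6), (80, 6), (81, 3), (82, 3), (83, 3), (84, 3), (85, 3), (86, 3), (133, 2), (136, 1), (138, 1), (139, 1)] [(166, 3), (187, 3), (272, 6), (276, 7), (283, 8), (418, 9), (807, 9), (810, 9), (817, 9)]))))))))))))))))))))

def certFifteen_26 : Cert :=
 (.pair 70 70
 (.pair 78 36
 (.leaf 18 [(41, 12), (80, 9), (81, 9), (82, 9), (83, 6), (84, 6), (85, 6), (86, 6), (133, 4), (136, 2), (138, 2), (139, 2)] [(166, 3), (187, 6), (272, 12), (276, 14), (283, 16), (418, 18), (807, 18), (810, 18), (817, 18)])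
 (.pair 78 41
 (.leaf 18 [(36, 12), (80, 9), (81, 9), (82, 9), (83, 6), (84, 6), (85, 6), (86, 6), (133, 4), (136, 2), (138, 2), (139, 2)] [(166, 3), (187, 6), (272, 12), (276, 14), (283, 16), (418, 18), (807, 18), (810, 18), (817, 18)])
 (.pair 78 80
 (.leaf 9 [(36, 6), (41, 6), (81, 3), (82, 3), (83, 3), (84, 3), (85, 3), (86, 3), (133, 2), (136, 1), (138, 1), (139, 1)] [(166, 3), (187, 3), (272, 6), (276, 7), (283, 8), (418, 9), (807, 9), (810, 9), (817, 9)])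
 (.pair 78 81
 (.pair 80 36
 (.leaf 9 [(41, 6), (82, 6), (83, 3), (84, 3), (85, 3), (86, 3), (133, 2), (136, 1), (138, 1), (139, 1)] [(187, 3), (272, 6), (276, 7), (283, 8), (418, 9), (807, 9), (810, 9), (817, 9)])
 (.pair 80 41
 (.leaf 9 [(36, 6), (82, 6), (83, 3), (84, 3), (85, 3), (86, 3), (133, 2), (136, 1), (138, 1), (139, 1)] [(187, 3), (272, 6), (276, 7), (283, 8), (418, 9), (807, 9), (810, 9), (817, 9)])
 (.pair 80 82
 (.leaf 9 [(36, 6), (41, 6), (83, 3), (84, 3), (85, 3), (86, 3), (133, 2), (136, 1), (138, 1), (139, 1)] [(187, 3), (272, 6), (276, 7), (283, 8), (418, 9), (807, 9), (810, 9), (817, 9)])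
 (.pair 80 83
 (.leaf 9 [(36, 6), (41, 6), (82, 3), (84, 3), (85, 3), (86, 3), (133, 2), (136, 1), (138, 1), (139, 1)] [(166, 3), (187, 3), (272, 6), (276, 7), (283, 8), (418, 9), (807, 9), (810, 9), (817, 9)])
 (.pair 80 84
 (.leaf 9 [(36, 6), (41, 6), (82, 3), (83, 3), (85, 3), (86, 3), (133, 2), (136, 1), (138, 1), (139, 1)] [(166, 3), (187, 3), (272, 6), (276, 7), (283, 8), (418, 9), (807, 9), (810, 9), (817, 9)])
 (.pair 80 85
 (.leaf 9 [(36, 6), (41, 6), (82, 3), (83, 3), (84, 3), (86, 3), (133, 2), (136, 1), (138, 1), (139, 1)] [(166, 3), (187, 3), (272, 6), (276, 7), (283, 8), (418, 9), (807, 9), (810, 9), (817, 9)])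
 (.pair 80 86
 (.leaf 9 [(36, 6), (41, 6), (82, 3), (83, 3), (84, 3), (85, 3), (133, 2), (136, 1), (138, 1), (139, 1)] [(166, 3), (187, 3), (272, 6), (276, 7), (283, 8), (418, 9), (807, 9), (810, 9), (817, 9)])
 (.pair 80 133
 (.leaf 3 [(36, 2), (41, 2), (82, 1), (83, 1), (84, 1), (85, 1), (86, 1)] [(166, 1), (187, 1), (272, 3), (276, 3), (283, 3), (418, 3), (807, 3), (810, 3), (817, 3)])
 (.pair 80 136
 (.leaf 3 [(36, 2), (41, 2), (82, 1), (83, 1), (84, 1), (85, 1), (86, 1)] [(166, 1), (187, 1), (272, 3), (276, 3), (283, 3), (418, 3), (807, 3), (810, 3), (817, 3)])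
 (.pair 80 138
 (.leaf 3 [(36, 2), (41, 2), (82, 2), (83, 1), (84, 1), (85, 1), (86, 1)] [(187, 1), (272, 3), (276, 3), (283, 3), (418, 3), (807, 3), (810, 3), (817, 3)])
 (.pair 80 139
 (.leaf 3 [(36, 2), (41, 2), (82, 2), (83, 1), (84, 1), (85, 1), (86, 1)] [(187, 1), (272, 3), (276, 3), (283, 3), (418, 3), (807, 3), (810, 3), (817, 3)])
 (.pair 80 141
 (.leaf 3 [(36, 2), (41, 2), (82, 2), (83, 1), (84, 1), (85, 1), (86, 1)] [(187, 1), (272, 3), (276, 3), (283, 3), (418, 3), (807, 3), (810, 3), (817, 3)])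
 (.pair 80 143
 (.leaf 3 [(36, 2), (41, 2), (82, 2), (83, 1), (84, 1), (85, 1), (86, 1)] [(187, 1), (272, 3), (276, 3), (283, 3), (418, 3), (807, 3), (810, 3), (817, 3)])
 (.pair 80 144
 (.leaf 3 [(36, 2), (41, 2), (82, 2), (83, 1), (84, 1), (85, 1), (86, 1)] [(187, 1), (272, 3), (276, 3), (283, 3), (418, 3), (807, 3), (810, 3), (817, 3)])
 (.pair 80 400
 (.leaf 9 [(36, 6), (41, 6), (82, 3), (83, 3), (84, 3), (85, 3), (86, 3), (133, 2), (136, 1), (138, 1), (139, 1)] [(166, 3), (187, 3), (272, 6), (276, 7), (283, 8), (418, 9), (807, 9), (810, 9), (817, 9)])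
 (.pair 80 403
 (.leaf 9 [(36, 6), (41, 6), (82, 3), (83, 3), (84, 3), (85, 3), (86, 3), (133, 2), (136, 1), (138, 1), (139, 1)] [(166, 3), (187, 3), (272, 6), (276, 7), (283, 8), (418, 9), (807, 9), (810, 9), (817, 9)])
 (.pair 80 405
 (.leaf 9 [(36, 6), (41, 6), (82, 3), (83, 3), (84, 3), (85, 3), (86, 3), (133, 2), (136, 1), (138, 1), (139, 1)] [(166, 3), (187, 3), (272, 6), (276, 7), (283, 8), (418, 9), (807, 9), (810, 9), (817, 9)])
 (.pair 80 406
 (.leaf 9 [(36, 6), (41, 6), (82, 3), (83, 3), (84, 3), (85, 3), (86, 3), (133, 2), (136, 1), (138, 1), (139, 1)] [(166, 3), (187, 3), (272, 6), (276, 7), (283, 8), (418, 9), (807, 9), (810, 9), (817, 9)])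
 (.pair 80 408
 (.leaf 9 [(36, 6), (41, 6), (82, 6), (83, 3), (84, 3), (85, 3), (86, 3), (133, 2), (136, 1), (138, 1), (139, 1)] [(187, 3), (272, 6), (276, 7), (283, 8), (418, 9), (807, 9), (810, 9), (817, 9)])
 (.pair 80 411
 (.leaf 9 [(36, 6), (41, 6), (82, 6), (83, 3), (84, 3), (85, 3), (86, 3), (133, 2), (136, 1), (138, 1), (139, 1)] [(187, 3), (272, 6), (276, 7), (283, 8), (418, 9), (807, 9), (810, 9), (817, 9)])
 (.absent 80
 (.leaf 9 [(36, 6), (41, 6), (82, 6), (83, 3), (84, 3), (85, 3), (86, 3), (133, 2), (136, 1), (138, 1), (139, 1)] [(187, 3), (272, 6), (276, 7), (283, 8), (418, 9), (807, 9), (810, 9), (817, 9)]))))))))))))))))))))))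
 certFifteen_25))))
 (.pair 70 78
 (.leaf 9 [(36, 6), (41, 6), (70, 3), (80, 3), (81, 3), (82, 3), (83, 3), (84, 3), (85, 3), (86, 3), (133, 2), (136, 1), (138, 1), (139, 1)] [(160, 3), (162, 3), (166, 3), (187, 3), (272, 6), (276, 7), (283, 8), (418, 9), (807, 9), (810, 9), (817, 9)])
 (.pair 70 80
 (.leaf 9 [(36, 6), (41, 6), (70, 3), (78, 3), (81, 3), (82, 3), (83, 3), (84, 3), (85, 3), (86, 3), (133, 2), (136, 1), (138, 1), (139, 1)] [(160, 3), (162, 3), (166, 3), (187, 3), (272, 6), (276, 7), (283, 8), (418, 9), (807, 9), (810, 9), (817, 9)])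
 (.pair 70 81
 (.leaf 9 [(36, 6), (41, 6), (70, 3), (78, 3), (80, 3), (82, 3), (83, 3), (84, 3), (85, 3), (86, 3), (133, 2), (136, 1), (138, 1), (139, 1)] [(160, 3), (162, 3), (166, 3), (187, 3), (272, 6), (276, 7), (283, 8), (418, 9), (807, 9), (810, 9), (817, 9)])
 (.pair 70 82
 (.leaf 9 [(36, 6), (41, 6), (70, 3), (78, 3), (80, 3), (81, 3), (83, 3), (84, 3), (85, 3), (86, 3), (133, 2), (136, 1), (138, 1), (139, 1)] [(160, 3), (162, 3), (166, 3), (187, 3), (272, 6), (276, 7), (283, 8), (418, 9), (807, 9), (810, 9), (817, 9)])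
 (.pair 70 83
 (.leaf 9 [(36, 6), (41, 6), (70, 3), (78, 3), (80, 3), (81, 3), (82, 3), (84, 3), (85, 3), (86, 3), (133, 2), (136, 1), (138, 1), (139, 1)] [(160, 3), (162, 3), (166, 3), (187, 3), (272, 6), (276, 7), (283, 8), (418, 9), (807, 9), (810, 9), (817, 9)])
 (.pair 70 84
 (.leaf 9 [(36, 6), (41, 6), (70, 3), (78, 3), (80, 3), (81, 3), (82, 3), (83, 3), (85, 3), (86, 3), (133, 2), (136, 1), (138, 1), (139, 1)] [(160, 3), (162, 3), (166, 3), (187, 3), (272, 6), (276, 7), (283, 8), (418, 9), (807, 9), (810, 9), (817, 9)])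
 (.pair 70 85
 (.leaf 9 [(36, 6), (41, 6), (70, 3), (78, 3), (80, 3), (81, 3), (82, 3), (83, 3), (84, 3), (86, 3), (133, 2), (136, 1), (138, 1), (139, 1)] [(160, 3), (162, 3), (166, 3), (187, 3), (272, 6), (276, 7), (283, 8), (418, 9), (807, 9), (810, 9), (817, 9)])
 (.pair 70 86
 (.leaf 9 [(36, 6), (41, 6), (70, 3), (78, 3), (80, 3), (81, 3), (82, 3), (83, 3), (84, 3), (85, 3), (133, 2), (136, 1), (138, 1), (139, 1)] [(160, 3), (162, 3), (166, 3), (187, 3), (272, 6), (276, 7), (283, 8), (418, 9), (807, 9), (810, 9), (817, 9)])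
 (.pair 70 133
 (.leaf 3 [(36, 2), (41, 2), (70, 1), (78, 1), (80, 1), (81, 1), (82, 1), (83, 1), (84, 1), (85, 1), (86, 1)] [(160, 1), (162, 1), (166, 1), (187, 1), (272, 3), (276, 3), (283, 3), (418, 3), (807, 3), (810, 3), (817, 3)])
 (.pair 70 136
 (.leaf 3 [(36, 2), (41, 2), (70, 1), (78, 1), (80, 1), (81, 1), (82, 1), (83, 1), (84, 1), (85, 1), (86, 1)] [(160, 1), (162, 1), (166, 1), (187, 1), (272, 3), (276, 3), (283, 3), (418, 3), (807, 3), (810, 3), (817, 3)])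
 (.pair 70 138
 (.leaf 3 [(36, 2), (41, 2), (70, 1), (78, 1), (80, 1), (81, 1), (82, 1), (83, 1), (84, 1), (85, 1), (86, 1)] [(160, 1), (162, 1), (166, 1), (187, 1), (272, 3), (276, 3), (283, 3), (418, 3), (807, 3), (810, 3), (817, 3)])
 (.pair 70 139
 (.leaf 3 [(36, 2), (41, 2), (70, 1), (78, 1), (80, 1), (81, 1), (82, 1), (83, 1), (84, 1), (85, 1), (86, 1)] [(160, 1), (162, 1), (166, 1), (187, 1), (272, 3), (276, 3), (283, 3), (418, 3), (807, 3), (810, 3), (817, 3)])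
 (.pair 70 141
 (.leaf 3 [(36, 2), (41, 2), (70, 1), (78, 1), (80, 1), (81, 1), (82, 1), (83, 1), (84, 1), (85, 1), (86, 1)] [(160, 1), (162, 1), (166, 1), (187, 1), (272, 3), (276, 3), (283, 3), (418, 3), (807, 3), (810, 3), (817, 3)])
 (.pair 70 143
 (.leaf 3 [(36, 2), (41, 2), (70, 1), (78, 1), (80, 1), (81, 1), (82, 1), (83, 1), (84, 1), (85, 1), (86, 1)] [(160, 1), (162, 1), (166, 1), (187, 1), (272, 3), (276, 3), (283, 3), (418, 3), (807, 3), (810, 3), (817, 3)])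
 (.pair 70 144
 (.leaf 3 [(36, 2), (41, 2), (70, 1), (78, 1), (80, 1), (81, 1), (82, 1), (83, 1), (84, 1), (85, 1), (86, 1)] [(160, 1), (162, 1), (166, 1), (187, 1), (272, 3), (276, 3), (283, 3), (418, 3), (807, 3), (810, 3), (817, 3)])
 (.pair 70 400
 (.leaf 9 [(36, 6), (41, 6), (70, 3), (78, 3), (80, 3), (81, 3), (82, 3), (83, 3), (84, 3), (85, 3), (86, 3), (133, 2), (136, 1), (138, 1), (139, 1)] [(160, 3), (162, 3), (166, 3), (187, 3), (272, 6), (276, 7), (283, 8), (418, 9), (807, 9), (810, 9), (817, 9)])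
 (.pair 70 403
 (.leaf 9 [(36, 6), (41, 6), (70, 3), (78, 3), (80, 3), (81, 3), (82, 3), (83, 3), (84, 3), (85, 3), (86, 3), (133, 2), (136, 1), (138, 1), (139, 1)] [(160, 3), (162, 3), (166, 3), (187, 3), (272, 6), (276, 7), (283, 8), (418, 9), (807, 9), (810, 9), (817, 9)])
 (.pair 70 405
 (.leaf 9 [(36, 6), (41, 6), (70, 3), (78, 3), (80, 3), (81, 3), (82, 3), (83, 3), (84, 3), (85, 3), (86, 3), (133, 2), (136, 1), (138, 1), (139, 1)] [(160, 3), (162, 3), (166, 3), (187, 3), (272, 6), (276, 7), (283, 8), (418, 9), (807, 9), (810, 9), (817, 9)])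
 (.pair 70 406
 (.leaf 9 [(36, 6), (41, 6), (70, 3), (78, 3), (80, 3), (81, 3), (82, 3), (83, 3), (84, 3), (85, 3), (86, 3), (133, 2), (136, 1), (138, 1), (139, 1)] [(160, 3), (162, 3), (166, 3), (187, 3), (272, 6), (276, 7), (283, 8), (418, 9), (807, 9), (810, 9), (817, 9)])
 (.pair 70 408
 (.leaf 9 [(36, 6), (41, 6), (70, 3), (78, 3), (80, 3), (81, 3), (82, 3), (83, 3), (84, 3), (85, 3), (86, 3), (133, 2), (136, 1), (138, 1), (139, 1)] [(160, 3), (162, 3), (166, 3), (187, 3), (272, 6), (276, 7), (283, 8), (418, 9), (807, 9), (810, 9), (817, 9)])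
 (.pair 70 411
 (.leaf 9 [(36, 6), (41, 6), (70, 3), (78, 3), (80, 3), (81, 3), (82, 3), (83, 3), (84, 3), (85, 3), (86, 3), (133, 2), (136, 1), (138, 1), (139, 1)] [(160, 3), (162, 3), (166, 3), (187, 3), (272, 6), (276, 7), (283, 8), (418, 9), (807, 9), (810, 9), (817, 9)])
 (.absent 70
 (.leaf 9 [(36, 6), (41, 6), (70, 3), (78, 3), (80, 3), (81, 3), (82, 3), (83, 3), (84, 3), (85, 3), (86, 3), (133, 2), (136, 1), (138, 1), (139, 1)] [(160, 3), (162, 3), (166, 3), (187, 3), (272, 6), (276, 7), (283, 8), (418, 9), (807, 9), (810, 9), (817, 9)]))))))))))))))))))))))))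

def certFifteen_27 : Cert :=
 (.pair 78 82
 (.pair 80 36
 (.leaf 9 [(41, 6), (81, 6), (83, 3), (84, 3), (85, 3), (86, 3), (133, 2), (136, 1), (138, 1), (139, 1)] [(187, 3), (272, 6), (276, 7), (283, 8), (418, 9), (807, 9), (810, 9), (817, 9)])
 (.pair 80 41
 (.leaf 9 [(36, 6), (81, 6), (83, 3), (84, 3), (85, 3), (86, 3), (133, 2), (136, 1), (138, 1), (139, 1)] [(187, 3), (272, 6), (276, 7), (283, 8), (418, 9), (807, 9), (810, 9), (817, 9)])
 (.pair 80 81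
 (.leaf 9 [(36, 6), (41, 6), (83, 3), (84, 3), (85, 3), (86, 3), (133, 2), (136, 1), (138, 1), (139, 1)] [(187, 3), (272, 6), (276, 7), (283, 8), (418, 9), (807, 9), (810, 9), (817, 9)])
 (.pair 80 83
 (.leaf 9 [(36, 6), (41, 6), (81, 3), (84, 3), (85, 3), (86, 3), (133, 2), (136, 1), (138, 1), (139, 1)] [(166, 3), (187, 3), (272, 6), (276, 7), (283, 8), (418, 9), (807, 9), (810, 9), (817, 9)])
 (.pair 80 84
 (.leaf 9 [(36, 6), (41, 6), (81, 3), (83, 3), (85, 3), (86, 3), (133, 2), (136, 1), (138, 1), (139, 1)] [(166, 3), (187, 3), (272, 6), (276, 7), (283, 8), (418, 9), (807, 9), (810, 9), (817, 9)])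
 (.pair 80 85
 (.leaf 9 [(36, 6), (41, 6), (81, 3), (83, 3), (84, 3), (86, 3), (133, 2), (136, 1), (138, 1), (139, 1)] [(166, 3), (187, 3), (272, 6), (276, 7), (283, 8), (418, 9), (807, 9), (810, 9), (817, 9)])
 (.pair 80 86
 (.leaf 9 [(36, 6), (41, 6), (81, 3), (83, 3), (84, 3), (85, 3), (133, 2), (136, 1), (138, 1), (139, 1)] [(166, 3), (187, 3), (272, 6), (276, 7), (283, 8), (418, 9), (807, 9), (810, 9), (817, 9)])
 (.pair 80 133
 (.leaf 3 [(36, 2), (41, 2), (81, 1), (83, 1), (84, 1), (85, 1), (86, 1)] [(166, 1), (187, 1), (272, 3), (276, 3), (283, 3), (418, 3), (807, 3), (810, 3), (817, 3)])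
 (.pair 80 136
 (.leaf 3 [(36, 2), (41, 2), (81, 1), (83, 1), (84, 1), (85, 1), (86, 1)] [(166, 1), (187, 1), (272, 3), (276, 3), (283, 3), (418, 3), (807, 3), (810, 3), (817, 3)])
 (.pair 80 138
 (.leaf 3 [(36, 2), (41, 2), (81, 2), (83, 1), (84, 1), (85, 1), (86, 1)] [(187, 1), (272, 3), (276, 3), (283, 3), (418, 3), (807, 3), (810, 3), (817, 3)])
 (.pair 80 139
 (.leaf 3 [(36, 2), (41, 2), (81, 2), (83, 1), (84, 1), (85, 1), (86, 1)] [(187, 1), (272, 3), (276, 3), (283, 3), (418, 3), (807, 3), (810, 3), (817, 3)])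
 (.pair 80 141
 (.leaf 3 [(36, 2), (41, 2), (81, 2), (83, 1), (84, 1), (85, 1), (86, 1)] [(187, 1), (272, 3), (276, 3), (283, 3), (418, 3), (807, 3), (810, 3), (817, 3)])
 (.pair 80 143
 (.leaf 3 [(36, 2), (41, 2), (81, 2), (83, 1), (84, 1), (85, 1), (86, 1)] [(187, 1), (272, 3), (276, 3), (283, 3), (418, 3), (807, 3), (810, 3), (817, 3)])
 (.pair 80 144
 (.leaf 3 [(36, 2), (41, 2), (81, 2), (83, 1), (84, 1), (85, 1), (86, 1)] [(187, 1), (272, 3), (276, 3), (283, 3), (418, 3), (807, 3), (810, 3), (817, 3)])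
 (.pair 80 400
 (.leaf 9 [(36, 6), (41, 6), (81, 3), (83, 3), (84, 3), (85, 3), (86, 3), (133, 2), (136, 1), (138, 1), (139, 1)] [(166, 3), (187, 3), (272, 6), (276, 7), (283, 8), (418, 9), (807, 9), (810, 9), (817, 9)])
 (.pair 80 403
 (.leaf 9 [(36, 6), (41, 6), (81, 3), (83, 3), (84, 3), (85, 3), (86, 3), (133, 2), (136, 1), (138, 1), (139, 1)] [(166, 3), (187, 3), (272, 6), (276, 7), (283, 8), (418, 9), (807, 9), (810, 9), (817, 9)])
 (.pair 80 405
 (.leaf 9 [(36, 6), (41, 6), (81, 3), (83, 3), (84, 3), (85, 3), (86, 3), (133, 2), (136, 1), (138, 1), (139, 1)] [(166, 3), (187, 3), (272, 6), (276, 7), (283, 8), (418, 9), (807, 9), (810, 9), (817, 9)])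
 (.pair 80 406
 (.leaf 9 [(36, 6), (41, 6), (81, 3), (83, 3), (84, 3), (85, 3), (86, 3), (133, 2), (136, 1), (138, 1), (139, 1)] [(166, 3), (187, 3), (272, 6), (276, 7), (283, 8), (418, 9), (807, 9), (810, 9), (817, 9)])
 (.pair 80 408
 (.leaf 9 [(36, 6), (41, 6), (81, 6), (83, 3), (84, 3), (85, 3), (86, 3), (133, 2), (136, 1), (138, 1), (139, 1)] [(187, 3), (272, 6), (276, 7), (283, 8), (418, 9), (807, 9), (810, 9), (817, 9)])
 (.pair 80 411
 (.leaf 9 [(36, 6), (41, 6), (81, 6), (83, 3), (84, 3), (85, 3), (86, 3), (133, 2), (136, 1), (138, 1), (139, 1)] [(187, 3), (272, 6), (276, 7), (283, 8), (418, 9), (807, 9), (810, 9), (817, 9)])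
 (.absent 80
 (.leaf 9 [(36, 6), (41, 6), (81, 6), (83, 3), (84, 3), (85, 3), (86, 3), (133, 2), (136, 1), (138, 1), (139, 1)] [(187, 3), (272, 6), (276, 7), (283, 8), (418, 9), (807, 9), (810, 9), (817, 9)]))))))))))))))))))))))
 (.pair 78 83
 (.leaf 9 [(36, 6), (41, 6), (80, 3), (81, 3), (82, 3), (84, 3), (85, 3), (86, 3), (133, 2), (136, 1), (138, 1), (139, 1)] [(162, 3), (166, 3), (187, 3), (272, 6), (276, 7), (283, 8), (418, 9), (807, 9), (810, 9), (817, 9)])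
 (.pair 78 84
 (.leaf 9 [(36, 6), (41, 6), (80, 3), (81, 3), (82, 3), (83, 3), (85, 3), (86, 3), (133, 2), (136, 1), (138, 1), (139, 1)] [(162, 3), (166, 3), (187, 3), (272, 6), (276, 7), (283, 8), (418, 9), (807, 9), (810, 9), (817, 9)])
 (.pair 78 85
 (.leaf 9 [(36, 6), (41, 6), (80, 6), (81, 3), (82, 3), (83, 3), (84, 3), (86, 3), (133, 2), (136, 1), (138, 1), (139, 1)] [(166, 3), (187, 3), (272, 6), (276, 7), (283, 8), (418, 9), (807, 9), (810, 9), (817, 9)])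
 (.pair 78 86
 (.leaf 9 [(36, 6), (41, 6), (80, 6), (81, 3), (82, 3), (83, 3), (84, 3), (85, 3), (133, 2), (136, 1), (138, 1), (139, 1)] [(166, 3), (187, 3), (272, 6), (276, 7), (283, 8), (418, 9), (807, 9), (810, 9), (817, 9)])
 (.pair 78 133
 (.leaf 6 [(36, 4), (41, 4), (80, 4), (81, 2), (82, 2), (83, 2), (84, 2), (85, 2), (86, 2), (136, 1), (138, 1), (139, 1)] [(166, 2), (187, 2), (272, 4), (276, 4), (283, 5), (418, 6), (807, 6), (810, 6), (817, 6)])
 (.pair 78 136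
 (.leaf 3 [(36, 2), (41, 2), (80, 2), (81, 1), (82, 1), (83, 1), (84, 1), (85, 1), (86, 1)] [(166, 1), (187, 1), (272, 3), (276, 3), (283, 3), (418, 3), (807, 3), (810, 3), (817, 3)])
 (.pair 78 138
 (.leaf 3 [(36, 2), (41, 2), (80, 2), (81, 1), (82, 1), (83, 1), (84, 1), (85, 1), (86, 1)] [(166, 1), (187, 1), (272, 3), (276, 3), (283, 3), (418, 3), (807, 3), (810, 3), (817, 3)])
 (.pair 78 139
 (.leaf 3 [(36, 2), (41, 2), (80, 2), (81, 1), (82, 1), (83, 1), (84, 1), (85, 1), (86, 1)] [(166, 1), (187, 1), (272, 3), (276, 3), (283, 3), (418, 3), (807, 3), (810, 3), (817, 3)])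
 (.pair 78 141
 (.leaf 3 [(36, 2), (41, 2), (80, 2), (81, 1), (82, 1), (83, 1), (84, 1), (85, 1), (86, 1)] [(166, 1), (187, 1), (272, 3), (276, 3), (283, 3), (418, 3), (807, 3), (810, 3), (817, 3)])
 (.pair 78 143
 (.leaf 3 [(36, 2), (41, 2), (80, 2), (81, 1), (82, 1), (83, 1), (84, 1), (85, 1), (86, 1)] [(166, 1), (187, 1), (272, 3), (276, 3), (283, 3), (418, 3), (807, 3), (810, 3), (817, 3)])
 (.pair 78 144
 (.leaf 3 [(36, 2), (41, 2), (80, 2), (81, 1), (82, 1), (83, 1), (84, 1), (85, 1), (86, 1)] [(166, 1), (187, 1), (272, 3), (276, 3), (283, 3), (418, 3), (807, 3), (810, 3), (817, 3)])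
 (.pair 78 400
 (.leaf 9 [(36, 6), (41, 6), (80, 6), (81, 3), (82, 3), (83, 3), (84, 3), (85, 3), (86, 3), (133, 2), (136, 1), (138, 1), (139, 1)] [(166, 3), (187, 3), (272, 6), (276, 7), (283, 8), (418, 9), (807, 9), (810, 9), (817, 9)])
 (.pair 78 403
 (.leaf 9 [(36, 6), (41, 6), (80, 6), (81, 3), (82, 3), (83, 3), (84, 3), (85, 3), (86, 3), (133, 2), (136, 1), (138, 1), (139, 1)] [(166, 3), (187, 3), (272, 6), (276, 7), (283, 8), (418, 9), (807, 9), (810, 9), (817, 9)])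
 (.pair 78 405
 (.leaf 9 [(36, 6), (41, 6), (80, 6), (81, 3), (82, 3), (83, 3), (84, 3), (85, 3), (86, 3), (133, 2), (136, 1), (138, 1), (139, 1)] [(166, 3), (187, 3), (272, 6), (276, 7), (283, 8), (418, 9), (807, 9), (810, 9), (817, 9)])
 (.pair 78 406
 (.leaf 9 [(36, 6), (41, 6), (80, 6), (81, 3), (82, 3), (83, 3), (84, 3), (85, 3), (86, 3), (133, 2), (136, 1), (138, 1), (139, 1)] [(166, 3), (187, 3), (272, 6), (276, 7), (283, 8), (418, 9), (807, 9), (810, 9), (817, 9)])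
 (.pair 78 408
 (.leaf 9 [(36, 6), (41, 6), (80, 6), (81, 3), (82, 3), (83, 3), (84, 3), (85, 3), (86, 3), (133, 2), (136, 1), (138, 1), (139, 1)] [(166, 3), (187, 3), (272, 6), (276, 7), (283, 8), (418, 9), (807, 9), (810, 9), (817, 9)])
 (.pair 78 411
 (.leaf 9 [(36, 6), (41, 6), (80, 6), (81, 3), (82, 3), (83, 3), (84, 3), (85, 3), (86, 3), (133, 2), (136, 1), (138, 1), (139, 1)] [(166, 3), (187, 3), (272, 6), (276, 7), (283, 8), (418, 9), (807, 9), (810, 9), (817, 9)])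
 (.absent 78
 (.leaf 9 [(36, 6), (41, 6), (80, 6), (81, 3), (82, 3), (83, 3), (84, 3), (85, 3), (86, 3), (133, 2), (136, 1), (138, 1), (139, 1)] [(166, 3), (187, 3), (272, 6), (276, 7), (283, 8), (418, 9), (807, 9), (810, 9), (817, 9)]))))))))))))))))))))

def certFifteen_28 : Cert :=
 (.pair 68 70
 (.pair 78 36
 (.leaf 18 [(41, 12), (80, 9), (81, 9), (82, 9), (83, 6), (84, 6), (85, 6), (86, 6), (133, 4), (136, 2), (138, 2), (139, 2)] [(166, 3), (187, 6), (272, 12), (276, 14), (283, 16), (418, 18), (807, 18), (810, 18), (817, 18)])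
 (.pair 78 41
 (.leaf 18 [(36, 12), (80, 9), (81, 9), (82, 9), (83, 6), (84, 6), (85, 6), (86, 6), (133, 4), (136, 2), (138, 2), (139, 2)] [(166, 3), (187, 6), (272, 12), (276, 14), (283, 16), (418, 18), (807, 18), (810, 18), (817, 18)])
 (.pair 78 80
 (.leaf 9 [(36, 6), (41, 6), (81, 3), (82, 3), (83, 3), (84, 3), (85, 3), (86, 3), (133, 2), (136, 1), (138, 1), (139, 1)] [(166, 3), (187, 3), (272, 6), (276, 7), (283, 8), (418, 9), (807, 9), (810, 9), (817, 9)])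
 (.pair 78 81
 (.pair 80 36
 (.leaf 9 [(41, 6), (82, 6), (83, 3), (84, 3), (85, 3), (86, 3), (133, 2), (136, 1), (138, 1), (139, 1)] [(187, 3), (272, 6), (276, 7), (283, 8), (418, 9), (807, 9), (810, 9), (817, 9)])
 (.pair 80 41
 (.leaf 9 [(36, 6), (82, 6), (83, 3), (84, 3), (85, 3), (86, 3), (133, 2), (136, 1), (138, 1), (139, 1)] [(187, 3), (272, 6), (276, 7), (283, 8), (418, 9), (807, 9), (810, 9), (817, 9)])
 (.pair 80 82
 (.leaf 9 [(36, 6), (41, 6), (83, 3), (84, 3), (85, 3), (86, 3), (133, 2), (136, 1), (138, 1), (139, 1)] [(187, 3), (272, 6), (276, 7), (283, 8), (418, 9), (807, 9), (810, 9), (817, 9)])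
 (.pair 80 83
 (.leaf 9 [(36, 6), (41, 6), (82, 3), (84, 3), (85, 3), (86, 3), (133, 2), (136, 1), (138, 1), (139, 1)] [(166, 3), (187, 3), (272, 6), (276, 7), (283, 8), (418, 9), (807, 9), (810, 9), (817, 9)])
 (.pair 80 84
 (.leaf 9 [(36, 6), (41, 6), (82, 3), (83, 3), (85, 3), (86, 3), (133, 2), (136, 1), (138, 1), (139, 1)] [(166, 3), (187, 3), (272, 6), (276, 7), (283, 8), (418, 9), (807, 9), (810, 9), (817, 9)])
 (.pair 80 85
 (.leaf 9 [(36, 6), (41, 6), (82, 3), (83, 3), (84, 3), (86, 3), (133, 2), (136, 1), (138, 1), (139, 1)] [(166, 3), (187, 3), (272, 6), (276, 7), (283, 8), (418, 9), (807, 9), (810, 9), (817, 9)])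
 (.pair 80 86
 (.leaf 9 [(36, 6), (41, 6), (82, 3), (83, 3), (84, 3), (85, 3), (133, 2), (136, 1), (138, 1), (139, 1)] [(166, 3), (187, 3), (272, 6), (276, 7), (283, 8), (418, 9), (807, 9), (810, 9), (817, 9)])
 (.pair 80 133
 (.leaf 3 [(36, 2), (41, 2), (82, 1), (83, 1), (84, 1), (85, 1), (86, 1)] [(166, 1), (187, 1), (272, 3), (276, 3), (283, 3), (418, 3), (807, 3), (810, 3), (817, 3)])
 (.pair 80 136
 (.leaf 3 [(36, 2), (41, 2), (82, 1), (83, 1), (84, 1), (85, 1), (86, 1)] [(166, 1), (187, 1), (272, 3), (276, 3), (283, 3), (418, 3), (807, 3), (810, 3), (817, 3)])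
 (.pair 80 138
 (.leaf 3 [(36, 2), (41, 2), (82, 2), (83, 1), (84, 1), (85, 1), (86, 1)] [(187, 1), (272, 3), (276, 3), (283, 3), (418, 3), (807, 3), (810, 3), (817, 3)])
 (.pair 80 139
 (.leaf 3 [(36, 2), (41, 2), (82, 2), (83, 1), (84, 1), (85, 1), (86, 1)] [(187, 1), (272, 3), (276, 3), (283, 3), (418, 3), (807, 3), (810, 3), (817, 3)])
 (.pair 80 141
 (.leaf 3 [(36, 2), (41, 2), (82, 2), (83, 1), (84, 1), (85, 1), (86, 1)] [(187, 1), (272, 3), (276, 3), (283, 3), (418, 3), (807, 3), (810, 3), (817, 3)])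
 (.pair 80 143
 (.leaf 3 [(36, 2), (41, 2), (82, 2), (83, 1), (84, 1), (85, 1), (86, 1)] [(187, 1), (272, 3), (276, 3), (283, 3), (418, 3), (807, 3), (810, 3), (817, 3)])
 (.pair 80 144
 (.leaf 3 [(36, 2), (41, 2), (82, 2), (83, 1), (84, 1), (85, 1), (86, 1)] [(187, 1), (272, 3), (276, 3), (283, 3), (418, 3), (807, 3), (810, 3), (817, 3)])
 (.pair 80 400
 (.leaf 9 [(36, 6), (41, 6), (82, 3), (83, 3), (84, 3), (85, 3), (86, 3), (133, 2), (136, 1), (138, 1), (139, 1)] [(166, 3), (187, 3), (272, 6), (276, 7), (283, 8), (418, 9), (807, 9), (810, 9), (817, 9)])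
 (.pair 80 403
 (.leaf 9 [(36, 6), (41, 6), (82, 3), (83, 3), (84, 3), (85, 3), (86, 3), (133, 2), (136, 1), (138, 1), (139, 1)] [(166, 3), (187, 3), (272, 6), (276, 7), (283, 8), (418, 9), (807, 9), (810, 9), (817, 9)])
 (.pair 80 405
 (.leaf 9 [(36, 6), (41, 6), (82, 3), (83, 3), (84, 3), (85, 3), (86, 3), (133, 2), (136, 1), (138, 1), (139, 1)] [(166, 3), (187, 3), (272, 6), (276, 7), (283, 8), (418, 9), (807, 9), (810, 9), (817, 9)])
 (.pair 80 406
 (.leaf 9 [(36, 6), (41, 6), (82, 3), (83, 3), (84, 3), (85, 3), (86, 3), (133, 2), (136, 1), (138, 1), (139, 1)] [(166, 3), (187, 3), (272, 6), (276, 7), (283, 8), (418, 9), (807, 9), (810, 9), (817, 9)])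
 (.pair 80 408
 (.leaf 9 [(36, 6), (41, 6), (82, 6), (83, 3), (84, 3), (85, 3), (86, 3), (133, 2), (136, 1), (138, 1), (139, 1)] [(187, 3), (272, 6), (276, 7), (283, 8), (418, 9), (807, 9), (810, 9), (817, 9)])
 (.pair 80 411
 (.leaf 9 [(36, 6), (41, 6), (82, 6), (83, 3), (84, 3), (85, 3), (86, 3), (133, 2), (136, 1), (138, 1), (139, 1)] [(187, 3), (272, 6), (276, 7), (283, 8), (418, 9), (807, 9), (810, 9), (817, 9)])
 (.absent 80
 (.leaf 9 [(36, 6), (41, 6), (82, 6), (83, 3), (84, 3), (85, 3), (86, 3), (133, 2), (136, 1), (138, 1), (139, 1)] [(187, 3), (272, 6), (276, 7), (283, 8), (418, 9), (807, 9), (810, 9), (817, 9)]))))))))))))))))))))))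
 certFifteen_27))))
 (.pair 68 78
 (.leaf 9 [(36, 6), (41, 6), (70, 3), (80, 3), (81, 3), (82, 3), (83, 3), (84, 3), (85, 3), (86, 3), (133, 2), (136, 1), (138, 1), (139, 1)] [(160, 3), (162, 3), (166, 3), (187, 3), (272, 6), (276, 7), (283, 8), (418, 9), (807, 9), (810, 9), (817, 9)])
 (.pair 68 80
 (.leaf 9 [(36, 6), (41, 6), (70, 3), (78, 3), (81, 3), (82, 3), (83, 3), (84, 3), (85, 3), (86, 3), (133, 2), (136, 1), (138, 1), (139, 1)] [(160, 3), (162, 3), (166, 3), (187, 3), (272, 6), (276, 7), (283, 8), (418, 9), (807, 9), (810, 9), (817, 9)])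
 (.pair 68 81
 (.leaf 9 [(36, 6), (41, 6), (70, 3), (78, 3), (80, 3), (82, 3), (83, 3), (84, 3), (85, 3), (86, 3), (133, 2), (136, 1), (138, 1), (139, 1)] [(160, 3), (162, 3), (166, 3), (187, 3), (272, 6), (276, 7), (283, 8), (418, 9), (807, 9), (810, 9), (817, 9)])
 (.pair 68 82
 (.leaf 9 [(36, 6), (41, 6), (70, 3), (78, 3), (80, 3), (81, 3), (83, 3), (84, 3), (85, 3), (86, 3), (133, 2), (136, 1), (138, 1), (139, 1)] [(160, 3), (162, 3), (166, 3), (187, 3), (272, 6), (276, 7), (283, 8), (418, 9), (807, 9), (810, 9), (817, 9)])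
 (.pair 68 83
 (.leaf 9 [(36, 6), (41, 6), (70, 3), (78, 3), (80, 3), (81, 3), (82, 3), (84, 3), (85, 3), (86, 3), (133, 2), (136, 1), (138, 1), (139, 1)] [(160, 3), (162, 3), (166, 3), (187, 3), (272, 6), (276, 7), (283, 8), (418, 9), (807, 9), (810, 9), (817, 9)])
 (.pair 68 84
 (.leaf 9 [(36, 6), (41, 6), (70, 3), (78, 3), (80, 3), (81, 3), (82, 3), (83, 3), (85, 3), (86, 3), (133, 2), (136, 1), (138, 1), (139, 1)] [(160, 3), (162, 3), (166, 3), (187, 3), (272, 6), (276, 7), (283, 8), (418, 9), (807, 9), (810, 9), (817, 9)])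
 (.pair 68 85
 (.leaf 9 [(36, 6), (41, 6), (70, 3), (78, 3), (80, 3), (81, 3), (82, 3), (83, 3), (84, 3), (86, 3), (133, 2), (136, 1), (138, 1), (139, 1)] [(160, 3), (162, 3), (166, 3), (187, 3), (272, 6), (276, 7), (283, 8), (418, 9), (807, 9), (810, 9), (817, 9)])
 (.pair 68 86
 (.leaf 9 [(36, 6), (41, 6), (70, 3), (78, 3), (80, 3), (81, 3), (82, 3), (83, 3), (84, 3), (85, 3), (133, 2), (136, 1), (138, 1), (139, 1)] [(160, 3), (162, 3), (166, 3), (187, 3), (272, 6), (276, 7), (283, 8), (418, 9), (807, 9), (810, 9), (817, 9)])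
 (.pair 68 133
 (.leaf 3 [(36, 2), (41, 2), (70, 1), (78, 1), (80, 1), (81, 1), (82, 1), (83, 1), (84, 1), (85, 1), (86, 1)] [(160, 1), (162, 1), (166, 1), (187, 1), (272, 3), (276, 3), (283, 3), (418, 3), (807, 3), (810, 3), (817, 3)])
 (.pair 68 136
 (.leaf 3 [(36, 2), (41, 2), (70, 1), (78, 1), (80, 1), (81, 1), (82, 1), (83, 1), (84, 1), (85, 1), (86, 1)] [(160, 1), (162, 1), (166, 1), (187, 1), (272, 3), (276, 3), (283, 3), (418, 3), (807, 3), (810, 3), (817, 3)])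
 (.pair 68 138
 (.leaf 3 [(36, 2), (41, 2), (70, 1), (78, 1), (80, 1), (81, 1), (82, 1), (83, 1), (84, 1), (85, 1), (86, 1)] [(160, 1), (162, 1), (166, 1), (187, 1), (272, 3), (276, 3), (283, 3), (418, 3), (807, 3), (810, 3), (817, 3)])
 (.pair 68 139
 (.leaf 3 [(36, 2), (41, 2), (70, 1), (78, 1), (80, 1), (81, 1), (82, 1), (83, 1), (84, 1), (85, 1), (86, 1)] [(160, 1), (162, 1), (166, 1), (187, 1), (272, 3), (276, 3), (283, 3), (418, 3), (807, 3), (810, 3), (817, 3)])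
 (.pair 68 141
 (.leaf 3 [(36, 2), (41, 2), (70, 1), (78, 1), (80, 1), (81, 1), (82, 1), (83, 1), (84, 1), (85, 1), (86, 1)] [(160, 1), (162, 1), (166, 1), (187, 1), (272, 3), (276, 3), (283, 3), (418, 3), (807, 3), (810, 3), (817, 3)])
 (.pair 68 143
 (.leaf 3 [(36, 2), (41, 2), (70, 1), (78, 1), (80, 1), (81, 1), (82, 1), (83, 1), (84, 1), (85, 1), (86, 1)] [(160, 1), (162, 1), (166, 1), (187, 1), (272, 3), (276, 3), (283, 3), (418, 3), (807, 3), (810, 3), (817, 3)])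
 (.pair 68 144
 (.leaf 3 [(36, 2), (41, 2), (70, 1), (78, 1), (80, 1), (81, 1), (82, 1), (83, 1), (84, 1), (85, 1), (86, 1)] [(160, 1), (162, 1), (166, 1), (187, 1), (272, 3), (276, 3), (283, 3), (418, 3), (807, 3), (810, 3), (817, 3)])
 (.pair 68 400
 (.leaf 9 [(36, 6), (41, 6), (70, 3), (78, 3), (80, 3), (81, 3), (82, 3), (83, 3), (84, 3), (85, 3), (86, 3), (133, 2), (136, 1), (138, 1), (139, 1)] [(160, 3), (162, 3), (166, 3), (187, 3), (272, 6), (276, 7), (283, 8), (418, 9), (807, 9), (810, 9), (817, 9)])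
 (.pair 68 403
 (.leaf 9 [(36, 6), (41, 6), (70, 3), (78, 3), (80, 3), (81, 3), (82, 3), (83, 3), (84, 3), (85, 3), (86, 3), (133, 2), (136, 1), (138, 1), (139, 1)] [(160, 3), (162, 3), (166, 3), (187, 3), (272, 6), (276, 7), (283, 8), (418, 9), (807, 9), (810, 9), (817, 9)])
 (.pair 68 405
 (.leaf 9 [(36, 6), (41, 6), (70, 3), (78, 3), (80, 3), (81, 3), (82, 3), (83, 3), (84, 3), (85, 3), (86, 3), (133, 2), (136, 1), (138, 1), (139, 1)] [(160, 3), (162, 3), (166, 3), (187, 3), (272, 6), (276, 7), (283, 8), (418, 9), (807, 9), (810, 9), (817, 9)])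
 (.pair 68 406
 (.leaf 9 [(36, 6), (41, 6), (70, 3), (78, 3), (80, 3), (81, 3), (82, 3), (83, 3), (84, 3), (85, 3), (86, 3), (133, 2), (136, 1), (138, 1), (139, 1)] [(160, 3), (162, 3), (166, 3), (187, 3), (272, 6), (276, 7), (283, 8), (418, 9), (807, 9), (810, 9), (817, 9)])
 (.pair 68 408
 (.leaf 9 [(36, 6), (41, 6), (70, 3), (78, 3), (80, 3), (81, 3), (82, 3), (83, 3), (84, 3), (85, 3), (86, 3), (133, 2), (136, 1), (138, 1), (139, 1)] [(160, 3), (162, 3), (166, 3), (187, 3), (272, 6), (276, 7), (283, 8), (418, 9), (807, 9), (810, 9), (817, 9)])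
 (.pair 68 411
 (.leaf 9 [(36, 6), (41, 6), (70, 3), (78, 3), (80, 3), (81, 3), (82, 3), (83, 3), (84, 3), (85, 3), (86, 3), (133, 2), (136, 1), (138, 1), (139, 1)] [(160, 3), (162, 3), (166, 3), (187, 3), (272, 6), (276, 7), (283, 8), (418, 9), (807, 9), (810, 9), (817, 9)])
 (.absent 68
 (.leaf 9 [(36, 6), (41, 6), (70, 3), (78, 3), (80, 3), (81, 3), (82, 3), (83, 3), (84, 3), (85, 3), (86, 3), (133, 2), (136, 1), (138, 1), (139, 1)] [(160, 3), (162, 3), (166, 3), (187, 3), (272, 6), (276, 7), (283, 8), (418, 9), (807, 9), (810, 9), (817, 9)]))))))))))))))))))))))))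

def certFifteen_29 : Cert :=
 (.pair 60 78
 (.leaf 9 [(36, 6), (41, 6), (68, 3), (70, 3), (80, 3), (81, 3), (82, 3), (83, 3), (84, 3), (85, 3), (86, 3), (133, 2), (136, 1), (138, 1), (139, 1)] [(145, 3), (160, 3), (162, 3), (166, 3), (187, 3), (272, 6), (276, 7), (283, 8), (418, 9), (807, 9), (810, 9), (817, 9)])
 (.pair 60 80
 (.leaf 9 [(36, 6), (41, 6), (68, 3), (70, 3), (78, 3), (81, 3), (82, 3), (83, 3), (84, 3), (85, 3), (86, 3), (133, 2), (136, 1), (138, 1), (139, 1)] [(145, 3), (160, 3), (162, 3), (166, 3), (187, 3), (272, 6), (276, 7), (283, 8), (418, 9), (807, 9), (810, 9), (817, 9)])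
 (.pair 60 81
 (.leaf 9 [(36, 6), (41, 6), (68, 3), (70, 3), (78, 3), (80, 3), (82, 3), (83, 3), (84, 3), (85, 3), (86, 3), (133, 2), (136, 1), (138, 1), (139, 1)] [(145, 3), (160, 3), (162, 3), (166, 3), (187, 3), (272, 6), (276, 7), (283, 8), (418, 9), (807, 9), (810, 9), (817, 9)])
 (.pair 60 82
 (.leaf 9 [(36, 6), (41, 6), (68, 3), (70, 3), (78, 3), (80, 3), (81, 3), (83, 3), (84, 3), (85, 3), (86, 3), (133, 2), (136, 1), (138, 1), (139, 1)] [(145, 3), (160, 3), (162, 3), (166, 3), (187, 3), (272, 6), (276, 7), (283, 8), (418, 9), (807, 9), (810, 9), (817, 9)])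
 (.pair 60 83
 (.leaf 9 [(36, 6), (41, 6), (68, 3), (70, 3), (78, 3), (80, 3), (81, 3), (82, 3), (84, 3), (85, 3), (86, 3), (133, 2), (136, 1), (138, 1), (139, 1)] [(145, 3), (160, 3), (162, 3), (166, 3), (187, 3), (272, 6), (276, 7), (283, 8), (418, 9), (807, 9), (810, 9), (817, 9)])
 (.pair 60 84
 (.leaf 9 [(36, 6), (41, 6), (68, 3), (70, 3), (78, 3), (80, 3), (81, 3), (82, 3), (83, 3), (85, 3), (86, 3), (133, 2), (136, 1), (138, 1), (139, 1)] [(145, 3), (160, 3), (162, 3), (166, 3), (187, 3), (272, 6), (276, 7), (283, 8), (418, 9), (807, 9), (810, 9), (817, 9)])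
 (.pair 60 85
 (.leaf 9 [(36, 6), (41, 6), (68, 3), (70, 3), (78, 3), (80, 3), (81, 3), (82, 3), (83, 3), (84, 3), (86, 3), (133, 2), (136, 1), (138, 1), (139, 1)] [(145, 3), (160, 3), (162, 3), (166, 3), (187, 3), (272, 6), (276, 7), (283, 8), (418, 9), (807, 9), (810, 9), (817, 9)])
 (.pair 60 86
 (.leaf 9 [(36, 6), (41, 6), (68, 3), (70, 3), (78, 3), (80, 3), (81, 3), (82, 3), (83, 3), (84, 3), (85, 3), (133, 2), (136, 1), (138, 1), (139, 1)] [(145, 3), (160, 3), (162, 3), (166, 3), (187, 3), (272, 6), (276, 7), (283, 8), (418, 9), (807, 9), (810, 9), (817, 9)])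
 (.pair 60 133
 (.leaf 6 [(36, 4), (41, 4), (68, 2), (70, 2), (78, 2), (80, 2), (81, 2), (82, 2), (83, 2), (84, 2), (85, 2), (86, 2), (136, 1), (138, 1), (139, 1)] [(145, 2), (160, 2), (162, 2), (166, 2), (187, 2), (272, 4), (276, 4), (283, 5), (418, 6), (807, 6), (810, 6), (817, 6)])
 (.pair 60 136
 (.leaf 3 [(36, 2), (41, 2), (68, 1), (70, 1), (78, 1), (80, 1), (81, 1), (82, 1), (83, 1), (84, 1), (85, 1), (86, 1), (133, 1)] [(145, 1), (160, 1), (162, 1), (166, 1), (187, 1), (272, 2), (276, 2), (283, 3), (418, 3), (807, 3), (810, 3), (817, 3)])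
 (.pair 60 138
 (.leaf 3 [(36, 2), (41, 2), (68, 1), (70, 1), (78, 1), (80, 1), (81, 1), (82, 1), (83, 1), (84, 1), (85, 1), (86, 1)] [(145, 1), (160, 1), (162, 1), (166, 1), (187, 1), (272, 3), (276, 3), (283, 3), (418, 3), (807, 3), (810, 3), (817, 3)])
 (.pair 60 139
 (.leaf 3 [(36, 2), (41, 2), (68, 1), (70, 1), (78, 1), (80, 1), (81, 1), (82, 1), (83, 1), (84, 1), (85, 1), (86, 1)] [(145, 1), (160, 1), (162, 1), (166, 1), (187, 1), (272, 3), (276, 3), (283, 3), (418, 3), (807, 3), (810, 3), (817, 3)])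
 (.pair 60 141
 (.leaf 3 [(36, 2), (41, 2), (68, 1), (70, 1), (78, 1), (80, 1), (81, 1), (82, 1), (83, 1), (84, 1), (85, 1), (86, 1)] [(145, 1), (160, 1), (162, 1), (166, 1), (187, 1), (272, 3), (276, 3), (283, 3), (418, 3), (807, 3), (810, 3), (817, 3)])
 (.pair 60 143
 (.leaf 3 [(36, 2), (41, 2), (68, 1), (70, 1), (78, 1), (80, 1), (81, 1), (82, 1), (83, 1), (84, 1), (85, 1), (86, 1)] [(145, 1), (160, 1), (162, 1), (166, 1), (187, 1), (272, 3), (276, 3), (283, 3), (418, 3), (807, 3), (810, 3), (817, 3)])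
 (.pair 60 144
 (.leaf 3 [(36, 2), (41, 2), (68, 1), (70, 1), (78, 1), (80, 1), (81, 1), (82, 1), (83, 1), (84, 1), (85, 1), (86, 1)] [(145, 1), (160, 1), (162, 1), (166, 1), (187, 1), (272, 3), (276, 3), (283, 3), (418, 3), (807, 3), (810, 3), (817, 3)])
 (.pair 60 400
 (.leaf 9 [(36, 6), (41, 6), (68, 3), (70, 3), (78, 3), (80, 3), (81, 3), (82, 3), (83, 3), (84, 3), (85, 3), (86, 3), (133, 2), (136, 1), (138, 1), (139, 1)] [(145, 3), (160, 3), (162, 3), (166, 3), (187, 3), (272, 6), (276, 7), (283, 8), (418, 9), (807, 9), (810, 9), (817, 9)])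
 (.pair 60 403
 (.leaf 9 [(36, 6), (41, 6), (68, 3), (70, 3), (78, 3), (80, 3), (81, 3), (82, 3), (83, 3), (84, 3), (85, 3), (86, 3), (133, 2), (136, 1), (138, 1), (139, 1)] [(145, 3), (160, 3), (162, 3), (166, 3), (187, 3), (272, 6), (276, 7), (283, 8), (418, 9), (807, 9), (810, 9), (817, 9)])
 (.pair 60 405
 (.leaf 9 [(36, 6), (41, 6), (68, 3), (70, 3), (78, 3), (80, 3), (81, 3), (82, 3), (83, 3), (84, 3), (85, 3), (86, 3), (133, 2), (136, 1), (138, 1), (139, 1)] [(145, 3), (160, 3), (162, 3), (166, 3), (187, 3), (272, 6), (276, 7), (283, 8), (418, 9), (807, 9), (810, 9), (817, 9)])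
 (.pair 60 406
 (.leaf 9 [(36, 6), (41, 6), (68, 3), (70, 3), (78, 3), (80, 3), (81, 3), (82, 3), (83, 3), (84, 3), (85, 3), (86, 3), (133, 2), (136, 1), (138, 1), (139, 1)] [(145, 3), (160, 3), (162, 3), (166, 3), (187, 3), (272, 6), (276, 7), (283, 8), (418, 9), (807, 9), (810, 9), (817, 9)])
 (.pair 60 408
 (.leaf 9 [(36, 6), (41, 6), (68, 3), (70, 3), (78, 3), (80, 3), (81, 3), (82, 3), (83, 3), (84, 3), (85, 3), (86, 3), (133, 2), (136, 1), (138, 1), (139, 1)] [(145, 3), (160, 3), (162, 3), (166, 3), (187, 3), (272, 6), (276, 7), (283, 8), (418, 9), (807, 9), (810, 9), (817, 9)])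
 (.pair 60 411
 (.leaf 9 [(36, 6), (41, 6), (68, 3), (70, 3), (78, 3), (80, 3), (81, 3), (82, 3), (83, 3), (84, 3), (85, 3), (86, 3), (133, 2), (136, 1), (138, 1), (139, 1)] [(145, 3), (160, 3), (162, 3), (166, 3), (187, 3), (272, 6), (276, 7), (283, 8), (418, 9), (807, 9), (810, 9), (817, 9)])
 (.absent 60
 (.leaf 9 [(36, 6), (41, 6), (68, 3), (70, 3), (78, 3), (80, 3), (81, 3), (82, 3), (83, 3), (84, 3), (85, 3), (86, 3), (133, 2), (136, 1), (138, 1), (139, 1)] [(145, 3), (160, 3), (162, 3), (166, 3), (187, 3), (272, 6), (276, 7), (283, 8), (418, 9), (807, 9), (810, 9), (817, 9)])))))))))))))))))))))))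

def certFifteen_30 : Cert :=
 (.pair 78 82
 (.pair 80 36
 (.leaf 9 [(41, 6), (81, 6), (83, 3), (84, 3), (85, 3), (86, 3), (133, 2), (136, 1), (138, 1), (139, 1)] [(187, 3), (272, 6), (276, 7), (283, 8), (418, 9), (807, 9), (810, 9), (817, 9)])
 (.pair 80 41
 (.leaf 9 [(36, 6), (81, 6), (83, 3), (84, 3), (85, 3), (86, 3), (133, 2), (136, 1), (138, 1), (139, 1)] [(187, 3), (272, 6), (276, 7), (283, 8), (418, 9), (807, 9), (810, 9), (817, 9)])
 (.pair 80 81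
 (.leaf 9 [(36, 6), (41, 6), (83, 3), (84, 3), (85, 3), (86, 3), (133, 2), (136, 1), (138, 1), (139, 1)] [(187, 3), (272, 6), (276, 7), (283, 8), (418, 9), (807, 9), (810, 9), (817, 9)])
 (.pair 80 83
 (.leaf 9 [(36, 6), (41, 6), (81, 3), (84, 3), (85, 3), (86, 3), (133, 2), (136, 1), (138, 1), (139, 1)] [(166, 3), (187, 3), (272, 6), (276, 7), (283, 8), (418, 9), (807, 9), (810, 9), (817, 9)])
 (.pair 80 84
 (.leaf 9 [(36, 6), (41, 6), (81, 3), (83, 3), (85, 3), (86, 3), (133, 2), (136, 1), (138, 1), (139, 1)] [(166, 3), (187, 3), (272, 6), (276, 7), (283, 8), (418, 9), (807, 9), (810, 9), (817, 9)])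
 (.pair 80 85
 (.leaf 9 [(36, 6), (41, 6), (81, 3), (83, 3), (84, 3), (86, 3), (133, 2), (136, 1), (138, 1), (139, 1)] [(166, 3), (187, 3), (272, 6), (276, 7), (283, 8), (418, 9), (807, 9), (810, 9), (817, 9)])
 (.pair 80 86
 (.leaf 9 [(36, 6), (41, 6), (81, 3), (83, 3), (84, 3), (85, 3), (133, 2), (136, 1), (138, 1), (139, 1)] [(166, 3), (187, 3), (272, 6), (276, 7), (283, 8), (418, 9), (807, 9), (810, 9), (817, 9)])
 (.pair 80 133
 (.leaf 3 [(36, 2), (41, 2), (81, 1), (83, 1), (84, 1), (85, 1), (86, 1)] [(166, 1), (187, 1), (272, 3), (276, 3), (283, 3), (418, 3), (807, 3), (810, 3), (817, 3)])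
 (.pair 80 136
 (.leaf 3 [(36, 2), (41, 2), (81, 1), (83, 1), (84, 1), (85, 1), (86, 1)] [(166, 1), (187, 1), (272, 3), (276, 3), (283, 3), (418, 3), (807, 3), (810, 3), (817, 3)])
 (.pair 80 138
 (.leaf 3 [(36, 2), (41, 2), (81, 2), (83, 1), (84, 1), (85, 1), (86, 1)] [(187, 1), (272, 3), (276, 3), (283, 3), (418, 3), (807, 3), (810, 3), (817, 3)])
 (.pair 80 139
 (.leaf 3 [(36, 2), (41, 2), (81, 2), (83, 1), (84, 1), (85, 1), (86, 1)] [(187, 1), (272, 3), (276, 3), (283, 3), (418, 3), (807, 3), (810, 3), (817, 3)])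
 (.pair 80 141
 (.leaf 3 [(36, 2), (41, 2), (81, 2), (83, 1), (84, 1), (85, 1), (86, 1)] [(187, 1), (272, 3), (276, 3), (283, 3), (418, 3), (807, 3), (810, 3), (817, 3)])
 (.pair 80 143
 (.leaf 3 [(36, 2), (41, 2), (81, 2), (83, 1), (84, 1), (85, 1), (86, 1)] [(187, 1), (272, 3), (276, 3), (283, 3), (418, 3), (807, 3), (810, 3), (817, 3)])
 (.pair 80 144
 (.leaf 3 [(36, 2), (41, 2), (81, 2), (83, 1), (84, 1), (85, 1), (86, 1)] [(187, 1), (272, 3), (276, 3), (283, 3), (418, 3), (807, 3), (810, 3), (817, 3)])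
 (.pair 80 400
 (.leaf 9 [(36, 6), (41, 6), (81, 3), (83, 3), (84, 3), (85, 3), (86, 3), (133, 2), (136, 1), (138, 1), (139, 1)] [(166, 3), (187, 3), (272, 6), (276, 7), (283, 8), (418, 9), (807, 9), (810, 9), (817, 9)])
 (.pair 80 403
 (.leaf 9 [(36, 6), (41, 6), (81, 3), (83, 3), (84, 3), (85, 3), (86, 3), (133, 2), (136, 1), (138, 1), (139, 1)] [(166, 3), (187, 3), (272, 6), (276, 7), (283, 8), (418, 9), (807, 9), (810, 9), (817, 9)])
 (.pair 80 405
 (.leaf 9 [(36, 6), (41, 6), (81, 3), (83, 3), (84, 3), (85, 3), (86, 3), (133, 2), (136, 1), (138, 1), (139, 1)] [(166, 3), (187, 3), (272, 6), (276, 7), (283, 8), (418, 9), (807, 9), (810, 9), (817, 9)])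
 (.pair 80 406
 (.leaf 9 [(36, 6), (41, 6), (81, 3), (83, 3), (84, 3), (85, 3), (86, 3), (133, 2), (136, 1), (138, 1), (139, 1)] [(166, 3), (187, 3), (272, 6), (276, 7), (283, 8), (418, 9), (807, 9), (810, 9), (817, 9)])
 (.pair 80 408
 (.leaf 9 [(36, 6), (41, 6), (81, 6), (83, 3), (84, 3), (85, 3), (86, 3), (133, 2), (136, 1), (138, 1), (139, 1)] [(187, 3), (272, 6), (276, 7), (283, 8), (418, 9), (807, 9), (810, 9), (817, 9)])
 (.pair 80 410
 (.leaf 9 [(36, 6), (41, 6), (81, 6), (83, 3), (84, 3), (85, 3), (86, 3), (133, 2), (136, 1), (138, 1), (139, 1)] [(187, 3), (272, 6), (276, 7), (283, 8), (418, 9), (807, 9), (810, 9), (817, 9)])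
 (.absent 80
 (.leaf 9 [(36, 6), (41, 6), (81, 6), (83, 3), (84, 3), (85, 3), (86, 3), (133, 2), (136, 1), (138, 1), (139, 1)] [(187, 3), (272, 6), (276, 7), (283, 8), (418, 9), (807, 9), (810, 9), (817, 9)]))))))))))))))))))))))
 (.pair 78 83
 (.leaf 9 [(36, 6), (41, 6), (80, 3), (81, 3), (82, 3), (84, 3), (85, 3), (86, 3), (133, 2), (136, 1), (138, 1), (139, 1)] [(162, 3), (166, 3), (187, 3), (272, 6), (276, 7), (283, 8), (418, 9), (807, 9), (810, 9), (817, 9)])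
 (.pair 78 84
 (.leaf 9 [(36, 6), (41, 6), (80, 3), (81, 3), (82, 3), (83, 3), (85, 3), (86, 3), (133, 2), (136, 1), (138, 1), (139, 1)] [(162, 3), (166, 3), (187, 3), (272, 6), (276, 7), (283, 8), (418, 9), (807, 9), (810, 9), (817, 9)])
 (.pair 78 85
 (.leaf 9 [(36, 6), (41, 6), (80, 6), (81, 3), (82, 3), (83, 3), (84, 3), (86, 3), (133, 2), (136, 1), (138, 1), (139, 1)] [(166, 3), (187, 3), (272, 6), (276, 7), (283, 8), (418, 9), (807, 9), (810, 9), (817, 9)])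
 (.pair 78 86
 (.leaf 9 [(36, 6), (41, 6), (80, 6), (81, 3), (82, 3), (83, 3), (84, 3), (85, 3), (133, 2), (136, 1), (138, 1), (139, 1)] [(166, 3), (187, 3), (272, 6), (276, 7), (283, 8), (418, 9), (807, 9), (810, 9), (817, 9)])
 (.pair 78 133
 (.leaf 6 [(36, 4), (41, 4), (80, 4), (81, 2), (82, 2), (83, 2), (84, 2), (85, 2), (86, 2), (136, 1), (138, 1), (139, 1)] [(166, 2), (187, 2), (272, 4), (276, 4), (283, 5), (418, 6), (807, 6), (810, 6), (817, 6)])
 (.pair 78 136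
 (.leaf 3 [(36, 2), (41, 2), (80, 2), (81, 1), (82, 1), (83, 1), (84, 1), (85, 1), (86, 1)] [(166, 1), (187, 1), (272, 3), (276, 3), (283, 3), (418, 3), (807, 3), (810, 3), (817, 3)])
 (.pair 78 138
 (.leaf 3 [(36, 2), (41, 2), (80, 2), (81, 1), (82, 1), (83, 1), (84, 1), (85, 1), (86, 1)] [(166, 1), (187, 1), (272, 3), (276, 3), (283, 3), (418, 3), (807, 3), (810, 3), (817, 3)])
 (.pair 78 139
 (.leaf 3 [(36, 2), (41, 2), (80, 2), (81, 1), (82, 1), (83, 1), (84, 1), (85, 1), (86, 1)] [(166, 1), (187, 1), (272, 3), (276, 3), (283, 3), (418, 3), (807, 3), (810, 3), (817, 3)])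
 (.pair 78 141
 (.leaf 3 [(36, 2), (41, 2), (80, 2), (81, 1), (82, 1), (83, 1), (84, 1), (85, 1), (86, 1)] [(166, 1), (187, 1), (272, 3), (276, 3), (283, 3), (418, 3), (807, 3), (810, 3), (817, 3)])
 (.pair 78 143
 (.leaf 3 [(36, 2), (41, 2), (80, 2), (81, 1), (82, 1), (83, 1), (84, 1), (85, 1), (86, 1)] [(166, 1), (187, 1), (272, 3), (276, 3), (283, 3), (418, 3), (807, 3), (810, 3), (817, 3)])
 (.pair 78 144
 (.leaf 3 [(36, 2), (41, 2), (80, 2), (81, 1), (82, 1), (83, 1), (84, 1), (85, 1), (86, 1)] [(166, 1), (187, 1), (272, 3), (276, 3), (283, 3), (418, 3), (807, 3), (810, 3), (817, 3)])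
 (.pair 78 400
 (.leaf 9 [(36, 6), (41, 6), (80, 6), (81, 3), (82, 3), (83, 3), (84, 3), (85, 3), (86, 3), (133, 2), (136, 1), (138, 1), (139, 1)] [(166, 3), (187, 3), (272, 6), (276, 7), (283, 8), (418, 9), (807, 9), (810, 9), (817, 9)])
 (.pair 78 403
 (.leaf 9 [(36, 6), (41, 6), (80, 6), (81, 3), (82, 3), (83, 3), (84, 3), (85, 3), (86, 3), (133, 2), (136, 1), (138, 1), (139, 1)] [(166, 3), (187, 3), (272, 6), (276, 7), (283, 8), (418, 9), (807, 9), (810, 9), (817, 9)])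
 (.pair 78 405
 (.leaf 9 [(36, 6), (41, 6), (80, 6), (81, 3), (82, 3), (83, 3), (84, 3), (85, 3), (86, 3), (133, 2), (136, 1), (138, 1), (139, 1)] [(166, 3), (187, 3), (272, 6), (276, 7), (283, 8), (418, 9), (807, 9), (810, 9), (817, 9)])
 (.pair 78 406
 (.leaf 9 [(36, 6), (41, 6), (80, 6), (81, 3), (82, 3), (83, 3), (84, 3), (85, 3), (86, 3), (133, 2), (136, 1), (138, 1), (139, 1)] [(166, 3), (187, 3), (272, 6), (276, 7), (283, 8), (418, 9), (807, 9), (810, 9), (817, 9)])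
 (.pair 78 408
 (.leaf 9 [(36, 6), (41, 6), (80, 6), (81, 3), (82, 3), (83, 3), (84, 3), (85, 3), (86, 3), (133, 2), (136, 1), (138, 1), (139, 1)] [(166, 3), (187, 3), (272, 6), (276, 7), (283, 8), (418, 9), (807, 9), (810, 9), (817, 9)])
 (.pair 78 410
 (.leaf 9 [(36, 6), (41, 6), (80, 6), (81, 3), (82, 3), (83, 3), (84, 3), (85, 3), (86, 3), (133, 2), (136, 1), (138, 1), (139, 1)] [(166, 3), (187, 3), (272, 6), (276, 7), (283, 8), (418, 9), (807, 9), (810, 9), (817, 9)])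
 (.absent 78
 (.leaf 9 [(36, 6), (41, 6), (80, 6), (81, 3), (82, 3), (83, 3), (84, 3), (85, 3), (86, 3), (133, 2), (136, 1), (138, 1), (139, 1)] [(166, 3), (187, 3), (272, 6), (276, 7), (283, 8), (418, 9), (807, 9), (810, 9), (817, 9)]))))))))))))))))))))

def certFifteen_31 : Cert :=
 (.pair 70 70
 (.pair 78 36
 (.leaf 18 [(41, 12), (80, 9), (81, 9), (82, 9), (83, 6), (84, 6), (85, 6), (86, 6), (133, 4), (136, 2), (138, 2), (139, 2)] [(166, 3), (187, 6), (272, 12), (276, 14), (283, 16), (418, 18), (807, 18), (810, 18), (817, 18)])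
 (.pair 78 41
 (.leaf 18 [(36, 12), (80, 9), (81, 9), (82, 9), (83, 6), (84, 6), (85, 6), (86, 6), (133, 4), (136, 2), (138, 2), (139, 2)] [(166, 3), (187, 6), (272, 12), (276, 14), (283, 16), (418, 18), (807, 18), (810, 18), (817, 18)])
 (.pair 78 80
 (.leaf 9 [(36, 6), (41, 6), (81, 3), (82, 3), (83, 3), (84, 3), (85, 3), (86, 3), (133, 2), (136, 1), (138, 1), (139, 1)] [(166, 3), (187, 3), (272, 6), (276, 7), (283, 8), (418, 9), (807, 9), (810, 9), (817, 9)])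
 (.pair 78 81
 (.pair 80 36
 (.leaf 9 [(41, 6), (82, 6), (83, 3), (84, 3), (85, 3), (86, 3), (133, 2), (136, 1), (138, 1), (139, 1)] [(187, 3), (272, 6), (276, 7), (283, 8), (418, 9), (807, 9), (810, 9), (817, 9)])
 (.pair 80 41
 (.leaf 9 [(36, 6), (82, 6), (83, 3), (84, 3), (85, 3), (86, 3), (133, 2), (136, 1), (138, 1), (139, 1)] [(187, 3), (272, 6), (276, 7), (283, 8), (418, 9), (807, 9), (810, 9), (817, 9)])
 (.pair 80 82
 (.leaf 9 [(36, 6), (41, 6), (83, 3), (84, 3), (85, 3), (86, 3), (133, 2), (136, 1), (138, 1), (139, 1)] [(187, 3), (272, 6), (276, 7), (283, 8), (418, 9), (807, 9), (810, 9), (817, 9)])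
 (.pair 80 83
 (.leaf 9 [(36, 6), (41, 6), (82, 3), (84, 3), (85, 3), (86, 3), (133, 2), (136, 1), (138, 1), (139, 1)] [(166, 3), (187, 3), (272, 6), (276, 7), (283, 8), (418, 9), (807, 9), (810, 9), (817, 9)])
 (.pair 80 84
 (.leaf 9 [(36, 6), (41, 6), (82, 3), (83, 3), (85, 3), (86, 3), (133, 2), (136, 1), (138, 1), (139, 1)] [(166, 3), (187, 3), (272, 6), (276, 7), (283, 8), (418, 9), (807, 9), (810, 9), (817, 9)])
 (.pair 80 85
 (.leaf 9 [(36, 6), (41, 6), (82, 3), (83, 3), (84, 3), (86, 3), (133, 2), (136, 1), (138, 1), (139, 1)] [(166, 3), (187, 3), (272, 6), (276, 7), (283, 8), (418, 9), (807, 9), (810, 9), (817, 9)])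
 (.pair 80 86
 (.leaf 9 [(36, 6), (41, 6), (82, 3), (83, 3), (84, 3), (85, 3), (133, 2), (136, 1), (138, 1), (139, 1)] [(166, 3), (187, 3), (272, 6), (276, 7), (283, 8), (418, 9), (807, 9), (810, 9), (817, 9)])
 (.pair 80 133
 (.leaf 3 [(36, 2), (41, 2), (82, 1), (83, 1), (84, 1), (85, 1), (86, 1)] [(166, 1), (187, 1), (272, 3), (276, 3), (283, 3), (418, 3), (807, 3), (810, 3), (817, 3)])
 (.pair 80 136
 (.leaf 3 [(36, 2), (41, 2), (82, 1), (83, 1), (84, 1), (85, 1), (86, 1)] [(166, 1), (187, 1), (272, 3), (276, 3), (283, 3), (418, 3), (807, 3), (810, 3), (817, 3)])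
 (.pair 80 138
 (.leaf 3 [(36, 2), (41, 2), (82, 2), (83, 1), (84, 1), (85, 1), (86, 1)] [(187, 1), (272, 3), (276, 3), (283, 3), (418, 3), (807, 3), (810, 3), (817, 3)])
 (.pair 80 139
 (.leaf 3 [(36, 2), (41, 2), (82, 2), (83, 1), (84, 1), (85, 1), (86, 1)] [(187, 1), (272, 3), (276, 3), (283, 3), (418, 3), (807, 3), (810, 3), (817, 3)])
 (.pair 80 141
 (.leaf 3 [(36, 2), (41, 2), (82, 2), (83, 1), (84, 1), (85, 1), (86, 1)] [(187, 1), (272, 3), (276, 3), (283, 3), (418, 3), (807, 3), (810, 3), (817, 3)])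
 (.pair 80 143
 (.leaf 3 [(36, 2), (41, 2), (82, 2), (83, 1), (84, 1), (85, 1), (86, 1)] [(187, 1), (272, 3), (276, 3), (283, 3), (418, 3), (807, 3), (810, 3), (817, 3)])
 (.pair 80 144
 (.leaf 3 [(36, 2), (41, 2), (82, 2), (83, 1), (84, 1), (85, 1), (86, 1)] [(187, 1), (272, 3), (276, 3), (283, 3), (418, 3), (807, 3), (810, 3), (817, 3)])
 (.pair 80 400
 (.leaf 9 [(36, 6), (41, 6), (82, 3), (83, 3), (84, 3), (85, 3), (86, 3), (133, 2), (136, 1), (138, 1), (139, 1)] [(166, 3), (187, 3), (272, 6), (276, 7), (283, 8), (418, 9), (807, 9), (810, 9), (817, 9)])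
 (.pair 80 403
 (.leaf 9 [(36, 6), (41, 6), (82, 3), (83, 3), (84, 3), (85, 3), (86, 3), (133, 2), (136, 1), (138, 1), (139, 1)] [(166, 3), (187, 3), (272, 6), (276, 7), (283, 8), (418, 9), (807, 9), (810, 9), (817, 9)])
 (.pair 80 405
 (.leaf 9 [(36, 6), (41, 6), (82, 3), (83, 3), (84, 3), (85, 3), (86, 3), (133, 2), (136, 1), (138, 1), (139, 1)] [(166, 3), (187, 3), (272, 6), (276, 7), (283, 8), (418, 9), (807, 9), (810, 9), (817, 9)])
 (.pair 80 406
 (.leaf 9 [(36, 6), (41, 6), (82, 3), (83, 3), (84, 3), (85, 3), (86, 3), (133, 2), (136, 1), (138, 1), (139, 1)] [(166, 3), (187, 3), (272, 6), (276, 7), (283, 8), (418, 9), (807, 9), (810, 9), (817, 9)])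
 (.pair 80 408
 (.leaf 9 [(36, 6), (41, 6), (82, 6), (83, 3), (84, 3), (85, 3), (86, 3), (133, 2), (136, 1), (138, 1), (139, 1)] [(187, 3), (272, 6), (276, 7), (283, 8), (418, 9), (807, 9), (810, 9), (817, 9)])
 (.pair 80 410
 (.leaf 9 [(36, 6), (41, 6), (82, 6), (83, 3), (84, 3), (85, 3), (86, 3), (133, 2), (136, 1), (138, 1), (139, 1)] [(187, 3), (272, 6), (276, 7), (283, 8), (418, 9), (807, 9), (810, 9), (817, 9)])
 (.absent 80
 (.leaf 9 [(36, 6), (41, 6), (82, 6), (83, 3), (84, 3), (85, 3), (86, 3), (133, 2), (136, 1), (138, 1), (139, 1)] [(187, 3), (272, 6), (276, 7), (283, 8), (418, 9), (807, 9), (810, 9), (817, 9)]))))))))))))))))))))))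
 certFifteen_30))))
 (.pair 70 78
 (.leaf 9 [(36, 6), (41, 6), (70, 3), (80, 3), (81, 3), (82, 3), (83, 3), (84, 3), (85, 3), (86, 3), (133, 2), (136, 1), (138, 1), (139, 1)] [(160, 3), (162, 3), (166, 3), (187, 3), (272, 6), (276, 7), (283, 8), (418, 9), (807, 9), (810, 9), (817, 9)])
 (.pair 70 80
 (.leaf 9 [(36, 6), (41, 6), (70, 3), (78, 3), (81, 3), (82, 3), (83, 3), (84, 3), (85, 3), (86, 3), (133, 2), (136, 1), (138, 1), (139, 1)] [(160, 3), (162, 3), (166, 3), (187, 3), (272, 6), (276, 7), (283, 8), (418, 9), (807, 9), (810, 9), (817, 9)])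
 (.pair 70 81
 (.leaf 9 [(36, 6), (41, 6), (70, 3), (78, 3), (80, 3), (82, 3), (83, 3), (84, 3), (85, 3), (86, 3), (133, 2), (136, 1), (138, 1), (139, 1)] [(160, 3), (162, 3), (166, 3), (187, 3), (272, 6), (276, 7), (283, 8), (418, 9), (807, 9), (810, 9), (817, 9)])
 (.pair 70 82
 (.leaf 9 [(36, 6), (41, 6), (70, 3), (78, 3), (80, 3), (81, 3), (83, 3), (84, 3), (85, 3), (86, 3), (133, 2), (136, 1), (138, 1), (139, 1)] [(160, 3), (162, 3), (166, 3), (187, 3), (272, 6), (276, 7), (283, 8), (418, 9), (807, 9), (810, 9), (817, 9)])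
 (.pair 70 83
 (.leaf 9 [(36, 6), (41, 6), (70, 3), (78, 3), (80, 3), (81, 3), (82, 3), (84, 3), (85, 3), (86, 3), (133, 2), (136, 1), (138, 1), (139, 1)] [(160, 3), (162, 3), (166, 3), (187, 3), (272, 6), (276, 7), (283, 8), (418, 9), (807, 9), (810, 9), (817, 9)])
 (.pair 70 84
 (.leaf 9 [(36, 6), (41, 6), (70, 3), (78, 3), (80, 3), (81, 3), (82, 3), (83, 3), (85, 3), (86, 3), (133, 2), (136, 1), (138, 1), (139, 1)] [(160, 3), (162, 3), (166, 3), (187, 3), (272, 6), (276, 7), (283, 8), (418, 9), (807, 9), (810, 9), (817, 9)])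
 (.pair 70 85
 (.leaf 9 [(36, 6), (41, 6), (70, 3), (78, 3), (80, 3), (81, 3), (82, 3), (83, 3), (84, 3), (86, 3), (133, 2), (136, 1), (138, 1), (139, 1)] [(160, 3), (162, 3), (166, 3), (187, 3), (272, 6), (276, 7), (283, 8), (418, 9), (807, 9), (810, 9), (817, 9)])
 (.pair 70 86
 (.leaf 9 [(36, 6), (41, 6), (70, 3), (78, 3), (80, 3), (81, 3), (82, 3), (83, 3), (84, 3), (85, 3), (133, 2), (136, 1), (138, 1), (139, 1)] [(160, 3), (162, 3), (166, 3), (187, 3), (272, 6), (276, 7), (283, 8), (418, 9), (807, 9), (810, 9), (817, 9)])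
 (.pair 70 133
 (.leaf 3 [(36, 2), (41, 2), (70, 1), (78, 1), (80, 1), (81, 1), (82, 1), (83, 1), (84, 1), (85, 1), (86, 1)] [(160, 1), (162, 1), (166, 1), (187, 1), (272, 3), (276, 3), (283, 3), (418, 3), (807, 3), (810, 3), (817, 3)])
 (.pair 70 136
 (.leaf 3 [(36, 2), (41, 2), (70, 1), (78, 1), (80, 1), (81, 1), (82, 1), (83, 1), (84, 1), (85, 1), (86, 1)] [(160, 1), (162, 1), (166, 1), (187, 1), (272, 3), (276, 3), (283, 3), (418, 3), (807, 3), (810, 3), (817, 3)])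
 (.pair 70 138
 (.leaf 3 [(36, 2), (41, 2), (70, 1), (78, 1), (80, 1), (81, 1), (82, 1), (83, 1), (84, 1), (85, 1), (86, 1)] [(160, 1), (162, 1), (166, 1), (187, 1), (272, 3), (276, 3), (283, 3), (418, 3), (807, 3), (810, 3), (817, 3)])
 (.pair 70 139
 (.leaf 3 [(36, 2), (41, 2), (70, 1), (78, 1), (80, 1), (81, 1), (82, 1), (83, 1), (84, 1), (85, 1), (86, 1)] [(160, 1), (162, 1), (166, 1), (187, 1), (272, 3), (276, 3), (283, 3), (418, 3), (807, 3), (810, 3), (817, 3)])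
 (.pair 70 141
 (.leaf 3 [(36, 2), (41, 2), (70, 1), (78, 1), (80, 1), (81, 1), (82, 1), (83, 1), (84, 1), (85, 1), (86, 1)] [(160, 1), (162, 1), (166, 1), (187, 1), (272, 3), (276, 3), (283, 3), (418, 3), (807, 3), (810, 3), (817, 3)])
 (.pair 70 143
 (.leaf 3 [(36, 2), (41, 2), (70, 1), (78, 1), (80, 1), (81, 1), (82, 1), (83, 1), (84, 1), (85, 1), (86, 1)] [(160, 1), (162, 1), (166, 1), (187, 1), (272, 3), (276, 3), (283, 3), (418, 3), (807, 3), (810, 3), (817, 3)])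
 (.pair 70 144
 (.leaf 3 [(36, 2), (41, 2), (70, 1), (78, 1), (80, 1), (81, 1), (82, 1), (83, 1), (84, 1), (85, 1), (86, 1)] [(160, 1), (162, 1), (166, 1), (187, 1), (272, 3), (276, 3), (283, 3), (418, 3), (807, 3), (810, 3), (817, 3)])
 (.pair 70 400
 (.leaf 9 [(36, 6), (41, 6), (70, 3), (78, 3), (80, 3), (81, 3), (82, 3), (83, 3), (84, 3), (85, 3), (86, 3), (133, 2), (136, 1), (138, 1), (139, 1)] [(160, 3), (162, 3), (166, 3), (187, 3), (272, 6), (276, 7), (283, 8), (418, 9), (807, 9), (810, 9), (817, 9)])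
 (.pair 70 403
 (.leaf 9 [(36, 6), (41, 6), (70, 3), (78, 3), (80, 3), (81, 3), (82, 3), (83, 3), (84, 3), (85, 3), (86, 3), (133, 2), (136, 1), (138, 1), (139, 1)] [(160, 3), (162, 3), (166, 3), (187, 3), (272, 6), (276, 7), (283, 8), (418, 9), (807, 9), (810, 9), (817, 9)])
 (.pair 70 405
 (.leaf 9 [(36, 6), (41, 6), (70, 3), (78, 3), (80, 3), (81, 3), (82, 3), (83, 3), (84, 3), (85, 3), (86, 3), (133, 2), (136, 1), (138, 1), (139, 1)] [(160, 3), (162, 3), (166, 3), (187, 3), (272, 6), (276, 7), (283, 8), (418, 9), (807, 9), (810, 9), (817, 9)])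
 (.pair 70 406
 (.leaf 9 [(36, 6), (41, 6), (70, 3), (78, 3), (80, 3), (81, 3), (82, 3), (83, 3), (84, 3), (85, 3), (86, 3), (133, 2), (136, 1), (138, 1), (139, 1)] [(160, 3), (162, 3), (166, 3), (187, 3), (272, 6), (276, 7), (283, 8), (418, 9), (807, 9), (810, 9), (817, 9)])
 (.pair 70 408
 (.leaf 9 [(36, 6), (41, 6), (70, 3), (78, 3), (80, 3), (81, 3), (82, 3), (83, 3), (84, 3), (85, 3), (86, 3), (133, 2), (136, 1), (138, 1), (139, 1)] [(160, 3), (162, 3), (166, 3), (187, 3), (272, 6), (276, 7), (283, 8), (418, 9), (807, 9), (810, 9), (817, 9)])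
 (.pair 70 410
 (.leaf 9 [(36, 6), (41, 6), (70, 3), (78, 3), (80, 3), (81, 3), (82, 3), (83, 3), (84, 3), (85, 3), (86, 3), (133, 2), (136, 1), (138, 1), (139, 1)] [(160, 3), (162, 3), (166, 3), (187, 3), (272, 6), (276, 7), (283, 8), (418, 9), (807, 9), (810, 9), (817, 9)])
 (.absent 70
 (.leaf 9 [(36, 6), (41, 6), (70, 3), (78, 3), (80, 3), (81, 3), (82, 3), (83, 3), (84, 3), (85, 3), (86, 3), (133, 2), (136, 1), (138, 1), (139, 1)] [(160, 3), (162, 3), (166, 3), (187, 3), (272, 6), (276, 7), (283, 8), (418, 9), (807, 9), (810, 9), (817, 9)]))))))))))))))))))))))))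

def certFifteen_32 : Cert :=
 (.pair 78 82
 (.pair 80 36
 (.leaf 9 [(41, 6), (81, 6), (83, 3), (84, 3), (85, 3), (86, 3), (133, 2), (136, 1), (138, 1), (139, 1)] [(187, 3), (272, 6), (276, 7), (283, 8), (418, 9), (807, 9), (810, 9), (817, 9)])
 (.pair 80 41
 (.leaf 9 [(36, 6), (81, 6), (83, 3), (84, 3), (85, 3), (86, 3), (133, 2), (136, 1), (138, 1), (139, 1)] [(187, 3), (272, 6), (276, 7), (283, 8), (418, 9), (807, 9), (810, 9), (817, 9)])
 (.pair 80 81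
 (.leaf 9 [(36, 6), (41, 6), (83, 3), (84, 3), (85, 3), (86, 3), (133, 2), (136, 1), (138, 1), (139, 1)] [(187, 3), (272, 6), (276, 7), (283, 8), (418, 9), (807, 9), (810, 9), (817, 9)])
 (.pair 80 83
 (.leaf 9 [(36, 6), (41, 6), (81, 3), (84, 3), (85, 3), (86, 3), (133, 2), (136, 1), (138, 1), (139, 1)] [(166, 3), (187, 3), (272, 6), (276, 7), (283, 8), (418, 9), (807, 9), (810, 9), (817, 9)])
 (.pair 80 84
 (.leaf 9 [(36, 6), (41, 6), (81, 3), (83, 3), (85, 3), (86, 3), (133, 2), (136, 1), (138, 1), (139, 1)] [(166, 3), (187, 3), (272, 6), (276, 7), (283, 8), (418, 9), (807, 9), (810, 9), (817, 9)])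
 (.pair 80 85
 (.leaf 9 [(36, 6), (41, 6), (81, 3), (83, 3), (84, 3), (86, 3), (133, 2), (136, 1), (138, 1), (139, 1)] [(166, 3), (187, 3), (272, 6), (276, 7), (283, 8), (418, 9), (807, 9), (810, 9), (817, 9)])
 (.pair 80 86
 (.leaf 9 [(36, 6), (41, 6), (81, 3), (83, 3), (84, 3), (85, 3), (133, 2), (136, 1), (138, 1), (139, 1)] [(166, 3), (187, 3), (272, 6), (276, 7), (283, 8), (418, 9), (807, 9), (810, 9), (817, 9)])
 (.pair 80 133
 (.leaf 3 [(36, 2), (41, 2), (81, 1), (83, 1), (84, 1), (85, 1), (86, 1)] [(166, 1), (187, 1), (272, 3), (276, 3), (283, 3), (418, 3), (807, 3), (810, 3), (817, 3)])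
 (.pair 80 136
 (.leaf 3 [(36, 2), (41, 2), (81, 1), (83, 1), (84, 1), (85, 1), (86, 1)] [(166, 1), (187, 1), (272, 3), (276, 3), (283, 3), (418, 3), (807, 3), (810, 3), (817, 3)])
 (.pair 80 138
 (.leaf 3 [(36, 2), (41, 2), (81, 2), (83, 1), (84, 1), (85, 1), (86, 1)] [(187, 1), (272, 3), (276, 3), (283, 3), (418, 3), (807, 3), (810, 3), (817, 3)])
 (.pair 80 139
 (.leaf 3 [(36, 2), (41, 2), (81, 2), (83, 1), (84, 1), (85, 1), (86, 1)] [(187, 1), (272, 3), (276, 3), (283, 3), (418, 3), (807, 3), (810, 3), (817, 3)])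
 (.pair 80 141
 (.leaf 3 [(36, 2), (41, 2), (81, 2), (83, 1), (84, 1), (85, 1), (86, 1)] [(187, 1), (272, 3), (276, 3), (283, 3), (418, 3), (807, 3), (810, 3), (817, 3)])
 (.pair 80 143
 (.leaf 3 [(36, 2), (41, 2), (81, 2), (83, 1), (84, 1), (85, 1), (86, 1)] [(187, 1), (272, 3), (276, 3), (283, 3), (418, 3), (807, 3), (810, 3), (817, 3)])
 (.pair 80 144
 (.leaf 3 [(36, 2), (41, 2), (81, 2), (83, 1), (84, 1), (85, 1), (86, 1)] [(187, 1), (272, 3), (276, 3), (283, 3), (418, 3), (807, 3), (810, 3), (817, 3)])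
 (.pair 80 400
 (.leaf 9 [(36, 6), (41, 6), (81, 3), (83, 3), (84, 3), (85, 3), (86, 3), (133, 2), (136, 1), (138, 1), (139, 1)] [(166, 3), (187, 3), (272, 6), (276, 7), (283, 8), (418, 9), (807, 9), (810, 9), (817, 9)])
 (.pair 80 403
 (.leaf 9 [(36, 6), (41, 6), (81, 3), (83, 3), (84, 3), (85, 3), (86, 3), (133, 2), (136, 1), (138, 1), (139, 1)] [(166, 3), (187, 3), (272, 6), (276, 7), (283, 8), (418, 9), (807, 9), (810, 9), (817, 9)])
 (.pair 80 405
 (.leaf 9 [(36, 6), (41, 6), (81, 3), (83, 3), (84, 3), (85, 3), (86, 3), (133, 2), (136, 1), (138, 1), (139, 1)] [(166, 3), (187, 3), (272, 6), (276, 7), (283, 8), (418, 9), (807, 9), (810, 9), (817, 9)])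
 (.pair 80 406
 (.leaf 9 [(36, 6), (41, 6), (81, 3), (83, 3), (84, 3), (85, 3), (86, 3), (133, 2), (136, 1), (138, 1), (139, 1)] [(166, 3), (187, 3), (272, 6), (276, 7), (283, 8), (418, 9), (807, 9), (810, 9), (817, 9)])
 (.pair 80 408
 (.leaf 9 [(36, 6), (41, 6), (81, 6), (83, 3), (84, 3), (85, 3), (86, 3), (133, 2), (136, 1), (138, 1), (139, 1)] [(187, 3), (272, 6), (276, 7), (283, 8), (418, 9), (807, 9), (810, 9), (817, 9)])
 (.pair 80 410
 (.leaf 9 [(36, 6), (41, 6), (81, 6), (83, 3), (84, 3), (85, 3), (86, 3), (133, 2), (136, 1), (138, 1), (139, 1)] [(187, 3), (272, 6), (276, 7), (283, 8), (418, 9), (807, 9), (810, 9), (817, 9)])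
 (.absent 80
 (.leaf 9 [(36, 6), (41, 6), (81, 6), (83, 3), (84, 3), (85, 3), (86, 3), (133, 2), (136, 1), (138, 1), (139, 1)] [(187, 3), (272, 6), (276, 7), (283, 8), (418, 9), (807, 9), (810, 9), (817, 9)]))))))))))))))))))))))
 (.pair 78 83
 (.leaf 9 [(36, 6), (41, 6), (80, 3), (81, 3), (82, 3), (84, 3), (85, 3), (86, 3), (133, 2), (136, 1), (138, 1), (139, 1)] [(162, 3), (166, 3), (187, 3), (272, 6), (276, 7), (283, 8), (418, 9), (807, 9), (810, 9), (817, 9)])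
 (.pair 78 84
 (.leaf 9 [(36, 6), (41, 6), (80, 3), (81, 3), (82, 3), (83, 3), (85, 3), (86, 3), (133, 2), (136, 1), (138, 1), (139, 1)] [(162, 3), (166, 3), (187, 3), (272, 6), (276, 7), (283, 8), (418, 9), (807, 9), (810, 9), (817, 9)])
 (.pair 78 85
 (.leaf 9 [(36, 6), (41, 6), (80, 6), (81, 3), (82, 3), (83, 3), (84, 3), (86, 3), (133, 2), (136, 1), (138, 1), (139, 1)] [(166, 3), (187, 3), (272, 6), (276, 7), (283, 8), (418, 9), (807, 9), (810, 9), (817, 9)])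
 (.pair 78 86
 (.leaf 9 [(36, 6), (41, 6), (80, 6), (81, 3), (82, 3), (83, 3), (84, 3), (85, 3), (133, 2), (136, 1), (138, 1), (139, 1)] [(166, 3), (187, 3), (272, 6), (276, 7), (283, 8), (418, 9), (807, 9), (810, 9), (817, 9)])
 (.pair 78 133
 (.leaf 6 [(36, 4), (41, 4), (80, 4), (81, 2), (82, 2), (83, 2), (84, 2), (85, 2), (86, 2), (136, 1), (138, 1), (139, 1)] [(166, 2), (187, 2), (272, 4), (276, 4), (283, 5), (418, 6), (807, 6), (810, 6), (817, 6)])
 (.pair 78 136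
 (.leaf 3 [(36, 2), (41, 2), (80, 2), (81, 1), (82, 1), (83, 1), (84, 1), (85, 1), (86, 1)] [(166, 1), (187, 1), (272, 3), (276, 3), (283, 3), (418, 3), (807, 3), (810, 3), (817, 3)])
 (.pair 78 138
 (.leaf 3 [(36, 2), (41, 2), (80, 2), (81, 1), (82, 1), (83, 1), (84, 1), (85, 1), (86, 1)] [(166, 1), (187, 1), (272, 3), (276, 3), (283, 3), (418, 3), (807, 3), (810, 3), (817, 3)])
 (.pair 78 139
 (.leaf 3 [(36, 2), (41, 2), (80, 2), (81, 1), (82, 1), (83, 1), (84, 1), (85, 1), (86, 1)] [(166, 1), (187, 1), (272, 3), (276, 3), (283, 3), (418, 3), (807, 3), (810, 3), (817, 3)])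
 (.pair 78 141
 (.leaf 3 [(36, 2), (41, 2), (80, 2), (81, 1), (82, 1), (83, 1), (84, 1), (85, 1), (86, 1)] [(166, 1), (187, 1), (272, 3), (276, 3), (283, 3), (418, 3), (807, 3), (810, 3), (817, 3)])
 (.pair 78 143
 (.leaf 3 [(36, 2), (41, 2), (80, 2), (81, 1), (82, 1), (83, 1), (84, 1), (85, 1), (86, 1)] [(166, 1), (187, 1), (272, 3), (276, 3), (283, 3), (418, 3), (807, 3), (810, 3), (817, 3)])
 (.pair 78 144
 (.leaf 3 [(36, 2), (41, 2), (80, 2), (81, 1), (82, 1), (83, 1), (84, 1), (85, 1), (86, 1)] [(166, 1), (187, 1), (272, 3), (276, 3), (283, 3), (418, 3), (807, 3), (810, 3), (817, 3)])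
 (.pair 78 400
 (.leaf 9 [(36, 6), (41, 6), (80, 6), (81, 3), (82, 3), (83, 3), (84, 3), (85, 3), (86, 3), (133, 2), (136, 1), (138, 1), (139, 1)] [(166, 3), (187, 3), (272, 6), (276, 7), (283, 8), (418, 9), (807, 9), (810, 9), (817, 9)])
 (.pair 78 403
 (.leaf 9 [(36, 6), (41, 6), (80, 6), (81, 3), (82, 3), (83, 3), (84, 3), (85, 3), (86, 3), (133, 2), (136, 1), (138, 1), (139, 1)] [(166, 3), (187, 3), (272, 6), (276, 7), (283, 8), (418, 9), (807, 9), (810, 9), (817, 9)])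
 (.pair 78 405
 (.leaf 9 [(36, 6), (41, 6), (80, 6), (81, 3), (82, 3), (83, 3), (84, 3), (85, 3), (86, 3), (133, 2), (136, 1), (138, 1), (139, 1)] [(166, 3), (187, 3), (272, 6), (276, 7), (283, 8), (418, 9), (807, 9), (810, 9), (817, 9)])
 (.pair 78 406
 (.leaf 9 [(36, 6), (41, 6), (80, 6), (81, 3), (82, 3), (83, 3), (84, 3), (85, 3), (86, 3), (133, 2), (136, 1), (138, 1), (139, 1)] [(166, 3), (187, 3), (272, 6), (276, 7), (283, 8), (418, 9), (807, 9), (810, 9), (817, 9)])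
 (.pair 78 408
 (.leaf 9 [(36, 6), (41, 6), (80, 6), (81, 3), (82, 3), (83, 3), (84, 3), (85, 3), (86, 3), (133, 2), (136, 1), (138, 1), (139, 1)] [(166, 3), (187, 3), (272, 6), (276, 7), (283, 8), (418, 9), (807, 9), (810, 9), (817, 9)])
 (.pair 78 410
 (.leaf 9 [(36, 6), (41, 6), (80, 6), (81, 3), (82, 3), (83, 3), (84, 3), (85, 3), (86, 3), (133, 2), (136, 1), (138, 1), (139, 1)] [(166, 3), (187, 3), (272, 6), (276, 7), (283, 8), (418, 9), (807, 9), (810, 9), (817, 9)])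
 (.absent 78
 (.leaf 9 [(36, 6), (41, 6), (80, 6), (81, 3), (82, 3), (83, 3), (84, 3), (85, 3), (86, 3), (133, 2), (136, 1), (138, 1), (139, 1)] [(166, 3), (187, 3), (272, 6), (276, 7), (283, 8), (418, 9), (807, 9), (810, 9), (817, 9)]))))))))))))))))))))

def certFifteen_33 : Cert :=
 (.pair 68 70
 (.pair 78 36
 (.leaf 18 [(41, 12), (80, 9), (81, 9), (82, 9), (83, 6), (84, 6), (85, 6), (86, 6), (133, 4), (136, 2), (138, 2), (139, 2)] [(166, 3), (187, 6), (272, 12), (276, 14), (283, 16), (418, 18), (807, 18), (810, 18), (817, 18)])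
 (.pair 78 41
 (.leaf 18 [(36, 12), (80, 9), (81, 9), (82, 9), (83, 6), (84, 6), (85, 6), (86, 6), (133, 4), (136, 2), (138, 2), (139, 2)] [(166, 3), (187, 6), (272, 12), (276, 14), (283, 16), (418, 18), (807, 18), (810, 18), (817, 18)])
 (.pair 78 80
 (.leaf 9 [(36, 6), (41, 6), (81, 3), (82, 3), (83, 3), (84, 3), (85, 3), (86, 3), (133, 2), (136, 1), (138, 1), (139, 1)] [(166, 3), (187, 3), (272, 6), (276, 7), (283, 8), (418, 9), (807, 9), (810, 9), (817, 9)])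
 (.pair 78 81
 (.pair 80 36
 (.leaf 9 [(41, 6), (82, 6), (83, 3), (84, 3), (85, 3), (86, 3), (133, 2), (136, 1), (138, 1), (139, 1)] [(187, 3), (272, 6), (276, 7), (283, 8), (418, 9), (807, 9), (810, 9), (817, 9)])
 (.pair 80 41
 (.leaf 9 [(36, 6), (82, 6), (83, 3), (84, 3), (85, 3), (86, 3), (133, 2), (136, 1), (138, 1), (139, 1)] [(187, 3), (272, 6), (276, 7), (283, 8), (418, 9), (807, 9), (810, 9), (817, 9)])
 (.pair 80 82
 (.leaf 9 [(36, 6), (41, 6), (83, 3), (84, 3), (85, 3), (86, 3), (133, 2), (136, 1), (138, 1), (139, 1)] [(187, 3), (272, 6), (276, 7), (283, 8), (418, 9), (807, 9), (810, 9), (817, 9)])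
 (.pair 80 83
 (.leaf 9 [(36, 6), (41, 6), (82, 3), (84, 3), (85, 3), (86, 3), (133, 2), (136, 1), (138, 1), (139, 1)] [(166, 3), (187, 3), (272, 6), (276, 7), (283, 8), (418, 9), (807, 9), (810, 9), (817, 9)])
 (.pair 80 84
 (.leaf 9 [(36, 6), (41, 6), (82, 3), (83, 3), (85, 3), (86, 3), (133, 2), (136, 1), (138, 1), (139, 1)] [(166, 3), (187, 3), (272, 6), (276, 7), (283, 8), (418, 9), (807, 9), (810, 9), (817, 9)])
 (.pair 80 85
 (.leaf 9 [(36, 6), (41, 6), (82, 3), (83, 3), (84, 3), (86, 3), (133, 2), (136, 1), (138, 1), (139, 1)] [(166, 3), (187, 3), (272, 6), (276, 7), (283, 8), (418, 9), (807, 9), (810, 9), (817, 9)])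
 (.pair 80 86
 (.leaf 9 [(36, 6), (41, 6), (82, 3), (83, 3), (84, 3), (85, 3), (133, 2), (136, 1), (138, 1), (139, 1)] [(166, 3), (187, 3), (272, 6), (276, 7), (283, 8), (418, 9), (807, 9), (810, 9), (817, 9)])
 (.pair 80 133
 (.leaf 3 [(36, 2), (41, 2), (82, 1), (83, 1), (84, 1), (85, 1), (86, 1)] [(166, 1), (187, 1), (272, 3), (276, 3), (283, 3), (418, 3), (807, 3), (810, 3), (817, 3)])
 (.pair 80 136
 (.leaf 3 [(36, 2), (41, 2), (82, 1), (83, 1), (84, 1), (85, 1), (86, 1)] [(166, 1), (187, 1), (272, 3), (276, 3), (283, 3), (418, 3), (807, 3), (810, 3), (817, 3)])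
 (.pair 80 138
 (.leaf 3 [(36, 2), (41, 2), (82, 2), (83, 1), (84, 1), (85, 1), (86, 1)] [(187, 1), (272, 3), (276, 3), (283, 3), (418, 3), (807, 3), (810, 3), (817, 3)])
 (.pair 80 139
 (.leaf 3 [(36, 2), (41, 2), (82, 2), (83, 1), (84, 1), (85, 1), (86, 1)] [(187, 1), (272, 3), (276, 3), (283, 3), (418, 3), (807, 3), (810, 3), (817, 3)])
 (.pair 80 141
 (.leaf 3 [(36, 2), (41, 2), (82, 2), (83, 1), (84, 1), (85, 1), (86, 1)] [(187, 1), (272, 3), (276, 3), (283, 3), (418, 3), (807, 3), (810, 3), (817, 3)])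
 (.pair 80 143
 (.leaf 3 [(36, 2), (41, 2), (82, 2), (83, 1), (84, 1), (85, 1), (86, 1)] [(187, 1), (272, 3), (276, 3), (283, 3), (418, 3), (807, 3), (810, 3), (817, 3)])
 (.pair 80 144
 (.leaf 3 [(36, 2), (41, 2), (82, 2), (83, 1), (84, 1), (85, 1), (86, 1)] [(187, 1), (272, 3), (276, 3), (283, 3), (418, 3), (807, 3), (810, 3), (817, 3)])
 (.pair 80 400
 (.leaf 9 [(36, 6), (41, 6), (82, 3), (83, 3), (84, 3), (85, 3), (86, 3), (133, 2), (136, 1), (138, 1), (139, 1)] [(166, 3), (187, 3), (272, 6), (276, 7), (283, 8), (418, 9), (807, 9), (810, 9), (817, 9)])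
 (.pair 80 403
 (.leaf 9 [(36, 6), (41, 6), (82, 3), (83, 3), (84, 3), (85, 3), (86, 3), (133, 2), (136, 1), (138, 1), (139, 1)] [(166, 3), (187, 3), (272, 6), (276, 7), (283, 8), (418, 9), (807, 9), (810, 9), (817, 9)])
 (.pair 80 405
 (.leaf 9 [(36, 6), (41, 6), (82, 3), (83, 3), (84, 3), (85, 3), (86, 3), (133, 2), (136, 1), (138, 1), (139, 1)] [(166, 3), (187, 3), (272, 6), (276, 7), (283, 8), (418, 9), (807, 9), (810, 9), (817, 9)])
 (.pair 80 406
 (.leaf 9 [(36, 6), (41, 6), (82, 3), (83, 3), (84, 3), (85, 3), (86, 3), (133, 2), (136, 1), (138, 1), (139, 1)] [(166, 3), (187, 3), (272, 6), (276, 7), (283, 8), (418, 9), (807, 9), (810, 9), (817, 9)])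
 (.pair 80 408
 (.leaf 9 [(36, 6), (41, 6), (82, 6), (83, 3), (84, 3), (85, 3), (86, 3), (133, 2), (136, 1), (138, 1), (139, 1)] [(187, 3), (272, 6), (276, 7), (283, 8), (418, 9), (807, 9), (810, 9), (817, 9)])
 (.pair 80 410
 (.leaf 9 [(36, 6), (41, 6), (82, 6), (83, 3), (84, 3), (85, 3), (86, 3), (133, 2), (136, 1), (138, 1), (139, 1)] [(187, 3), (272, 6), (276, 7), (283, 8), (418, 9), (807, 9), (810, 9), (817, 9)])
 (.absent 80
 (.leaf 9 [(36, 6), (41, 6), (82, 6), (83, 3), (84, 3), (85, 3), (86, 3), (133, 2), (136, 1), (138, 1), (139, 1)] [(187, 3), (272, 6), (276, 7), (283, 8), (418, 9), (807, 9), (810, 9), (817, 9)]))))))))))))))))))))))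
 certFifteen_32))))
 (.pair 68 78
 (.leaf 9 [(36, 6), (41, 6), (70, 3), (80, 3), (81, 3), (82, 3), (83, 3), (84, 3), (85, 3), (86, 3), (133, 2), (136, 1), (138, 1), (139, 1)] [(160, 3), (162, 3), (166, 3), (187, 3), (272, 6), (276, 7), (283, 8), (418, 9), (807, 9), (810, 9), (817, 9)])
 (.pair 68 80
 (.leaf 9 [(36, 6), (41, 6), (70, 3), (78, 3), (81, 3), (82, 3), (83, 3), (84, 3), (85, 3), (86, 3), (133, 2), (136, 1), (138, 1), (139, 1)] [(160, 3), (162, 3), (166, 3), (187, 3), (272, 6), (276, 7), (283, 8), (418, 9), (807, 9), (810, 9), (817, 9)])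
 (.pair 68 81
 (.leaf 9 [(36, 6), (41, 6), (70, 3), (78, 3), (80, 3), (82, 3), (83, 3), (84, 3), (85, 3), (86, 3), (133, 2), (136, 1), (138, 1), (139, 1)] [(160, 3), (162, 3), (166, 3), (187, 3), (272, 6), (276, 7), (283, 8), (418, 9), (807, 9), (810, 9), (817, 9)])
 (.pair 68 82
 (.leaf 9 [(36, 6), (41, 6), (70, 3), (78, 3), (80, 3), (81, 3), (83, 3), (84, 3), (85, 3), (86, 3), (133, 2), (136, 1), (138, 1), (139, 1)] [(160, 3), (162, 3), (166, 3), (187, 3), (272, 6), (276, 7), (283, 8), (418, 9), (807, 9), (810, 9), (817, 9)])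
 (.pair 68 83
 (.leaf 9 [(36, 6), (41, 6), (70, 3), (78, 3), (80, 3), (81, 3), (82, 3), (84, 3), (85, 3), (86, 3), (133, 2), (136, 1), (138, 1), (139, 1)] [(160, 3), (162, 3), (166, 3), (187, 3), (272, 6), (276, 7), (283, 8), (418, 9), (807, 9), (810, 9), (817, 9)])
 (.pair 68 84
 (.leaf 9 [(36, 6), (41, 6), (70, 3), (78, 3), (80, 3), (81, 3), (82, 3), (83, 3), (85, 3), (86, 3), (133, 2), (136, 1), (138, 1), (139, 1)] [(160, 3), (162, 3), (166, 3), (187, 3), (272, 6), (276, 7), (283, 8), (418, 9), (807, 9), (810, 9), (817, 9)])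
 (.pair 68 85
 (.leaf 9 [(36, 6), (41, 6), (70, 3), (78, 3), (80, 3), (81, 3), (82, 3), (83, 3), (84, 3), (86, 3), (133, 2), (136, 1), (138, 1), (139, 1)] [(160, 3), (162, 3), (166, 3), (187, 3), (272, 6), (276, 7), (283, 8), (418, 9), (807, 9), (810, 9), (817, 9)])
 (.pair 68 86
 (.leaf 9 [(36, 6), (41, 6), (70, 3), (78, 3), (80, 3), (81, 3), (82, 3), (83, 3), (84, 3), (85, 3), (133, 2), (136, 1), (138, 1), (139, 1)] [(160, 3), (162, 3), (166, 3), (187, 3), (272, 6), (276, 7), (283, 8), (418, 9), (807, 9), (810, 9), (817, 9)])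
 (.pair 68 133
 (.leaf 3 [(36, 2), (41, 2), (70, 1), (78, 1), (80, 1), (81, 1), (82, 1), (83, 1), (84, 1), (85, 1), (86, 1)] [(160, 1), (162, 1), (166, 1), (187, 1), (272, 3), (276, 3), (283, 3), (418, 3), (807, 3), (810, 3), (817, 3)])
 (.pair 68 136
 (.leaf 3 [(36, 2), (41, 2), (70, 1), (78, 1), (80, 1), (81, 1), (82, 1), (83, 1), (84, 1), (85, 1), (86, 1)] [(160, 1), (162, 1), (166, 1), (187, 1), (272, 3), (276, 3), (283, 3), (418, 3), (807, 3), (810, 3), (817, 3)])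
 (.pair 68 138
 (.leaf 3 [(36, 2), (41, 2), (70, 1), (78, 1), (80, 1), (81, 1), (82, 1), (83, 1), (84, 1), (85, 1), (86, 1)] [(160, 1), (162, 1), (166, 1), (187, 1), (272, 3), (276, 3), (283, 3), (418, 3), (807, 3), (810, 3), (817, 3)])
 (.pair 68 139
 (.leaf 3 [(36, 2), (41, 2), (70, 1), (78, 1), (80, 1), (81, 1), (82, 1), (83, 1), (84, 1), (85, 1), (86, 1)] [(160, 1), (162, 1), (166, 1), (187, 1), (272, 3), (276, 3), (283, 3), (418, 3), (807, 3), (810, 3), (817, 3)])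
 (.pair 68 141
 (.leaf 3 [(36, 2), (41, 2), (70, 1), (78, 1), (80, 1), (81, 1), (82, 1), (83, 1), (84, 1), (85, 1), (86, 1)] [(160, 1), (162, 1), (166, 1), (187, 1), (272, 3), (276, 3), (283, 3), (418, 3), (807, 3), (810, 3), (817, 3)])
 (.pair 68 143
 (.leaf 3 [(36, 2), (41, 2), (70, 1), (78, 1), (80, 1), (81, 1), (82, 1), (83, 1), (84, 1), (85, 1), (86, 1)] [(160, 1), (162, 1), (166, 1), (187, 1), (272, 3), (276, 3), (283, 3), (418, 3), (807, 3), (810, 3), (817, 3)])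
 (.pair 68 144
 (.leaf 3 [(36, 2), (41, 2), (70, 1), (78, 1), (80, 1), (81, 1), (82, 1), (83, 1), (84, 1), (85, 1), (86, 1)] [(160, 1), (162, 1), (166, 1), (187, 1), (272, 3), (276, 3), (283, 3), (418, 3), (807, 3), (810, 3), (817, 3)])
 (.pair 68 400
 (.leaf 9 [(36, 6), (41, 6), (70, 3), (78, 3), (80, 3), (81, 3), (82, 3), (83, 3), (84, 3), (85, 3), (86, 3), (133, 2), (136, 1), (138, 1), (139, 1)] [(160, 3), (162, 3), (166, 3), (187, 3), (272, 6), (276, 7), (283, 8), (418, 9), (807, 9), (810, 9), (817, 9)])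
 (.pair 68 403
 (.leaf 9 [(36, 6), (41, 6), (70, 3), (78, 3), (80, 3), (81, 3), (82, 3), (83, 3), (84, 3), (85, 3), (86, 3), (133, 2), (136, 1), (138, 1), (139, 1)] [(160, 3), (162, 3), (166, 3), (187, 3), (272, 6), (276, 7), (283, 8), (418, 9), (807, 9), (810, 9), (817, 9)])
 (.pair 68 405
 (.leaf 9 [(36, 6), (41, 6), (70, 3), (78, 3), (80, 3), (81, 3), (82, 3), (83, 3), (84, 3), (85, 3), (86, 3), (133, 2), (136, 1), (138, 1), (139, 1)] [(160, 3), (162, 3), (166, 3), (187, 3), (272, 6), (276, 7), (283, 8), (418, 9), (807, 9), (810, 9), (817, 9)])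
 (.pair 68 406
 (.leaf 9 [(36, 6), (41, 6), (70, 3), (78, 3), (80, 3), (81, 3), (82, 3), (83, 3), (84, 3), (85, 3), (86, 3), (133, 2), (136, 1), (138, 1), (139, 1)] [(160, 3), (162, 3), (166, 3), (187, 3), (272, 6), (276, 7), (283, 8), (418, 9), (807, 9), (810, 9), (817, 9)])
 (.pair 68 408
 (.leaf 9 [(36, 6), (41, 6), (70, 3), (78, 3), (80, 3), (81, 3), (82, 3), (83, 3), (84, 3), (85, 3), (86, 3), (133, 2), (136, 1), (138, 1), (139, 1)] [(160, 3), (162, 3), (166, 3), (187, 3), (272, 6), (276, 7), (283, 8), (418, 9), (807, 9), (810, 9), (817, 9)])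
 (.pair 68 410
 (.leaf 9 [(36, 6), (41, 6), (70, 3), (78, 3), (80, 3), (81, 3), (82, 3), (83, 3), (84, 3), (85, 3), (86, 3), (133, 2), (136, 1), (138, 1), (139, 1)] [(160, 3), (162, 3), (166, 3), (187, 3), (272, 6), (276, 7), (283, 8), (418, 9), (807, 9), (810, 9), (817, 9)])
 (.absent 68
 (.leaf 9 [(36, 6), (41, 6), (70, 3), (78, 3), (80, 3), (81, 3), (82, 3), (83, 3), (84, 3), (85, 3), (86, 3), (133, 2), (136, 1), (138, 1), (139, 1)] [(160, 3), (162, 3), (166, 3), (187, 3), (272, 6), (276, 7), (283, 8), (418, 9), (807, 9), (810, 9), (817, 9)]))))))))))))))))))))))))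

def certFifteen_34 : Cert :=
 (.pair 60 78
 (.leaf 9 [(36, 6), (41, 6), (68, 3), (70, 3), (80, 3), (81, 3), (82, 3), (83, 3), (84, 3), (85, 3), (86, 3), (133, 2), (136, 1), (138, 1), (139, 1)] [(145, 3), (160, 3), (162, 3), (166, 3), (187, 3), (272, 6), (276, 7), (283, 8), (418, 9), (807, 9), (810, 9), (817, 9)])
 (.pair 60 80
 (.leaf 9 [(36, 6), (41, 6), (68, 3), (70, 3), (78, 3), (81, 3), (82, 3), (83, 3), (84, 3), (85, 3), (86, 3), (133, 2), (136, 1), (138, 1), (139, 1)] [(145, 3), (160, 3), (162, 3), (166, 3), (187, 3), (272, 6), (276, 7), (283, 8), (418, 9), (807, 9), (810, 9), (817, 9)])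
 (.pair 60 81
 (.leaf 9 [(36, 6), (41, 6), (68, 3), (70, 3), (78, 3), (80, 3), (82, 3), (83, 3), (84, 3), (85, 3), (86, 3), (133, 2), (136, 1), (138, 1), (139, 1)] [(145, 3), (160, 3), (162, 3), (166, 3), (187, 3), (272, 6), (276, 7), (283, 8), (418, 9), (807, 9), (810, 9), (817, 9)])
 (.pair 60 82
 (.leaf 9 [(36, 6), (41, 6), (68, 3), (70, 3), (78, 3), (80, 3), (81, 3), (83, 3), (84, 3), (85, 3), (86, 3), (133, 2), (136, 1), (138, 1), (139, 1)] [(145, 3), (160, 3), (162, 3), (166, 3), (187, 3), (272, 6), (276, 7), (283, 8), (418, 9), (807, 9), (810, 9), (817, 9)])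
 (.pair 60 83
 (.leaf 9 [(36, 6), (41, 6), (68, 3), (70, 3), (78, 3), (80, 3), (81, 3), (82, 3), (84, 3), (85, 3), (86, 3), (133, 2), (136, 1), (138, 1), (139, 1)] [(145, 3), (160, 3), (162, 3), (166, 3), (187, 3), (272, 6), (276, 7), (283, 8), (418, 9), (807, 9), (810, 9), (817, 9)])
 (.pair 60 84
 (.leaf 9 [(36, 6), (41, 6), (68, 3), (70, 3), (78, 3), (80, 3), (81, 3), (82, 3), (83, 3), (85, 3), (86, 3), (133, 2), (136, 1), (138, 1), (139, 1)] [(145, 3), (160, 3), (162, 3), (166, 3), (187, 3), (272, 6), (276, 7), (283, 8), (418, 9), (807, 9), (810, 9), (817, 9)])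
 (.pair 60 85
 (.leaf 9 [(36, 6), (41, 6), (68, 3), (70, 3), (78, 3), (80, 3), (81, 3), (82, 3), (83, 3), (84, 3), (86, 3), (133, 2), (136, 1), (138, 1), (139, 1)] [(145, 3), (160, 3), (162, 3), (166, 3), (187, 3), (272, 6), (276, 7), (283, 8), (418, 9), (807, 9), (810, 9), (817, 9)])
 (.pair 60 86
 (.leaf 9 [(36, 6), (41, 6), (68, 3), (70, 3), (78, 3), (80, 3), (81, 3), (82, 3), (83, 3), (84, 3), (85, 3), (133, 2), (136, 1), (138, 1), (139, 1)] [(145, 3), (160, 3), (162, 3), (166, 3), (187, 3), (272, 6), (276, 7), (283, 8), (418, 9), (807, 9), (810, 9), (817, 9)])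
 (.pair 60 133
 (.leaf 6 [(36, 4), (41, 4), (68, 2), (70, 2), (78, 2), (80, 2), (81, 2), (82, 2), (83, 2), (84, 2), (85, 2), (86, 2), (136, 1), (138, 1), (139, 1)] [(145, 2), (160, 2), (162, 2), (166, 2), (187, 2), (272, 4), (276, 4), (283, 5), (418, 6), (807, 6), (810, 6), (817, 6)])
 (.pair 60 136
 (.leaf 3 [(36, 2), (41, 2), (68, 1), (70, 1), (78, 1), (80, 1), (81, 1), (82, 1), (83, 1), (84, 1), (85, 1), (86, 1), (133, 1)] [(145, 1), (160, 1), (162, 1), (166, 1), (187, 1), (272, 2), (276, 2), (283, 3), (418, 3), (807, 3), (810, 3), (817, 3)])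
 (.pair 60 138
 (.leaf 3 [(36, 2), (41, 2), (68, 1), (70, 1), (78, 1), (80, 1), (81, 1), (82, 1), (83, 1), (84, 1), (85, 1), (86, 1)] [(145, 1), (160, 1), (162, 1), (166, 1), (187, 1), (272, 3), (276, 3), (283, 3), (418, 3), (807, 3), (810, 3), (817, 3)])
 (.pair 60 139
 (.leaf 3 [(36, 2), (41, 2), (68, 1), (70, 1), (78, 1), (80, 1), (81, 1), (82, 1), (83, 1), (84, 1), (85, 1), (86, 1)] [(145, 1), (160, 1), (162, 1), (166, 1), (187, 1), (272, 3), (276, 3), (283, 3), (418, 3), (807, 3), (810, 3), (817, 3)])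
 (.pair 60 141
 (.leaf 3 [(36, 2), (41, 2), (68, 1), (70, 1), (78, 1), (80, 1), (81, 1), (82, 1), (83, 1), (84, 1), (85, 1), (86, 1)] [(145, 1), (160, 1), (162, 1), (166, 1), (187, 1), (272, 3), (276, 3), (283, 3), (418, 3), (807, 3), (810, 3), (817, 3)])
 (.pair 60 143
 (.leaf 3 [(36, 2), (41, 2), (68, 1), (70, 1), (78, 1), (80, 1), (81, 1), (82, 1), (83, 1), (84, 1), (85, 1), (86, 1)] [(145, 1), (160, 1), (162, 1), (166, 1), (187, 1), (272, 3), (276, 3), (283, 3), (418, 3), (807, 3), (810, 3), (817, 3)])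
 (.pair 60 144
 (.leaf 3 [(36, 2), (41, 2), (68, 1), (70, 1), (78, 1), (80, 1), (81, 1), (82, 1), (83, 1), (84, 1), (85, 1), (86, 1)] [(145, 1), (160, 1), (162, 1), (166, 1), (187, 1), (272, 3), (276, 3), (283, 3), (418, 3), (807, 3), (810, 3), (817, 3)])
 (.pair 60 400
 (.leaf 9 [(36, 6), (41, 6), (68, 3), (70, 3), (78, 3), (80, 3), (81, 3), (82, 3), (83, 3), (84, 3), (85, 3), (86, 3), (133, 2), (136, 1), (138, 1), (139, 1)] [(145, 3), (160, 3), (162, 3), (166, 3), (187, 3), (272, 6), (276, 7), (283, 8), (418, 9), (807, 9), (810, 9), (817, 9)])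
 (.pair 60 403
 (.leaf 9 [(36, 6), (41, 6), (68, 3), (70, 3), (78, 3), (80, 3), (81, 3), (82, 3), (83, 3), (84, 3), (85, 3), (86, 3), (133, 2), (136, 1), (138, 1), (139, 1)] [(145, 3), (160, 3), (162, 3), (166, 3), (187, 3), (272, 6), (276, 7), (283, 8), (418, 9), (807, 9), (810, 9), (817, 9)])
 (.pair 60 405
 (.leaf 9 [(36, 6), (41, 6), (68, 3), (70, 3), (78, 3), (80, 3), (81, 3), (82, 3), (83, 3), (84, 3), (85, 3), (86, 3), (133, 2), (136, 1), (138, 1), (139, 1)] [(145, 3), (160, 3), (162, 3), (166, 3), (187, 3), (272, 6), (276, 7), (283, 8), (418, 9), (807, 9), (810, 9), (817, 9)])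
 (.pair 60 406
 (.leaf 9 [(36, 6), (41, 6), (68, 3), (70, 3), (78, 3), (80, 3), (81, 3), (82, 3), (83, 3), (84, 3), (85, 3), (86, 3), (133, 2), (136, 1), (138, 1), (139, 1)] [(145, 3), (160, 3), (162, 3), (166, 3), (187, 3), (272, 6), (276, 7), (283, 8), (418, 9), (807, 9), (810, 9), (817, 9)])
 (.pair 60 408
 (.leaf 9 [(36, 6), (41, 6), (68, 3), (70, 3), (78, 3), (80, 3), (81, 3), (82, 3), (83, 3), (84, 3), (85, 3), (86, 3), (133, 2), (136, 1), (138, 1), (139, 1)] [(145, 3), (160, 3), (162, 3), (166, 3), (187, 3), (272, 6), (276, 7), (283, 8), (418, 9), (807, 9), (810, 9), (817, 9)])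
 (.pair 60 410
 (.leaf 9 [(36, 6), (41, 6), (68, 3), (70, 3), (78, 3), (80, 3), (81, 3), (82, 3), (83, 3), (84, 3), (85, 3), (86, 3), (133, 2), (136, 1), (138, 1), (139, 1)] [(145, 3), (160, 3), (162, 3), (166, 3), (187, 3), (272, 6), (276, 7), (283, 8), (418, 9), (807, 9), (810, 9), (817, 9)])
 (.absent 60
 (.leaf 9 [(36, 6), (41, 6), (68, 3), (70, 3), (78, 3), (80, 3), (81, 3), (82, 3), (83, 3), (84, 3), (85, 3), (86, 3), (133, 2), (136, 1), (138, 1), (139, 1)] [(145, 3), (160, 3), (162, 3), (166, 3), (187, 3), (272, 6), (276, 7), (283, 8), (418, 9), (807, 9), (810, 9), (817, 9)])))))))))))))))))))))))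

def certFifteen_35 : Cert :=
 (.pair 1 406
 (.pair 60 36
 (.leaf 9 [(41, 6), (68, 3), (70, 3), (78, 3), (80, 3), (81, 3), (82, 3), (83, 3), (84, 3), (85, 3), (86, 3), (133, 2), (136, 1), (138, 1), (139, 1)] [(145, 3), (160, 3), (162, 3), (166, 3), (187, 3), (272, 6), (276, 7), (283, 8), (418, 9), (807, 9), (810, 9), (817, 9)])
 (.pair 60 41
 (.leaf 9 [(36, 6), (68, 3), (70, 3), (78, 3), (80, 3), (81, 3), (82, 3), (83, 3), (84, 3), (85, 3), (86, 3), (133, 2), (136, 1), (138, 1), (139, 1)] [(145, 3), (160, 3), (162, 3), (166, 3), (187, 3), (272, 6), (276, 7), (283, 8), (418, 9), (807, 9), (810, 9), (817, 9)])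
 (.pair 60 68
 (.pair 70 36
 (.leaf 9 [(41, 6), (70, 3), (78, 3), (80, 3), (81, 3), (82, 3), (83, 3), (84, 3), (85, 3), (86, 3), (133, 2), (136, 1), (138, 1), (139, 1)] [(160, 3), (162, 3), (166, 3), (187, 3), (272, 6), (276, 7), (283, 8), (418, 9), (807, 9), (810, 9), (817, 9)])
 (.pair 70 41
 (.leaf 9 [(36, 6), (70, 3), (78, 3), (80, 3), (81, 3), (82, 3), (83, 3), (84, 3), (85, 3), (86, 3), (133, 2), (136, 1), (138, 1), (139, 1)] [(160, 3), (162, 3), (166, 3), (187, 3), (272, 6), (276, 7), (283, 8), (418, 9), (807, 9), (810, 9), (817, 9)])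
 certFifteen_16))
 (.pair 60 70
 (.pair 68 36
 (.leaf 9 [(41, 6), (70, 3), (78, 3), (80, 3), (81, 3), (82, 3), (83, 3), (84, 3), (85, 3), (86, 3), (133, 2), (136, 1), (138, 1), (139, 1)] [(160, 3), (162, 3), (166, 3), (187, 3), (272, 6), (276, 7), (283, 8), (418, 9), (807, 9), (810, 9), (817, 9)])
 (.pair 68 41
 (.leaf 9 [(36, 6), (70, 3), (78, 3), (80, 3), (81, 3), (82, 3), (83, 3), (84, 3), (85, 3), (86, 3), (133, 2), (136, 1), (138, 1), (139, 1)] [(160, 3), (162, 3), (166, 3), (187, 3), (272, 6), (276, 7), (283, 8), (418, 9), (807, 9), (810, 9), (817, 9)])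
 certFifteen_18))
 certFifteen_19))))
 (.pair 1 408
 (.pair 60 36
 (.leaf 9 [(41, 6), (68, 3), (70, 3), (78, 3), (80, 3), (81, 3), (82, 3), (83, 3), (84, 3), (85, 3), (86, 3), (133, 2), (136, 1), (138, 1), (139, 1)] [(145, 3), (160, 3), (162, 3), (166, 3), (187, 3), (272, 6), (276, 7), (283, 8), (418, 9), (807, 9), (810, 9), (817, 9)])
 (.pair 60 41
 (.leaf 9 [(36, 6), (68, 3), (70, 3), (78, 3), (80, 3), (81, 3), (82, 3), (83, 3), (84, 3), (85, 3), (86, 3), (133, 2), (136, 1), (138, 1), (139, 1)] [(145, 3), (160, 3), (162, 3), (166, 3), (187, 3), (272, 6), (276, 7), (283, 8), (418, 9), (807, 9), (810, 9), (817, 9)])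
 (.pair 60 68
 (.pair 70 36
 (.leaf 9 [(41, 6), (70, 3), (78, 3), (80, 3), (81, 3), (82, 3), (83, 3), (84, 3), (85, 3), (86, 3), (133, 2), (136, 1), (138, 1), (139, 1)] [(160, 3), (162, 3), (166, 3), (187, 3), (272, 6), (276, 7), (283, 8), (418, 9), (807, 9), (810, 9), (817, 9)])
 (.pair 70 41
 (.leaf 9 [(36, 6), (70, 3), (78, 3), (80, 3), (81, 3), (82, 3), (83, 3), (84, 3), (85, 3), (86, 3), (133, 2), (136, 1), (138, 1), (139, 1)] [(160, 3), (162, 3), (166, 3), (187, 3), (272, 6), (276, 7), (283, 8), (418, 9), (807, 9), (810, 9), (817, 9)])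
 certFifteen_21))
 (.pair 60 70
 (.pair 68 36
 (.leaf 9 [(41, 6), (70, 3), (78, 3), (80, 3), (81, 3), (82, 3), (83, 3), (84, 3), (85, 3), (86, 3), (133, 2), (136, 1), (138, 1), (139, 1)] [(160, 3), (162, 3), (166, 3), (187, 3), (272, 6), (276, 7), (283, 8), (418, 9), (807, 9), (810, 9), (817, 9)])
 (.pair 68 41
 (.leaf 9 [(36, 6), (70, 3), (78, 3), (80, 3), (81, 3), (82, 3), (83, 3), (84, 3), (85, 3), (86, 3), (133, 2), (136, 1), (138, 1), (139, 1)] [(160, 3), (162, 3), (166, 3), (187, 3), (272, 6), (276, 7), (283, 8), (418, 9), (807, 9), (810, 9), (817, 9)])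
 certFifteen_23))
 certFifteen_24))))
 (.pair 1 410
 (.pair 60 36
 (.leaf 9 [(41, 6), (68, 3), (70, 3), (78, 3), (80, 3), (81, 3), (82, 3), (83, 3), (84, 3), (85, 3), (86, 3), (133, 2), (136, 1), (138, 1), (139, 1)] [(145, 3), (160, 3), (162, 3), (166, 3), (187, 3), (272, 6), (276, 7), (283, 8), (418, 9), (807, 9), (810, 9), (817, 9)])
 (.pair 60 41
 (.leaf 9 [(36, 6), (68, 3), (70, 3), (78, 3), (80, 3), (81, 3), (82, 3), (83, 3), (84, 3), (85, 3), (86, 3), (133, 2), (136, 1), (138, 1), (139, 1)] [(145, 3), (160, 3), (162, 3), (166, 3), (187, 3), (272, 6), (276, 7), (283, 8), (418, 9), (807, 9), (810, 9), (817, 9)])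
 (.pair 60 68
 (.pair 70 36
 (.leaf 9 [(41, 6), (70, 3), (78, 3), (80, 3), (81, 3), (82, 3), (83, 3), (84, 3), (85, 3), (86, 3), (133, 2), (136, 1), (138, 1), (139, 1)] [(160, 3), (162, 3), (166, 3), (187, 3), (272, 6), (276, 7), (283, 8), (418, 9), (807, 9), (810, 9), (817, 9)])
 (.pair 70 41
 (.leaf 9 [(36, 6), (70, 3), (78, 3), (80, 3), (81, 3), (82, 3), (83, 3), (84, 3), (85, 3), (86, 3), (133, 2), (136, 1), (138, 1), (139, 1)] [(160, 3), (162, 3), (166, 3), (187, 3), (272, 6), (276, 7), (283, 8), (418, 9), (807, 9), (810, 9), (817, 9)])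
 certFifteen_26))
 (.pair 60 70
 (.pair 68 36
 (.leaf 9 [(41, 6), (70, 3), (78, 3), (80, 3), (81, 3), (82, 3), (83, 3), (84, 3), (85, 3), (86, 3), (133, 2), (136, 1), (138, 1), (139, 1)] [(160, 3), (162, 3), (166, 3), (187, 3), (272, 6), (276, 7), (283, 8), (418, 9), (807, 9), (810, 9), (817, 9)])
 (.pair 68 41
 (.leaf 9 [(36, 6), (70, 3), (78, 3), (80, 3), (81, 3), (82, 3), (83, 3), (84, 3), (85, 3), (86, 3), (133, 2), (136, 1), (138, 1), (139, 1)] [(160, 3), (162, 3), (166, 3), (187, 3), (272, 6), (276, 7), (283, 8), (418, 9), (807, 9), (810, 9), (817, 9)])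
 certFifteen_28))
 certFifteen_29))))
 (.pair 1 411
 (.pair 60 36
 (.leaf 9 [(41, 6), (68, 3), (70, 3), (78, 3), (80, 3), (81, 3), (82, 3), (83, 3), (84, 3), (85, 3), (86, 3), (133, 2), (136, 1), (138, 1), (139, 1)] [(145, 3), (160, 3), (162, 3), (166, 3), (187, 3), (272, 6), (276, 7), (283, 8), (418, 9), (807, 9), (810, 9), (817, 9)])
 (.pair 60 41
 (.leaf 9 [(36, 6), (68, 3), (70, 3), (78, 3), (80, 3), (81, 3), (82, 3), (83, 3), (84, 3), (85, 3), (86, 3), (133, 2), (136, 1), (138, 1), (139, 1)] [(145, 3), (160, 3), (162, 3), (166, 3), (187, 3), (272, 6), (276, 7), (283, 8), (418, 9), (807, 9), (810, 9), (817, 9)])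
 (.pair 60 68
 (.pair 70 36
 (.leaf 9 [(41, 6), (70, 3), (78, 3), (80, 3), (81, 3), (82, 3), (83, 3), (84, 3), (85, 3), (86, 3), (133, 2), (136, 1), (138, 1), (139, 1)] [(160, 3), (162, 3), (166, 3), (187, 3), (272, 6), (276, 7), (283, 8), (418, 9), (807, 9), (810, 9), (817, 9)])
 (.pair 70 41
 (.leaf 9 [(36, 6), (70, 3), (78, 3), (80, 3), (81, 3), (82, 3), (83, 3), (84, 3), (85, 3), (86, 3), (133, 2), (136, 1), (138, 1), (139, 1)] [(160, 3), (162, 3), (166, 3), (187, 3), (272, 6), (276, 7), (283, 8), (418, 9), (807, 9), (810, 9), (817, 9)])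
 certFifteen_31))
 (.pair 60 70
 (.pair 68 36
 (.leaf 9 [(41, 6), (70, 3), (78, 3), (80, 3), (81, 3), (82, 3), (83, 3), (84, 3), (85, 3), (86, 3), (133, 2), (136, 1), (138, 1), (139, 1)] [(160, 3), (162, 3), (166, 3), (187, 3), (272, 6), (276, 7), (283, 8), (418, 9), (807, 9), (810, 9), (817, 9)])
 (.pair 68 41
 (.leaf 9 [(36, 6), (70, 3), (78, 3), (80, 3), (81, 3), (82, 3), (83, 3), (84, 3), (85, 3), (86, 3), (133, 2), (136, 1), (138, 1), (139, 1)] [(160, 3), (162, 3), (166, 3), (187, 3), (272, 6), (276, 7), (283, 8), (418, 9), (807, 9), (810, 9), (817, 9)])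
 certFifteen_33))
 certFifteen_34))))
 (.absent 1
 (.leaf 6 [(36, 3), (41, 3), (60, 3), (68, 3), (70, 3), (78, 3), (80, 3), (81, 3), (82, 3), (83, 3), (84, 3), (85, 3), (86, 3), (133, 3), (136, 3), (138, 3), (139, 3), (141, 3), (143, 3), (144, 3), (400, 2), (403, 1), (405, 1), (406, 1)] [(807, 3), (810, 4), (817, 5)]))))))

def certFifteen_36 : Cert :=
 (.pair 1 141
 (.leaf 6 [(36, 3), (41, 3), (60, 3), (68, 3), (70, 3), (78, 3), (80, 3), (81, 3), (82, 3), (83, 3), (84, 3), (85, 3), (86, 3), (133, 3), (136, 3), (138, 3), (139, 3), (143, 3), (144, 3), (400, 2), (403, 1), (405, 1), (406, 1)] [(807, 3), (810, 4), (817, 5)])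
 (.pair 1 143
 (.leaf 6 [(36, 3), (41, 3), (60, 3), (68, 3), (70, 3), (78, 3), (80, 3), (81, 3), (82, 3), (83, 3), (84, 3), (85, 3), (86, 3), (133, 3), (136, 3), (138, 3), (139, 3), (141, 3), (144, 3), (400, 2), (403, 1), (405, 1), (406, 1)] [(807, 3), (810, 4), (817, 5)])
 (.pair 1 144
 (.leaf 6 [(36, 3), (41, 3), (60, 3), (68, 3), (70, 3), (78, 3), (80, 3), (81, 3), (82, 3), (83, 3), (84, 3), (85, 3), (86, 3), (133, 3), (136, 3), (138, 3), (139, 3), (141, 3), (143, 3), (400, 2), (403, 1), (405, 1), (406, 1)] [(807, 3), (810, 4), (817, 5)])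
 (.pair 1 400
 (.pair 60 36
 (.leaf 9 [(41, 6), (68, 3), (70, 3), (78, 3), (80, 3), (81, 3), (82, 3), (83, 3), (84, 3), (85, 3), (86, 3), (133, 2), (136, 1), (138, 1), (139, 1)] [(145, 3), (160, 3), (162, 3), (166, 3), (187, 3), (272, 6), (276, 7), (283, 8), (418, 9), (807, 9), (810, 9), (817, 9)])
 (.pair 60 41
 (.leaf 9 [(36, 6), (68, 3), (70, 3), (78, 3), (80, 3), (81, 3), (82, 3), (83, 3), (84, 3), (85, 3), (86, 3), (133, 2), (136, 1), (138, 1), (139, 1)] [(145, 3), (160, 3), (162, 3), (166, 3), (187, 3), (272, 6), (276, 7), (283, 8), (418, 9), (807, 9), (810, 9), (817, 9)])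
 (.pair 60 68
 (.pair 70 36
 (.leaf 9 [(41, 6), (70, 3), (78, 3), (80, 3), (81, 3), (82, 3), (83, 3), (84, 3), (85, 3), (86, 3), (133, 2), (136, 1), (138, 1), (139, 1)] [(160, 3), (162, 3), (166, 3), (187, 3), (272, 6), (276, 7), (283, 8), (418, 9), (807, 9), (810, 9), (817, 9)])
 (.pair 70 41
 (.leaf 9 [(36, 6), (70, 3), (78, 3), (80, 3), (81, 3), (82, 3), (83, 3), (84, 3), (85, 3), (86, 3), (133, 2), (136, 1), (138, 1), (139, 1)] [(160, 3), (162, 3), (166, 3), (187, 3), (272, 6), (276, 7), (283, 8), (418, 9), (807, 9), (810, 9), (817, 9)])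
 certFifteen_1))
 (.pair 60 70
 (.pair 68 36
 (.leaf 9 [(41, 6), (70, 3), (78, 3), (80, 3), (81, 3), (82, 3), (83, 3), (84, 3), (85, 3), (86, 3), (133, 2), (136, 1), (138, 1), (139, 1)] [(160, 3), (162, 3), (166, 3), (187, 3), (272, 6), (276, 7), (283, 8), (418, 9), (807, 9), (810, 9), (817, 9)])
 (.pair 68 41
 (.leaf 9 [(36, 6), (70, 3), (78, 3), (80, 3), (81, 3), (82, 3), (83, 3), (84, 3), (85, 3), (86, 3), (133, 2), (136, 1), (138, 1), (139, 1)] [(160, 3), (162, 3), (166, 3), (187, 3), (272, 6), (276, 7), (283, 8), (418, 9), (807, 9), (810, 9), (817, 9)])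
 certFifteen_3))
 certFifteen_4))))
 (.pair 1 403
 (.pair 60 36
 (.leaf 9 [(41, 6), (68, 3), (70, 3), (78, 3), (80, 3), (81, 3), (82, 3), (83, 3), (84, 3), (85, 3), (86, 3), (133, 2), (136, 1), (138, 1), (139, 1)] [(145, 3), (160, 3), (162, 3), (166, 3), (187, 3), (272, 6), (276, 7), (283, 8), (418, 9), (807, 9), (810, 9), (817, 9)])
 (.pair 60 41
 (.leaf 9 [(36, 6), (68, 3), (70, 3), (78, 3), (80, 3), (81, 3), (82, 3), (83, 3), (84, 3), (85, 3), (86, 3), (133, 2), (136, 1), (138, 1), (139, 1)] [(145, 3), (160, 3), (162, 3), (166, 3), (187, 3), (272, 6), (276, 7), (283, 8), (418, 9), (807, 9), (810, 9), (817, 9)])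
 (.pair 60 68
 (.pair 70 36
 (.leaf 9 [(41, 6), (70, 3), (78, 3), (80, 3), (81, 3), (82, 3), (83, 3), (84, 3), (85, 3), (86, 3), (133, 2), (136, 1), (138, 1), (139, 1)] [(160, 3), (162, 3), (166, 3), (187, 3), (272, 6), (276, 7), (283, 8), (418, 9), (807, 9), (810, 9), (817, 9)])
 (.pair 70 41
 (.leaf 9 [(36, 6), (70, 3), (78, 3), (80, 3), (81, 3), (82, 3), (83, 3), (84, 3), (85, 3), (86, 3), (133, 2), (136, 1), (138, 1), (139, 1)] [(160, 3), (162, 3), (166, 3), (187, 3), (272, 6), (276, 7), (283, 8), (418, 9), (807, 9), (810, 9), (817, 9)])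
 certFifteen_6))
 (.pair 60 70
 (.pair 68 36
 (.leaf 9 [(41, 6), (70, 3), (78, 3), (80, 3), (81, 3), (82, 3), (83, 3), (84, 3), (85, 3), (86, 3), (133, 2), (136, 1), (138, 1), (139, 1)] [(160, 3), (162, 3), (166, 3), (187, 3), (272, 6), (276, 7), (283, 8), (418, 9), (807, 9), (810, 9), (817, 9)])
 (.pair 68 41
 (.leaf 9 [(36, 6), (70, 3), (78, 3), (80, 3), (81, 3), (82, 3), (83, 3), (84, 3), (85, 3), (86, 3), (133, 2), (136, 1), (138, 1), (139, 1)] [(160, 3), (162, 3), (166, 3), (187, 3), (272, 6), (276, 7), (283, 8), (418, 9), (807, 9), (810, 9), (817, 9)])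
 certFifteen_8))
 certFifteen_9))))
 (.pair 1 405
 (.pair 60 36
 (.leaf 9 [(41, 6), (68, 3), (70, 3), (78, 3), (80, 3), (81, 3), (82, 3), (83, 3), (84, 3), (85, 3), (86, 3), (133, 2), (136, 1), (138, 1), (139, 1)] [(145, 3), (160, 3), (162, 3), (166, 3), (187, 3), (272, 6), (276, 7), (283, 8), (418, 9), (807, 9), (810, 9), (817, 9)])
 (.pair 60 41
 (.leaf 9 [(36, 6), (68, 3), (70, 3), (78, 3), (80, 3), (81, 3), (82, 3), (83, 3), (84, 3), (85, 3), (86, 3), (133, 2), (136, 1), (138, 1), (139, 1)] [(145, 3), (160, 3), (162, 3), (166, 3), (187, 3), (272, 6), (276, 7), (283, 8), (418, 9), (807, 9), (810, 9), (817, 9)])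
 (.pair 60 68
 (.pair 70 36
 (.leaf 9 [(41, 6), (70, 3), (78, 3), (80, 3), (81, 3), (82, 3), (83, 3), (84, 3), (85, 3), (86, 3), (133, 2), (136, 1), (138, 1), (139, 1)] [(160, 3), (162, 3), (166, 3), (187, 3), (272, 6), (276, 7), (283, 8), (418, 9), (807, 9), (810, 9), (817, 9)])
 (.pair 70 41
 (.leaf 9 [(36, 6), (70, 3), (78, 3), (80, 3), (81, 3), (82, 3), (83, 3), (84, 3), (85, 3), (86, 3), (133, 2), (136, 1), (138, 1), (139, 1)] [(160, 3), (162, 3), (166, 3), (187, 3), (272, 6), (276, 7), (283, 8), (418, 9), (807, 9), (810, 9), (817, 9)])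
 certFifteen_11))
 (.pair 60 70
 (.pair 68 36
 (.leaf 9 [(41, 6), (70, 3), (78, 3), (80, 3), (81, 3), (82, 3), (83, 3), (84, 3), (85, 3), (86, 3), (133, 2), (136, 1), (138, 1), (139, 1)] [(160, 3), (162, 3), (166, 3), (187, 3), (272, 6), (276, 7), (283, 8), (418, 9), (807, 9), (810, 9), (817, 9)])
 (.pair 68 41
 (.leaf 9 [(36, 6), (70, 3), (78, 3), (80, 3), (81, 3), (82, 3), (83, 3), (84, 3), (85, 3), (86, 3), (133, 2), (136, 1), (138, 1), (139, 1)] [(160, 3), (162, 3), (166, 3), (187, 3), (272, 6), (276, 7), (283, 8), (418, 9), (807, 9), (810, 9), (817, 9)])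
 certFifteen_13))
 certFifteen_14))))
 certFifteen_35))))))

def certFifteen : Cert :=
 (.pair 1 36
 (.leaf 6 [(41, 3), (60, 3), (68, 3), (70, 3), (78, 3), (80, 3), (81, 3), (82, 3), (83, 3), (84, 3), (85, 3), (86, 3), (133, 3), (136, 3), (138, 3), (139, 3), (141, 3), (143, 3), (144, 3), (400, 2), (403, 1), (405, 1), (406, 1)] [(807, 3), (810, 4), (817, 5)])
 (.pair 1 41
 (.leaf 6 [(36, 3), (60, 3), (68, 3), (70, 3), (78, 3), (80, 3), (81, 3), (82, 3), (83, 3), (84, 3), (85, 3), (86, 3), (133, 3), (136, 3), (138, 3), (139, 3), (141, 3), (143, 3), (144, 3), (400, 2), (403, 1), (405, 1), (406, 1)] [(807, 3), (810, 4), (817, 5)])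
 (.pair 1 60
 (.leaf 6 [(36, 3), (41, 3), (68, 3), (70, 3), (78, 3), (80, 3), (81, 3), (82, 3), (83, 3), (84, 3), (85, 3), (86, 3), (133, 3), (136, 3), (138, 3), (139, 3), (141, 3), (143, 3), (144, 3), (400, 2), (403, 1), (405, 1), (406, 1)] [(807, 3), (810, 4), (817, 5)])
 (.pair 1 68
 (.leaf 6 [(36, 3), (41, 3), (60, 3), (70, 3), (78, 3), (80, 3), (81, 3), (82, 3), (83, 3), (84, 3), (85, 3), (86, 3), (133, 3), (136, 3), (138, 3), (139, 3), (141, 3), (143, 3), (144, 3), (400, 2), (403, 1), (405, 1), (406, 1)] [(807, 3), (810, 4), (817, 5)])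
 (.pair 1 70
 (.leaf 6 [(36, 3), (41, 3), (60, 3), (68, 3), (70, 3), (78, 3), (80, 3), (81, 3), (82, 3), (83, 3), (84, 3), (85, 3), (86, 3), (133, 3), (136, 3), (138, 3), (139, 3), (141, 3), (143, 3), (144, 3), (400, 2), (403, 1), (405, 1), (406, 1)] [(807, 3), (810, 4), (817, 5)])
 (.pair 1 78
 (.leaf 6 [(36, 3), (41, 3), (60, 3), (68, 3), (70, 3), (80, 3), (81, 3), (82, 3), (83, 3), (84, 3), (85, 3), (86, 3), (133, 3), (136, 3), (138, 3), (139, 3), (141, 3), (143, 3), (144, 3), (400, 2), (403, 1), (405, 1), (406, 1)] [(807, 3), (810, 4), (817, 5)])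
 (.pair 1 80
 (.leaf 6 [(36, 3), (41, 3), (60, 3), (68, 3), (70, 3), (78, 3), (81, 3), (82, 3), (83, 3), (84, 3), (85, 3), (86, 3), (133, 3), (136, 3), (138, 3), (139, 3), (141, 3), (143, 3), (144, 3), (400, 2), (403, 1), (405, 1), (406, 1)] [(807, 3), (810, 4), (817, 5)])
 (.pair 1 81
 (.leaf 6 [(36, 3), (41, 3), (60, 3), (68, 3), (70, 3), (78, 3), (80, 3), (82, 3), (83, 3), (84, 3), (85, 3), (86, 3), (133, 3), (136, 3), (138, 3), (139, 3), (141, 3), (143, 3), (144, 3), (400, 2), (403, 1), (405, 1), (406, 1)] [(807, 3), (810, 4), (817, 5)])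
 (.pair 1 82
 (.leaf 6 [(36, 3), (41, 3), (60, 3), (68, 3), (70, 3), (78, 3), (80, 3), (81, 3), (83, 3), (84, 3), (85, 3), (86, 3), (133, 3), (136, 3), (138, 3), (139, 3), (141, 3), (143, 3), (144, 3), (400, 2), (403, 1), (405, 1), (406, 1)] [(807, 3), (810, 4), (817, 5)])
 (.pair 1 83
 (.leaf 6 [(36, 3), (41, 3), (60, 3), (68, 3), (70, 3), (78, 3), (80, 3), (81, 3), (82, 3), (84, 3), (85, 3), (86, 3), (133, 3), (136, 3), (138, 3), (139, 3), (141, 3), (143, 3), (144, 3), (400, 2), (403, 1), (405, 1), (406, 1)] [(807, 3), (810, 4), (817, 5)])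
 (.pair 1 84
 (.leaf 6 [(36, 3), (41, 3), (60, 3), (68, 3), (70, 3), (78, 3), (80, 3), (81, 3), (82, 3), (83, 3), (85, 3), (86, 3), (133, 3), (136, 3), (138, 3), (139, 3), (141, 3), (143, 3), (144, 3), (400, 2), (403, 1), (405, 1), (406, 1)] [(807, 3), (810, 4), (817, 5)])
 (.pair 1 85
 (.leaf 6 [(36, 3), (41, 3), (60, 3), (68, 3), (70, 3), (78, 3), (80, 3), (81, 3), (82, 3), (83, 3), (84, 3), (86, 3), (133, 3), (136, 3), (138, 3), (139, 3), (141, 3), (143, 3), (144, 3), (400, 2), (403, 1), (405, 1), (406, 1)] [(807, 3), (810, 4), (817, 5)])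
 (.pair 1 86
 (.leaf 6 [(36, 3), (41, 3), (60, 3), (68, 3), (70, 3), (78, 3), (80, 3), (81, 3), (82, 3), (83, 3), (84, 3), (85, 3), (133, 3), (136, 3), (138, 3), (139, 3), (141, 3), (143, 3), (144, 3), (400, 2), (403, 1), (405, 1), (406, 1)] [(807, 3), (810, 4), (817, 5)])
 (.pair 1 133
 (.leaf 6 [(36, 3), (41, 3), (60, 3), (68, 3), (70, 3), (78, 3), (80, 3), (81, 3), (82, 3), (83, 3), (84, 3), (85, 3), (86, 3), (136, 3), (138, 3), (139, 3), (141, 3), (143, 3), (144, 3), (400, 2), (403, 1), (405, 1), (406, 1)] [(807, 3), (810, 4), (817, 5)])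
 (.pair 1 136
 (.leaf 6 [(36, 3), (41, 3), (60, 3), (68, 3), (70, 3), (78, 3), (80, 3), (81, 3), (82, 3), (83, 3), (84, 3), (85, 3), (86, 3), (133, 3), (138, 3), (139, 3), (141, 3), (143, 3), (144, 3), (400, 2), (403, 1), (405, 1), (406, 1)] [(807, 3), (810, 4), (817, 5)])
 (.pair 1 138
 (.leaf 6 [(36, 3), (41, 3), (60, 3), (68, 3), (70, 3), (78, 3), (80, 3), (81, 3), (82, 3), (83, 3), (84, 3), (85, 3), (86, 3), (133, 3), (136, 3), (139, 3), (141, 3), (143, 3), (144, 3), (400, 2), (403, 1), (405, 1), (406, 1)] [(807, 3), (810, 4), (817, 5)])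
 (.pair 1 139
 (.leaf 6 [(36, 3), (41, 3), (60, 3), (68, 3), (70, 3), (78, 3), (80, 3), (81, 3), (82, 3), (83, 3), (84, 3), (85, 3), (86, 3), (133, 3), (136, 3), (138, 3), (141, 3), (143, 3), (144, 3), (400, 2), (403, 1), (405, 1), (406, 1)] [(807, 3), (810, 4), (817, 5)])
 certFifteen_36)))))))))))))))))

theorem checkFifteen : check slotsFifteen posFifteen [] 14 [] certFifteen = true := by decide +kernel

theorem noPairsFifteen (m : List (ℕ × ℕ × ℕ)) (hlen : m.length = 14)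
    (hslots : (m.map (fun t => t.1)).Subperm slotsFifteen)
    (hpos : (m.flatMap (fun t => [t.2.1, t.2.2])).Subperm posFifteen)
    (hfit : ∀ t ∈ m, t.2.1 + t.2.2 ≤ t.1) : False :=
  no_pairs_of_check slotsFifteen posFifteen 14 certFifteen checkFifteen m hlen hslots hpos hfit

end Vale.Agent.Helper15.P302
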