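import Vale.Agent.Helper15.P302.PairCert

namespace Vale.Agent.Helper15.P302

def slotsTen : List ℕ := [46, 48, 54, 62, 75, 82, 98, 167, 170, 177]

def posTen : List ℕ := [3, 20, 22, 26, 27, 28, 29, 32, 41, 42, 43, 47, 80, 83, 85, 86, 88, 90, 91]

def certTen : Cert :=
 (.pair 3 20
 (.leaf 6 [(22, 3), (26, 3), (27, 3), (28, 3), (29, 3), (32, 3), (41, 3), (42, 3), (43, 3), (47, 3), (80, 2), (83, 1), (85, 1), (86, 1)] [(167, 3), (170, 4), (177, 5)])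
 (.pair 3 22
 (.leaf 6 [(20, 3), (26, 3), (27, 3), (28, 3), (29, 3), (32, 3), (41, 3), (42, 3), (43, 3), (47, 3), (80, 2), (83, 1), (85, 1), (86, 1)] [(167, 3), (170, 4), (177, 5)])
 (.pair 3 26
 (.leaf 6 [(20, 3), (22, 3), (27, 3), (28, 3), (29, 3), (32, 3), (41, 3), (42, 3), (43, 3), (47, 3), (80, 2), (83, 1), (85, 1), (86, 1)] [(167, 3), (170, 4), (177, 5)])
 (.pair 3 27
 (.leaf 6 [(20, 3), (22, 3), (26, 3), (28, 3), (29, 3), (32, 3), (41, 3), (42, 3), (43, 3), (47, 3), (80, 2), (83, 1), (85, 1), (86, 1)] [(167, 3), (170, 4), (177, 5)])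
 (.pair 3 28
 (.leaf 6 [(20, 3), (22, 3), (26, 3), (27, 3), (29, 3), (32, 3), (41, 3), (42, 3), (43, 3), (47, 3), (80, 2), (83, 1), (85, 1), (86, 1)] [(167, 3), (170, 4), (177, 5)])
 (.pair 3 29
 (.leaf 6 [(20, 3), (22, 3), (26, 3), (27, 3), (28, 3), (32, 3), (41, 3), (42, 3), (43, 3), (47, 3), (80, 2), (83, 1), (85, 1), (86, 1)] [(167, 3), (170, 4), (177, 5)])
 (.pair 3 32
 (.leaf 6 [(20, 3), (22, 3), (26, 3), (27, 3), (28, 3), (29, 3), (41, 3), (42, 3), (43, 3), (47, 3), (80, 2), (83, 1), (85, 1), (86, 1)] [(167, 3), (170, 4), (177, 5)])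
 (.pair 3 41
 (.leaf 6 [(20, 3), (22, 3), (26, 3), (27, 3), (28, 3), (29, 3), (32, 3), (42, 3), (43, 3), (47, 3), (80, 2), (83, 1), (85, 1), (86, 1)] [(167, 3), (170, 4), (177, 5)])
 (.pair 3 42
 (.leaf 6 [(20, 3), (22, 3), (26, 3), (27, 3), (28, 3), (29, 3), (32, 3), (41, 3), (43, 3), (47, 3), (80, 2), (83, 1), (85, 1), (86, 1)] [(167, 3), (170, 4), (177, 5)])
 (.pair 3 43
 (.leaf 6 [(20, 3), (22, 3), (26, 3), (27, 3), (28, 3), (29, 3), (32, 3), (41, 3), (42, 3), (47, 3), (80, 2), (83, 1), (85, 1), (86, 1)] [(167, 3), (170, 4), (177, 5)])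
 (.pair 3 47
 (.leaf 6 [(20, 3), (22, 3), (26, 3), (27, 3), (28, 3), (29, 3), (32, 3), (41, 3), (42, 3), (43, 3), (80, 2), (83, 1), (85, 1), (86, 1)] [(167, 3), (170, 4), (177, 5)])
 (.pair 3 80
 (.leaf 6 [(20, 4), (22, 3), (26, 3), (27, 2), (28, 2), (29, 2), (32, 2)] [(54, 1), (62, 2), (75, 4), (82, 4), (98, 6), (167, 6), (170, 6), (177, 6)])
 (.pair 3 83
 (.leaf 6 [(20, 4), (22, 3), (26, 3), (27, 2), (28, 2), (29, 2), (32, 2)] [(54, 1), (62, 2), (75, 4), (82, 4), (98, 6), (167, 6), (170, 6), (177, 6)])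
 (.pair 3 85
 (.leaf 6 [(20, 4), (22, 3), (26, 3), (27, 2), (28, 2), (29, 2), (32, 2)] [(54, 1), (62, 2), (75, 4), (82, 4), (98, 6), (167, 6), (170, 6), (177, 6)])
 (.pair 3 86
 (.leaf 6 [(20, 4), (22, 3), (26, 3), (27, 2), (28, 2), (29, 2), (32, 2)] [(54, 1), (62, 2), (75, 4), (82, 4), (98, 6), (167, 6), (170, 6), (177, 6)])
 (.pair 3 88
 (.leaf 6 [(20, 4), (22, 3), (26, 3), (27, 2), (28, 2), (29, 2), (32, 2)] [(54, 1), (62, 2), (75, 4), (82, 4), (98, 6), (167, 6), (170, 6), (177, 6)])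
 (.pair 3 90
 (.leaf 6 [(20, 4), (22, 3), (26, 3), (27, 2), (28, 2), (29, 2), (32, 2)] [(54, 1), (62, 2), (75, 4), (82, 4), (98, 6), (167, 6), (170, 6), (177, 6)])
 (.pair 3 91
 (.leaf 6 [(20, 4), (22, 3), (26, 3), (27, 2), (28, 2), (29, 2), (32, 2)] [(54, 1), (62, 2), (75, 4), (82, 4), (98, 6), (167, 6), (170, 6), (177, 6)])
 (.absent 3
 (.leaf 6 [(20, 3), (22, 3), (26, 3), (27, 3), (28, 3), (29, 3), (32, 3), (41, 3), (42, 3), (43, 3), (47, 3), (80, 2), (83, 1), (85, 1), (86, 1)] [(167, 3), (170, 4), (177, 5)]))))))))))))))))))))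

theorem checkTen : check slotsTen posTen [] 9 [] certTen = true := by decide +kernel

theorem noPairsTen (m : List (ℕ × ℕ × ℕ)) (hlen : m.length = 9)
    (hslots : (m.map (fun t => t.1)).Subperm slotsTen)
    (hpos : (m.flatMap (fun t => [t.2.1, t.2.2])).Subperm posTen)
    (hfit : ∀ t ∈ m, t.2.1 + t.2.2 ≤ t.1) : False :=
  no_pairs_of_check slotsTen posTen 9 certTen checkTen m hlen hslots hpos hfit

end Vale.Agent.Helper15.P302
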