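import Mathlib

/-!
Pair-slot systems: a list `S` of slot capacities and a list `P` of positives.
A family of filled slots is a list `m` of triples (c, p, q) with `p + q ≤ c`, whose slots
form a sub-multiset of `S` and whose positives form a sub-multiset of `P`.
This file gives a certificate checker proving that no family of `t` filled slots exists.
A certificate is a case tree (on the partner of a chosen positive) whose leaves are
weightings `u` of positives and `s` of slots with `u p + u q + s c ≥ D` on all fitting triples.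
-/

namespace Vale.Agent.Helper15.P302

/-- weight lookup in an association list (`0` when absent) -/
def look : List (ℕ × ℕ) → ℕ → ℕ
  | [], _ => 0
  | (a, w) :: r, x => if a = x then w else look r x

/-- price of the first slot (in list order) of capacity at least `x` -/
def firstFit (x : ℕ) : List (ℕ × ℕ) → Option ℕ
  | [] => none
  | cs :: S => if x ≤ cs.1 then some cs.2 else firstFit x S

/-- prices are non-decreasing along the list -/
def monoB : List (ℕ × ℕ) → Bool
  | [] => true
  | a :: r => (match r with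
      | [] => true
      | b :: _ => Nat.ble a.2 b.2) && monoB r

def pairOK (sS : List (ℕ × ℕ)) (D : ℕ) (a b : ℕ × ℕ) : Bool :=
  match firstFit (a.1 + b.1) sS with
  | none => true
  | some w => Nat.ble D (a.2 + b.2 + w)

def pairsOK (sS : List (ℕ × ℕ)) (D : ℕ) : List (ℕ × ℕ) → Bool
  | [] => true
  | a :: l => l.all (pairOK sS D a) && pairsOK sS D l

def leafOK (S P pend : List ℕ) (t D : ℕ) (ut st : List (ℕ × ℕ)) : Bool :=
  monoB (S.map (fun c => (c, look st c))) &&
  pairsOK (S.map (fun c => (c, look st c))) D (P.map (fun p => (p, look ut p))) &&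
  Nat.blt ((P.map (look ut)).sum + (S.map (look st)).sum)
    (t * D + (pend.map (fun l => (firstFit l (S.map (fun c => (c, look st c)))).getD 0)).sum)

inductive Cert where
  | leaf (D : ℕ) (ut st : List (ℕ × ℕ)) : Cert
  | pair (v q : ℕ) (yes no : Cert) : Cert
  | absent (v : ℕ) (sub : Cert) : Cert

def forbHas (forb : List (ℕ × ℕ)) (v q : ℕ) : Bool :=
  forb.any (fun f => (f.1 == v && f.2 == q) || (f.1 == q && f.2 == v))

def check (S : List ℕ) : List ℕ → List ℕ → ℕ → List (ℕ × ℕ) → Cert → Bool
  | P, pend, t, _, Cert.leaf D ut st => leafOK S P pend t D ut st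
  | P, pend, t, forb, Cert.pair v q yes no =>
      check S ((P.erase v).erase q) ((v + q) :: pend) (t - 1) forb yes &&
      check S P pend t ((v, q) :: forb) no
  | P, pend, t, forb, Cert.absent v sub =>
      (P.erase v).all (fun q => forbHas forb v q || S.all (fun c => Nat.blt c (v + q))) &&
      check S (P.erase v) pend t forb sub

/-- positives of a family of filled slots -/
def posOf (m : List (ℕ × ℕ × ℕ)) : List ℕ := m.flatMap (fun t => [t.2.1, t.2.2])

structure Inv (S P pend : List ℕ) (t : ℕ) (forb : List (ℕ × ℕ)) (m : List (ℕ × ℕ × ℕ)) :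
    Prop where
  cs : ∃ cs : List ℕ, List.Forall₂ (fun l c => l ≤ c) pend cs ∧
    (cs ++ m.map (fun t => t.1)).Subperm S
  pos : (posOf m).Subperm P
  fit : ∀ tr ∈ m, tr.2.1 + tr.2.2 ≤ tr.1
  len : m.length = t
  forb : ∀ tr ∈ m, ∀ f ∈ forb,
    ¬ ((tr.2.1 = f.1 ∧ tr.2.2 = f.2) ∨ (tr.2.1 = f.2 ∧ tr.2.2 = f.1))

theorem monoB_head_le : ∀ (a : ℕ × ℕ) (r : List (ℕ × ℕ)), monoB (a :: r) = true →
    ∀ cs ∈ r, a.2 ≤ cs.2 := by
  intro a r
  induction r generalizing a with
  | nil => intro _ cs hcs; simp at hcs
  | cons b r ih =>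
    intro h cs hcs
    simp only [monoB, Bool.and_eq_true] at h
    have hab : a.2 ≤ b.2 := Nat.le_of_ble_eq_true h.1
    have hb : monoB (b :: r) = true := by
      simp only [monoB, Bool.and_eq_true]; exact h.2
    rcases List.mem_cons.1 hcs with rfl | hcs
    · exact hab
    · exact le_trans hab (ih b hb cs hcs)

theorem monoB_tail : ∀ (a : ℕ × ℕ) (r : List (ℕ × ℕ)), monoB (a :: r) = true →
    monoB r = true := by
  intro a r h
  simp only [monoB, Bool.and_eq_true] at h
  exact h.2

theorem firstFit_le (x : ℕ) : ∀ (sS : List (ℕ × ℕ)), monoB sS = true →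
    ∀ cs ∈ sS, x ≤ cs.1 → ∃ w, firstFit x sS = some w ∧ w ≤ cs.2 := by
  intro sS
  induction sS with
  | nil => intro _ cs hcs; simp at hcs
  | cons a r ih =>
    intro h cs hcs hx
    by_cases ha : x ≤ a.1
    · refine ⟨a.2, by simp [firstFit, ha], ?_⟩
      rcases List.mem_cons.1 hcs with rfl | hcs
      · exact le_rfl
      · exact monoB_head_le a r h cs hcs
    · rcases List.mem_cons.1 hcs with rfl | hcs
      · exact absurd hx ha
      · obtain ⟨w, hw, hle⟩ := ih (monoB_tail a r h) cs hcs hx
        exact ⟨w, by simp [firstFit, ha, hw], hle⟩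

theorem pairOK_symm (sS : List (ℕ × ℕ)) (D : ℕ) (a b : ℕ × ℕ) :
    pairOK sS D a b = pairOK sS D b a := by
  unfold pairOK
  rw [Nat.add_comm a.1 b.1, Nat.add_comm a.2 b.2]

theorem pairsOK_pairwise (sS : List (ℕ × ℕ)) (D : ℕ) : ∀ (l : List (ℕ × ℕ)),
    pairsOK sS D l = true → l.Pairwise (fun a b => pairOK sS D a b = true) := by
  intro l
  induction l with
  | nil => intro _; exact List.Pairwise.nil
  | cons a l ih =>
    intro h
    simp only [pairsOK, Bool.and_eq_true, List.all_eq_true] at h
    exact List.Pairwise.cons h.1 (ih h.2)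

theorem subperm_sum_le (f : ℕ → ℕ) {l₁ l₂ : List ℕ} (h : l₁.Subperm l₂) :
    (l₁.map f).sum ≤ (l₂.map f).sum := by
  obtain ⟨l, hperm, hsub⟩ := h
  have h1 : (l.map f).sum = (l₁.map f).sum := (hperm.map f).sum_eq
  have h2 : (l.map f).sum ≤ (l₂.map f).sum :=
    (hsub.map f).sum_le_sum (fun a _ => Nat.zero_le a)
  omega

theorem length_mul_le_sum {α : Type} (f : α → ℕ) (D : ℕ) : ∀ (l : List α),
    (∀ x ∈ l, D ≤ f x) → l.length * D ≤ (l.map f).sum := by
  intro l
  induction l with
  | nil => intro _; simp
  | cons a l ih =>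
    intro h
    have h1 := h a (List.mem_cons_self)
    have h2 := ih (fun x hx => h x (List.mem_cons_of_mem a hx))
    simp only [List.length_cons, List.map_cons, List.sum_cons]
    rw [Nat.add_mul]
    omega

theorem wsum_eq (u s : ℕ → ℕ) : ∀ (m : List (ℕ × ℕ × ℕ)),
    (m.map (fun tr => u tr.2.1 + u tr.2.2 + s tr.1)).sum =
      ((posOf m).map u).sum + ((m.map (fun t => t.1)).map s).sum := by
  intro m
  induction m with
  | nil => simp [posOf]
  | cons a m ih =>
    simp only [posOf, List.map_cons, List.sum_cons, List.flatMap_cons, List.cons_append,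
      List.nil_append] at ih ⊢
    rw [ih]
    ring

theorem pend_le (s : ℕ → ℕ) (S : List ℕ)
    (hmono : monoB (S.map (fun c => (c, s c))) = true) :
    ∀ (pend cs : List ℕ), List.Forall₂ (fun l c => l ≤ c) pend cs → (∀ c ∈ cs, c ∈ S) →
      (pend.map (fun l => (firstFit l (S.map (fun c => (c, s c)))).getD 0)).sum ≤
        (cs.map s).sum := by
  intro pend cs h
  induction h with
  | nil => intro _; simp
  | @cons l c pend' cs' hlc _ ih =>
    intro hmem
    have hc : c ∈ S := hmem c (List.mem_cons_self)
    have hin : (c, s c) ∈ S.map (fun c => (c, s c)) := List.mem_map.2 ⟨c, hc, rfl⟩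
    obtain ⟨w, hw, hle⟩ := firstFit_le l _ hmono (c, s c) hin hlc
    have h2 := ih (fun c' hc' => hmem c' (List.mem_cons_of_mem c hc'))
    simp only [List.map_cons, List.sum_cons, hw, Option.getD_some]
    simp only at hle
    omega

theorem pair_subperm_of_mem (m : List (ℕ × ℕ × ℕ)) (tr : ℕ × ℕ × ℕ) (h : tr ∈ m) :
    (posOf m).Perm ([tr.2.1, tr.2.2] ++ posOf (m.erase tr)) := by
  have hp : m.Perm (tr :: m.erase tr) := List.perm_cons_erase h
  have := hp.flatMap_right (fun t : ℕ × ℕ × ℕ => [t.2.1, t.2.2])
  simpa [posOf, List.flatMap_cons] using this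

theorem leaf_sound (S P pend : List ℕ) (t D : ℕ) (ut st : List (ℕ × ℕ)) (forb : List (ℕ × ℕ))
    (h : leafOK S P pend t D ut st = true) (m : List (ℕ × ℕ × ℕ))
    (hI : Inv S P pend t forb m) : False := by
  unfold leafOK at h
  simp only [Bool.and_eq_true] at h
  obtain ⟨⟨hmono, hpairs⟩, hlt⟩ := h
  have hlt' := Nat.le_of_ble_eq_true hlt
  obtain ⟨cs, hF, hsub⟩ := hI.cs
  have hcsS : ∀ c ∈ cs, c ∈ S := fun c hc => hsub.subset (List.mem_append_left _ hc)
  have hmS : ∀ tr ∈ m, tr.1 ∈ S := fun tr htr =>
    hsub.subset (List.mem_append_right _ (List.mem_map.2 ⟨tr, htr, rfl⟩))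
  have hpw := pairsOK_pairwise _ D _ hpairs
  -- each member of m has weight at least D
  have h1 : ∀ tr ∈ m, D ≤ look ut tr.2.1 + look ut tr.2.2 + look st tr.1 := by
    intro tr htr
    have hperm := pair_subperm_of_mem m tr htr
    have hsp : ([tr.2.1, tr.2.2] : List ℕ).Subperm P :=
      List.Subperm.trans ⟨[tr.2.1, tr.2.2], List.Perm.refl _, List.sublist_append_left _ _⟩
        (hperm.symm.subperm.trans hI.pos)
    obtain ⟨l0, hl0perm, hl0sub⟩ := hsp
    have hlperm := hl0perm.map (fun p => (p, look ut p))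
    have hlsub := hl0sub.map (fun p => (p, look ut p))
    have hpl := hpw.sublist hlsub
    have hp2 := (hlperm.pairwise_iff (R := fun a b : ℕ × ℕ =>
        pairOK (S.map (fun c => (c, look st c))) D a b = true)
        (fun {a b} hab => by rw [pairOK_symm]; exact hab)).1 hpl
    simp only [List.map_cons, List.map_nil, List.pairwise_cons, List.mem_cons,
      List.not_mem_nil, or_false, forall_eq] at hp2
    have hok := hp2.1
    have hin : (tr.1, look st tr.1) ∈ S.map (fun c => (c, look st c)) :=
      List.mem_map.2 ⟨tr.1, hmS tr htr, rfl⟩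
    obtain ⟨w, hw, hle⟩ := firstFit_le (tr.2.1 + tr.2.2) _ hmono _ hin (hI.fit tr htr)
    unfold pairOK at hok
    simp only [hw] at hok
    have := Nat.le_of_ble_eq_true hok
    simp only at hle
    omega
  have h2 := length_mul_le_sum (fun tr : ℕ × ℕ × ℕ =>
    look ut tr.2.1 + look ut tr.2.2 + look st tr.1) D m h1
  rw [wsum_eq (look ut) (look st) m, hI.len] at h2
  have h3 := subperm_sum_le (look ut) hI.pos
  have h4 := subperm_sum_le (look st) hsub
  rw [List.map_append, List.sum_append] at h4
  have h5 := pend_le (look st) S hmono pend cs hF hcsS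
  omega

theorem check_sound (S : List ℕ) : ∀ (cert : Cert) (P pend : List ℕ) (t : ℕ)
    (forb : List (ℕ × ℕ)), check S P pend t forb cert = true →
    ∀ m : List (ℕ × ℕ × ℕ), Inv S P pend t forb m → False := by
  intro cert
  induction cert with
  | leaf D ut st =>
    intro P pend t forb h m hI
    exact leaf_sound S P pend t D ut st forb h m hI
  | pair v q yes no ihy ihn =>
    intro P pend t forb h m hI
    simp only [check, Bool.and_eq_true] at h
    by_cases hex : ∃ tr ∈ m, (tr.2.1 = v ∧ tr.2.2 = q) ∨ (tr.2.1 = q ∧ tr.2.2 = v)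
    · obtain ⟨tr, htr, hor⟩ := hex
      refine ihy _ _ _ _ h.1 (m.erase tr) ?_
      obtain ⟨cs, hF, hsub⟩ := hI.cs
      have hfit := hI.fit tr htr
      have hvq : v + q ≤ tr.1 := by
        rcases hor with ⟨h1, h2⟩ | ⟨h1, h2⟩ <;> omega
      have hp : m.Perm (tr :: m.erase tr) := List.perm_cons_erase htr
      have hperm := pair_subperm_of_mem m tr htr
      have hpos : (v :: q :: posOf (m.erase tr)).Subperm P := by
        have h0 : ([tr.2.1, tr.2.2] ++ posOf (m.erase tr)).Subperm P :=
          hperm.symm.subperm.trans hI.pos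
        rcases hor with ⟨h1, h2⟩ | ⟨h1, h2⟩
        · rw [h1, h2] at h0; exact h0
        · rw [h1, h2] at h0
          exact (List.Perm.swap q v _).subperm.trans h0
      refine ⟨⟨tr.1 :: cs, List.Forall₂.cons hvq hF, ?_⟩, ?_, ?_, ?_, ?_⟩
      · have hp2 := hp.map (fun t : ℕ × ℕ × ℕ => t.1)
        have : (tr.1 :: cs ++ (m.erase tr).map (fun t => t.1)).Perm
            (cs ++ m.map (fun t => t.1)) := by
          refine List.Perm.trans ?_ (List.Perm.append_left cs hp2.symm)
          simp only [List.map_cons, List.cons_append]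
          exact List.perm_middle.symm
        exact this.subperm.trans hsub
      · have e1 := hpos.erase v
        rw [List.erase_cons_head] at e1
        have e2 := e1.erase q
        rw [List.erase_cons_head] at e2
        exact e2
      · intro tr' htr'
        exact hI.fit tr' (List.mem_of_mem_erase htr')
      · rw [List.length_erase_of_mem htr, hI.len]
      · intro tr' htr'
        exact hI.forb tr' (List.mem_of_mem_erase htr')
    · refine ihn _ _ _ _ h.2 m ⟨hI.cs, hI.pos, hI.fit, hI.len, ?_⟩
      intro tr htr f hf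
      rcases List.mem_cons.1 hf with rfl | hf
      · intro hc
        exact hex ⟨tr, htr, hc⟩
      · exact hI.forb tr htr f hf
  | absent v sub ih =>
    intro P pend t forb h m hI
    simp only [check, Bool.and_eq_true, List.all_eq_true, Bool.or_eq_true] at h
    obtain ⟨hall, hsubc⟩ := h
    obtain ⟨cs, hF, hsub⟩ := hI.cs
    have hmS : ∀ tr ∈ m, tr.1 ∈ S := fun tr htr =>
      hsub.subset (List.mem_append_right _ (List.mem_map.2 ⟨tr, htr, rfl⟩))
    -- a member of m containing v (with partner q') is impossible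
    have key : ∀ tr ∈ m, ∀ q' : ℕ, ((tr.2.1 = v ∧ tr.2.2 = q') ∨ (tr.2.1 = q' ∧ tr.2.2 = v)) →
        False := by
      intro tr htr q' hor
      have hperm := pair_subperm_of_mem m tr htr
      have h0 : ([tr.2.1, tr.2.2] ++ posOf (m.erase tr)).Subperm P :=
        hperm.symm.subperm.trans hI.pos
      have hpos : (v :: q' :: posOf (m.erase tr)).Subperm P := by
        rcases hor with ⟨h1, h2⟩ | ⟨h1, h2⟩
        · rw [h1, h2] at h0; exact h0
        · rw [h1, h2] at h0
          exact (List.Perm.swap q' v _).subperm.trans h0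
      have e1 := hpos.erase v
      rw [List.erase_cons_head] at e1
      have hq' : q' ∈ P.erase v := e1.subset (List.mem_cons_self)
      have hfit := hI.fit tr htr
      have hvq : v + q' ≤ tr.1 := by
        rcases hor with ⟨h1, h2⟩ | ⟨h1, h2⟩ <;> omega
      rcases hall q' hq' with hfb | hno
      · unfold forbHas at hfb
        simp only [List.any_eq_true, Bool.or_eq_true, Bool.and_eq_true, beq_iff_eq] at hfb
        obtain ⟨f, hf, hff⟩ := hfb
        apply hI.forb tr htr f hf
        rcases hor with ⟨h1, h2⟩ | ⟨h1, h2⟩ <;> rcases hff with ⟨h3, h4⟩ | ⟨h3, h4⟩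
        · left; exact ⟨by omega, by omega⟩
        · right; exact ⟨by omega, by omega⟩
        · right; exact ⟨by omega, by omega⟩
        · left; exact ⟨by omega, by omega⟩
      · have := hno tr.1 (hmS tr htr)
        have := Nat.le_of_ble_eq_true this
        omega
    have hv : v ∉ posOf m := by
      intro hv
      unfold posOf at hv
      obtain ⟨tr, htr, hmem⟩ := List.mem_flatMap.1 hv
      simp only [List.mem_cons, List.not_mem_nil, or_false] at hmem
      rcases hmem with h1 | h1
      · exact key tr htr tr.2.2 (Or.inl ⟨h1.symm, rfl⟩)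
      · exact key tr htr tr.2.1 (Or.inr ⟨rfl, h1.symm⟩)
    refine ih _ _ _ _ hsubc m ⟨⟨cs, hF, hsub⟩, ?_, hI.fit, hI.len, hI.forb⟩
    have e := hI.pos.erase v
    rw [List.erase_of_not_mem hv] at e
    exact e

/-- Soundness of the checker: a passing certificate excludes `t` filled slots. -/
theorem no_pairs_of_check (S P : List ℕ) (t : ℕ) (cert : Cert)
    (h : check S P [] t [] cert = true) (m : List (ℕ × ℕ × ℕ)) (hlen : m.length = t)
    (hslots : (m.map (fun t => t.1)).Subperm S)
    (hpos : (m.flatMap (fun t => [t.2.1, t.2.2])).Subperm P)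
    (hfit : ∀ t ∈ m, t.2.1 + t.2.2 ≤ t.1) : False :=
  check_sound S cert P [] t [] h m
    ⟨⟨[], List.Forall₂.nil, by simpa using hslots⟩, hpos, hfit, hlen,
      fun _ _ f hf => by simp at hf⟩

end Vale.Agent.Helper15.P302
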